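import Crest.Agent.R112.Apx

/-! # Row 112: operations on approximable pairs (task ABS) -/

set_option autoImplicit false

namespace Crest.Agent.R112

open MeasureTheory Metric
open scoped RealInnerProductSpace

theorem Sm.add {u v : E → ℝ} (hu : Sm u) (hv : Sm v) : Sm fun y => u y + v y :=
  ⟨hu.cd.add hv.cd, hu.cs.add hv.cs⟩

theorem Sm.sub {u v : E → ℝ} (hu : Sm u) (hv : Sm v) : Sm fun y => u y - v y :=
  ⟨hu.cd.sub hv.cd, hu.cs.sub hv.cs⟩

theorem Sm.mul {a u : E → ℝ} (ha : Sm a) (hu : ContDiff ℝ 2 u) : Sm fun y => a y * u y :=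
  ⟨ha.cd.mul hu, ha.cs.mul_right⟩

theorem Sm.abs_diff {u : E → ℝ} (hu : Sm u) (y : E) : DifferentiableAt ℝ u y :=
  hu.cd.differentiable (by norm_num) y

theorem abs_gradient_add {u v : E → ℝ} (hu : Sm u) (hv : Sm v) (y : E) :
    gradient (fun y => u y + v y) y = gradient u y + gradient v y := by
  unfold gradient
  rw [fderiv_fun_add (hu.abs_diff y) (hv.abs_diff y), map_add]

theorem Sm.sum {ι : Type*} (s : Finset ι) {u : ι → E → ℝ} (hu : ∀ i ∈ s, Sm (u i)) :
    (Sm fun y => ∑ i ∈ s, u i y) ∧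
      ∀ y, gradient (fun y => ∑ i ∈ s, u i y) y = ∑ i ∈ s, gradient (u i) y := by
  classical
  induction s using Finset.induction_on with
  | empty =>
    simp only [Finset.sum_empty]
    exact ⟨⟨contDiff_const, HasCompactSupport.zero⟩, fun y => by simp⟩
  | insert i s hi ih =>
    obtain ⟨h1, h2⟩ := ih fun j hj => hu j (Finset.mem_insert_of_mem hj)
    have h3 := hu i (Finset.mem_insert_self i s)
    simp only [Finset.sum_insert hi]
    exact ⟨h3.add h1, fun y => by rw [abs_gradient_add h3 h1, h2]⟩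

theorem Sm.gradient_add {u v : E → ℝ} (hu : Sm u) (hv : Sm v) (y : E) :
    gradient (fun y => u y + v y) y = gradient u y + gradient v y := abs_gradient_add hu hv y

theorem Sm.gradient_sub {u v : E → ℝ} (hu : Sm u) (hv : Sm v) (y : E) :
    gradient (fun y => u y - v y) y = gradient u y - gradient v y := by
  unfold gradient
  rw [fderiv_fun_sub (hu.abs_diff y) (hv.abs_diff y), map_sub]

theorem Apx.sub_sm {f P : E → ℝ} {g : E → E} (h : Apx f g) (hP : Sm P) :
    Apx (fun y => f y - P y) (fun y => g y - gradient P y) := by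
  refine ⟨h.fi.sub hP.integrable, h.gi.sub hP.integrable_grad, fun ε hε => ?_⟩
  obtain ⟨f₁, h1, h2, h3⟩ := h.ap ε hε
  refine ⟨_, h1.sub hP, ?_, ?_⟩
  · simpa only [sub_sub_sub_cancel_right] using h2
  · simpa only [h1.gradient_sub hP, sub_sub_sub_cancel_right] using h3

/-- a fast approximating sequence converges a.e. (`∑ ∫ |f - u n| < ∞`, or
`tendstoInMeasure_of_tendsto_eLpNorm` and `TendstoInMeasure.exists_seq_tendsto_ae`) -/
theorem Apx.exists_seq {f : E → ℝ} {g : E → E} (h : Apx f g) : ∃ u : ℕ → E → ℝ,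
    (∀ n, Sm (u n)) ∧ Filter.Tendsto (fun n => ∫ y, |f y - u n y|) Filter.atTop (nhds 0) ∧
    Filter.Tendsto (fun n => ∫ y, ‖g y - gradient (u n) y‖) Filter.atTop (nhds 0) ∧
    ∀ᵐ y, Filter.Tendsto (fun n => u n y) Filter.atTop (nhds (f y)) := by
  choose v h1 h2 h3 using fun n : ℕ => h.ap (1 / ((n : ℝ) + 1)) (by positivity)
  have t1 : Filter.Tendsto (fun n => ∫ y, |f y - v n y|) Filter.atTop (nhds 0) :=
    squeeze_zero (fun n => integral_nonneg fun y => abs_nonneg _) h2
      tendsto_one_div_add_atTop_nhds_zero_nat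
  have t2 : Filter.Tendsto (fun n => ∫ y, ‖g y - gradient (v n) y‖) Filter.atTop (nhds 0) :=
    squeeze_zero (fun n => integral_nonneg fun y => norm_nonneg _) h3
      tendsto_one_div_add_atTop_nhds_zero_nat
  have t3 : TendstoInMeasure volume v Filter.atTop f := by
    refine tendstoInMeasure_of_tendsto_eLpNorm one_ne_zero
      (fun n => (h1 n).integrable.aestronglyMeasurable) h.fi.aestronglyMeasurable ?_
    have := ENNReal.tendsto_ofReal t1
    rw [ENNReal.ofReal_zero] at this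
    refine this.congr fun n => ?_
    rw [eLpNorm_one_eq_lintegral_enorm,
      ← ofReal_integral_norm_eq_lintegral_enorm ((h1 n).integrable.sub h.fi)]
    simp only [Pi.sub_apply, Real.norm_eq_abs, abs_sub_comm]
  obtain ⟨ns, hns, hae⟩ := t3.exists_seq_tendsto_ae
  exact ⟨fun n => v (ns n), fun n => h1 _, t1.comp hns.tendsto_atTop, t2.comp hns.tendsto_atTop,
    hae⟩

theorem abs_gradient_comp {u : E → ℝ} (hu : Sm u) {Φ : ℝ → ℝ} (hΦ : ContDiff ℝ 2 Φ) (y : E) :
    gradient (fun y => Φ (u y)) y = deriv Φ (u y) • gradient u y := by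
  have h1 := (hΦ.differentiable (by norm_num) (u y)).hasDerivAt.comp_hasFDerivAt y
    (hu.abs_diff y).hasFDerivAt
  unfold gradient
  rw [← map_smul, ← h1.fderiv]
  rfl

/-- chain rule for `Φ ∈ C²`, `Φ 0 = 0`, `|Φ'| ≤ 1`: `Φ ∘ u n` is `Sm`,
`‖Φ'(f) g - Φ'(u n) ∇u n‖ ≤ |Φ'(f) - Φ'(u n)| ‖g‖ + ‖g - ∇u n‖`, dominated convergence -/
theorem Apx.comp {f : E → ℝ} {g : E → E} (h : Apx f g) {Φ : ℝ → ℝ} (hΦ : ContDiff ℝ 2 Φ)
    (h0 : Φ 0 = 0) (h1 : ∀ t, |deriv Φ t| ≤ 1) :
    Apx (fun y => Φ (f y)) (fun y => deriv Φ (f y) • g y) := by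
  have hL : LipschitzWith 1 Φ := lipschitzWith_of_nnnorm_deriv_le
    (hΦ.differentiable (by norm_num)) fun t => by
      rw [← NNReal.coe_le_coe]
      simpa using h1 t
  have hL' : ∀ s t, |Φ s - Φ t| ≤ |s - t| := fun s t => by
    simpa [Real.dist_eq] using hL.dist_le_mul s t
  have hd : Continuous (deriv Φ) := hΦ.continuous_deriv (by norm_num)
  have hdm : ∀ {w : E → ℝ}, AEStronglyMeasurable w volume →
      AEStronglyMeasurable (fun y => deriv Φ (w y)) volume := fun hw =>
    hd.comp_aestronglyMeasurable hw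
  have hfi : Integrable fun y => Φ (f y) :=
    h.fi.mono (hΦ.continuous.comp_aestronglyMeasurable h.fi.aestronglyMeasurable)
      (Filter.Eventually.of_forall fun y => by simpa [h0] using hL' (f y) 0)
  have hgi : Integrable fun y => deriv Φ (f y) • g y :=
    h.gi.mono ((hdm h.fi.aestronglyMeasurable).smul h.gi.aestronglyMeasurable)
      (Filter.Eventually.of_forall fun y => by
        rw [norm_smul, Real.norm_eq_abs]
        exact mul_le_of_le_one_left (norm_nonneg _) (h1 _))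
  refine ⟨hfi, hgi, fun ε hε => ?_⟩
  obtain ⟨u, hu, t1, t2, hae⟩ := h.exists_seq
  have hb : ∀ n y, ‖|deriv Φ (f y) - deriv Φ (u n y)| * ‖g y‖‖ ≤ 2 * ‖g y‖ := fun n y => by
    rw [Real.norm_of_nonneg (by positivity)]
    refine mul_le_mul_of_nonneg_right ((abs_sub _ _).trans ?_) (norm_nonneg _)
    linarith [h1 (f y), h1 (u n y)]
  have hm : ∀ n, AEStronglyMeasurable (fun y => |deriv Φ (f y) - deriv Φ (u n y)| * ‖g y‖)
      volume := fun n =>
    (continuous_abs.comp_aestronglyMeasurable ((hdm h.fi.aestronglyMeasurable).sub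
      (hdm (hu n).integrable.aestronglyMeasurable))).mul h.gi.aestronglyMeasurable.norm
  have t3 := tendsto_integral_of_dominated_convergence (f := fun _ => (0 : ℝ))
    (fun y => 2 * ‖g y‖) hm (h.gi.norm.const_mul 2)
    (fun n => Filter.Eventually.of_forall (hb n)) (hae.mono fun y hy => by
      have := (((hd.tendsto (f y)).comp hy).const_sub (deriv Φ (f y))).abs.mul_const ‖g y‖
      simpa using this)
  rw [integral_zero] at t3
  have t4 := t3.add t2
  rw [add_zero] at t4
  obtain ⟨n, a1, a2⟩ := ((t1.eventually (gt_mem_nhds hε)).and (t4.eventually (gt_mem_nhds hε))).exists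
  have hS : Sm fun y => Φ (u n y) := ⟨hΦ.comp (hu n).cd, (hu n).cs.comp_left h0⟩
  refine ⟨_, hS, le_trans (integral_mono (hfi.sub hS.integrable).abs
    (h.fi.sub (hu n).integrable).abs fun y => hL' _ _) a1.le, le_trans ?_ a2.le⟩
  have i1 : Integrable fun y => |deriv Φ (f y) - deriv Φ (u n y)| * ‖g y‖ :=
    (h.gi.norm.const_mul 2).mono' (hm n) (Filter.Eventually.of_forall (hb n))
  have i2 : Integrable fun y => ‖g y - gradient (u n) y‖ :=
    (h.gi.sub (hu n).integrable_grad).norm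
  rw [← integral_add i1 i2]
  refine integral_mono (hgi.sub hS.integrable_grad).norm (i1.add i2) fun y => ?_
  have e : deriv Φ (f y) • g y - gradient (fun y => Φ (u n y)) y =
      (deriv Φ (f y) - deriv Φ (u n y)) • g y +
        deriv Φ (u n y) • (g y - gradient (u n) y) := by
    rw [abs_gradient_comp (hu n) hΦ]
    module
  show ‖deriv Φ (f y) • g y - gradient (fun y => Φ (u n y)) y‖ ≤
    |deriv Φ (f y) - deriv Φ (u n y)| * ‖g y‖ + ‖g y - gradient (u n) y‖
  rw [e]
  refine (norm_add_le _ _).trans (add_le_add ?_ ?_)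
  · rw [norm_smul, Real.norm_eq_abs]
  · rw [norm_smul, Real.norm_eq_abs]
    exact mul_le_of_le_one_left (norm_nonneg _) (h1 _)

theorem abs_deriv_sqrt {ε : ℝ} (hε : 0 < ε) (t : ℝ) :
    deriv (fun t : ℝ => √(t ^ 2 + ε ^ 2) - ε) t = t / √(t ^ 2 + ε ^ 2) := by
  have h1 : HasDerivAt (fun t : ℝ => t ^ 2 + ε ^ 2) (2 * t) t := by
    simpa using (hasDerivAt_pow 2 t).add_const (ε ^ 2)
  rw [((h1.sqrt (by positivity)).sub_const ε).deriv]
  have : 0 < √(t ^ 2 + ε ^ 2) := Real.sqrt_pos.2 (by positivity)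
  field_simp

theorem abs_div_sqrt_le (ε t : ℝ) : |t / √(t ^ 2 + ε ^ 2)| ≤ 1 := by
  rw [abs_div, abs_of_nonneg (Real.sqrt_nonneg _)]
  exact div_le_one_of_le₀ (Real.abs_le_sqrt (by nlinarith [sq_nonneg ε])) (Real.sqrt_nonneg _)

/-- `Φ_ε t = √(t² + ε²) - ε`, `g' = sign (f y) • g y`, `Apx.of_approx`, dominated convergence -/
theorem Apx.abs {f : E → ℝ} {g : E → E} (h : Apx f g) :
    ∃ g' : E → E, Apx (fun y => |f y|) g' ∧ ∫ y, ‖g' y‖ ≤ ∫ y, ‖g y‖ := by
  have hm : ∀ ε : ℝ, AEStronglyMeasurable (fun y => (f y / √(f y ^ 2 + ε ^ 2)) • g y) volume := by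
    intro ε
    have h1 : Measurable fun t : ℝ => t / √(t ^ 2 + ε ^ 2) := by fun_prop
    exact (h1.comp_aemeasurable h.fi.aemeasurable).aestronglyMeasurable.smul
      h.gi.aestronglyMeasurable
  have hb : ∀ (ε : ℝ) y, ‖(f y / √(f y ^ 2 + ε ^ 2)) • g y‖ ≤ ‖g y‖ := fun ε y => by
    rw [norm_smul, Real.norm_eq_abs]
    exact mul_le_of_le_one_left (norm_nonneg _) (abs_div_sqrt_le _ _)
  have hi : Integrable fun y => (f y / √(f y ^ 2 + 0 ^ 2)) • g y :=
    h.gi.mono (hm 0) (Filter.Eventually.of_forall (hb 0))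
  refine ⟨fun y => (f y / √(f y ^ 2 + 0 ^ 2)) • g y, Apx.of_approx h.fi.abs hi fun ε hε => ?_,
    integral_mono hi.norm h.gi.norm (hb 0)⟩
  have te : Filter.Tendsto (fun n : ℕ => 1 / ((n : ℝ) + 1)) Filter.atTop (nhds 0) :=
    tendsto_one_div_add_atTop_nhds_zero_nat
  have t1 := tendsto_integral_of_dominated_convergence (μ := (volume : Measure E))
    (F := fun (n : ℕ) y => |(|f y| - (√(f y ^ 2 + (1 / ((n : ℝ) + 1)) ^ 2) - 1 / ((n : ℝ) + 1)))|)
    (f := fun _ => (0 : ℝ)) (fun y => |f y|) (fun n => by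
      have h1 : Continuous fun t : ℝ =>
        |(|t| - (√(t ^ 2 + (1 / ((n : ℝ) + 1)) ^ 2) - 1 / ((n : ℝ) + 1)))| := by fun_prop
      exact h1.comp_aestronglyMeasurable h.fi.aestronglyMeasurable) h.fi.abs
    (fun n => Filter.Eventually.of_forall fun y => by
      have h0 : (0 : ℝ) < 1 / ((n : ℝ) + 1) := by positivity
      generalize 1 / ((n : ℝ) + 1) = e at h0
      have h1 : e ≤ √(f y ^ 2 + e ^ 2) := Real.le_sqrt_of_sq_le (by nlinarith [sq_nonneg (f y)])
      have h2 : √(f y ^ 2 + e ^ 2) ≤ |f y| + e := Real.sqrt_le_iff.2 ⟨by positivity, by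
        rw [← sq_abs (f y)]
        nlinarith [abs_nonneg (f y)]⟩
      rw [Real.norm_eq_abs, abs_abs, abs_of_nonneg (by linarith)]
      linarith)
    (Filter.Eventually.of_forall fun y => by
      have h1 : Continuous fun e : ℝ => |(|f y| - (√(f y ^ 2 + e ^ 2) - e))| := by fun_prop
      have := (h1.tendsto 0).comp te
      simpa [Real.sqrt_sq_eq_abs, Function.comp_def] using this)
  have t2 := tendsto_integral_of_dominated_convergence (μ := (volume : Measure E))
    (F := fun (n : ℕ) y => ‖(f y / √(f y ^ 2 + 0 ^ 2)) • g y -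
      (f y / √(f y ^ 2 + (1 / ((n : ℝ) + 1)) ^ 2)) • g y‖)
    (f := fun _ => (0 : ℝ)) (fun y => 2 * ‖g y‖) (fun n => ((hm 0).sub (hm _)).norm)
    (h.gi.norm.const_mul 2)
    (fun n => Filter.Eventually.of_forall fun y => by
      rw [norm_norm]
      refine (norm_sub_le _ _).trans ?_
      linarith [hb 0 y, hb (1 / ((n : ℝ) + 1)) y])
    (Filter.Eventually.of_forall fun y => by
      by_cases hy : f y = 0
      · simp [hy]
      · have h2 : √(f y ^ 2 + 0 ^ 2) ≠ 0 := (Real.sqrt_pos.2 (by positivity)).ne'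
        have h1 : ContinuousAt (fun e : ℝ => ‖(f y / √(f y ^ 2 + 0 ^ 2)) • g y -
            (f y / √(f y ^ 2 + e ^ 2)) • g y‖) 0 := by
          have h3 : ContinuousAt (fun e : ℝ => f y / √(f y ^ 2 + e ^ 2)) 0 :=
            continuousAt_const.div (by fun_prop) h2
          fun_prop
        have := h1.tendsto.comp te
        simpa only [sub_self, norm_zero, Function.comp_def] using this)
  rw [integral_zero] at t1 t2
  obtain ⟨n, a1, a2⟩ := ((t1.eventually (gt_mem_nhds hε)).and (t2.eventually (gt_mem_nhds hε))).exists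
  have h0 : (0 : ℝ) < 1 / ((n : ℝ) + 1) := by positivity
  have hΦ : ContDiff ℝ 2 fun t : ℝ => √(t ^ 2 + (1 / ((n : ℝ) + 1)) ^ 2) - 1 / ((n : ℝ) + 1) :=
    (ContDiff.sqrt (by fun_prop) fun t => by positivity).sub contDiff_const
  have := h.comp hΦ (by
    rw [zero_pow two_ne_zero, zero_add, Real.sqrt_sq h0.le, sub_self]) fun t => by
      rw [abs_deriv_sqrt h0]
      exact abs_div_sqrt_le _ _
  simp only [abs_deriv_sqrt h0] at this
  exact ⟨_, _, this, a1.le, a2.le⟩

end Crest.Agent.R112
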