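import Crest.Agent.R112.Smooth

/-! # Row 112: approximation by `C²_c` functions (task APX) -/

set_option autoImplicit false

namespace Crest.Agent.R112

open MeasureTheory Metric
open scoped RealInnerProductSpace

/-- `a y = α (D⁻¹ • (y - p))` for a fixed `α : ContDiffBump (0 : E)`, `rIn = 1`, `rOut = 2` -/
theorem exists_cut2 : ∃ Ca : ℝ, 0 < Ca ∧ ∀ (p : E) (D : ℝ), 0 < D → ∃ a : E → ℝ, Sm a ∧
    (∀ y, 0 ≤ a y ∧ a y ≤ 1) ∧ (∀ y, ‖y - p‖ ≤ D → a y = 1) ∧
    (∀ y, 2 * D ≤ ‖y - p‖ → a y = 0) ∧ (∀ y, ‖gradient a y‖ ≤ Ca / D) ∧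
    (∀ y, 2 * D < ‖y - p‖ → gradient a y = 0) := by
  let α : ContDiffBump (0 : E) := ⟨1, 2, one_pos, one_lt_two⟩
  have hα : ContDiff ℝ 2 α := α.contDiff
  obtain ⟨C, hC⟩ := (hα.continuous_fderiv (by norm_num)).bounded_above_of_compact_support
    (α.hasCompactSupport.fderiv ℝ)
  refine ⟨C + 1, by linarith [(norm_nonneg _).trans (hC 0)], fun p D hD => ?_⟩
  have hn : ∀ y : E, ‖D⁻¹ • (y - p)‖ = ‖y - p‖ / D := fun y => by
    rw [norm_smul, norm_inv, Real.norm_of_nonneg hD.le, div_eq_inv_mul]
  have hz : ∀ y, 2 * D ≤ ‖y - p‖ → α (D⁻¹ • (y - p)) = 0 := fun y hy =>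
    α.zero_of_le_dist (by rw [dist_zero_right, hn, le_div_iff₀ hD]; exact hy)
  refine ⟨fun y => α (D⁻¹ • (y - p)), ⟨hα.comp (by fun_prop), ?_⟩,
    fun y => ⟨α.nonneg, α.le_one⟩, fun y hy => ?_, hz, fun y => ?_, fun y hy => ?_⟩
  · refine HasCompactSupport.intro (isCompact_closedBall p (2 * D)) fun y hy => hz y ?_
    rw [mem_closedBall, dist_eq_norm] at hy
    linarith
  · exact α.one_of_mem_closedBall (by rw [mem_closedBall, dist_zero_right, hn, div_le_one hD]; exact hy)
  · have h1 : HasFDerivAt (fun y : E => D⁻¹ • (y - p)) (D⁻¹ • ContinuousLinearMap.id ℝ E) y :=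
      ((hasFDerivAt_id y).sub_const p).const_smul D⁻¹
    have h2 := ((hα.differentiable (by norm_num)) (D⁻¹ • (y - p))).hasFDerivAt.comp y h1
    rw [gradient, LinearIsometryEquiv.norm_map]
    erw [h2.fderiv]
    refine (ContinuousLinearMap.opNorm_comp_le _ _).trans ?_
    rw [norm_smul, norm_inv, Real.norm_of_nonneg hD.le, div_eq_mul_inv]
    refine mul_le_mul (by linarith [hC (D⁻¹ • (y - p))])
      (mul_le_of_le_one_right (by positivity) ContinuousLinearMap.norm_id_le) (by positivity)
      (by linarith [(norm_nonneg _).trans (hC 0)])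
  · have h1 : (fun y => α (D⁻¹ • (y - p))) =ᶠ[nhds y] fun _ => (0 : ℝ) := by
      have : IsOpen {y : E | 2 * D < ‖y - p‖} := isOpen_lt continuous_const (by fun_prop)
      filter_upwards [this.mem_nhds hy] with z hz' using hz z (le_of_lt hz')
    rw [h1.gradient_eq, gradient_fun_const]

/-- product rule -/
theorem gradient_mul' {a u : E → ℝ} {y : E} (ha : DifferentiableAt ℝ a y)
    (hu : DifferentiableAt ℝ u y) :
    gradient (fun y => a y * u y) y = a y • gradient u y + u y • gradient a y := by
  simp only [gradient]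
  rw [fderiv_fun_mul ha hu, map_add, map_smul, map_smul]

/-- cutoff: `a_R u` with `a_R` from `exists_cut2` (`p = 0`, `D = R → ∞`);
`‖∇u - ∇(a_R u)‖ ≤ (1 - a_R) ‖∇u‖ + Ca/R |u|`, dominated convergence -/
theorem apx_of_contDiff {u : E → ℝ} (hu : ContDiff ℝ 2 u) (hi : Integrable u)
    (hg : Integrable (gradient u)) : Apx u (gradient u) := by
  refine ⟨hi, hg, fun ε hε => ?_⟩
  obtain ⟨Ca, hCa, h⟩ := exists_cut2
  choose a ha h01 h1 _ hb _ using fun n : ℕ => h 0 ((n : ℝ) + 1) (by positivity)
  have hsm : ∀ n, Sm fun y => a n y * u y := fun n =>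
    ⟨(ha n).cd.mul hu, (ha n).cs.mul_right⟩
  have hev : ∀ y : E, ∀ᶠ n : ℕ in Filter.atTop, a n y = 1 := fun y => by
    filter_upwards [Filter.eventually_ge_atTop ⌈‖y‖⌉₊] with n hn
    refine h1 n y ?_
    have := Nat.ceil_le.1 hn
    rw [sub_zero]
    linarith
  have hgr : ∀ n y, gradient u y - gradient (fun y => a n y * u y) y =
      (1 - a n y) • gradient u y - u y • gradient (a n) y := fun n y => by
    rw [gradient_mul' ((ha n).cd.differentiable (by norm_num) y)
      (hu.differentiable (by norm_num) y), sub_smul, one_smul]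
    abel
  have t1 : Filter.Tendsto (fun n => ∫ y, |u y - a n y * u y|) Filter.atTop (nhds (∫ _ : E, 0)) := by
    refine tendsto_integral_of_dominated_convergence (fun y => |u y|)
      (fun n => (hi.sub (hsm n).integrable).abs.aestronglyMeasurable) hi.abs
      (fun n => Filter.Eventually.of_forall fun y => ?_)
      (Filter.Eventually.of_forall fun y => ?_)
    · rw [Real.norm_of_nonneg (abs_nonneg _), ← one_sub_mul, abs_mul,
        abs_of_nonneg (sub_nonneg.2 (h01 n y).2)]
      exact mul_le_of_le_one_left (abs_nonneg _) (by linarith [(h01 n y).1])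
    · refine tendsto_const_nhds.congr' ?_
      filter_upwards [hev y] with n hn
      simp [hn]
  have t2 : Filter.Tendsto (fun n => ∫ y, ‖gradient u y - gradient (fun y => a n y * u y) y‖)
      Filter.atTop (nhds (∫ _ : E, 0)) := by
    refine tendsto_integral_of_dominated_convergence (fun y => ‖gradient u y‖ + |u y| * Ca)
      (fun n => (hg.sub (hsm n).integrable_grad).norm.aestronglyMeasurable)
      (hg.norm.add (hi.abs.mul_const Ca))
      (fun n => Filter.Eventually.of_forall fun y => ?_)
      (Filter.Eventually.of_forall fun y => ?_)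
    · rw [norm_norm, hgr]
      refine (norm_sub_le _ _).trans (add_le_add ?_ ?_)
      · rw [norm_smul, Real.norm_of_nonneg (sub_nonneg.2 (h01 n y).2)]
        exact mul_le_of_le_one_left (norm_nonneg _) (by linarith [(h01 n y).1])
      · rw [norm_smul, Real.norm_eq_abs]
        refine mul_le_mul_of_nonneg_left ((hb n y).trans ?_) (abs_nonneg _)
        exact div_le_self hCa.le (by linarith [(n.cast_nonneg : (0 : ℝ) ≤ n)])
    · have t3 : Filter.Tendsto (fun n : ℕ => |u y| * (Ca * (1 / ((n : ℝ) + 1)))) Filter.atTop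
          (nhds (|u y| * (Ca * 0))) :=
        ((tendsto_one_div_add_atTop_nhds_zero_nat).const_mul Ca).const_mul _
      rw [mul_zero, mul_zero] at t3
      refine squeeze_zero' (Filter.Eventually.of_forall fun n => norm_nonneg _) ?_ t3
      filter_upwards [hev y] with n hn
      rw [hgr, hn, sub_self, zero_smul, zero_sub, norm_neg, norm_smul, Real.norm_eq_abs,
        mul_one_div]
      exact mul_le_mul_of_nonneg_left (hb n y) (abs_nonneg _)
  rw [integral_zero] at t1 t2
  obtain ⟨n, hn1, hn2⟩ := ((t1.eventually (ge_mem_nhds hε)).and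
    (t2.eventually (ge_mem_nhds hε))).exists
  exact ⟨_, hsm n, hn1, hn2⟩

theorem apx_tri {F : Type*} [NormedAddCommGroup F] {a b c : E → F} (ha : Integrable a)
    (hb : Integrable b) (hc : Integrable c) :
    ∫ y, ‖a y - c y‖ ≤ (∫ y, ‖a y - b y‖) + ∫ y, ‖b y - c y‖ := by
  have h1 : Integrable fun y => ‖a y - b y‖ := (ha.sub hb).norm
  have h2 : Integrable fun y => ‖b y - c y‖ := (hb.sub hc).norm
  rw [← integral_add h1 h2]
  exact integral_mono (ha.sub hc).norm (h1.add h2)
    fun y => norm_sub_le_norm_sub_add_norm_sub _ _ _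

/-- `Apx` is closed in `L¹ × L¹` -/
theorem Apx.of_approx {f : E → ℝ} {g : E → E} (hf : Integrable f) (hg : Integrable g)
    (h : ∀ ε : ℝ, 0 < ε → ∃ f' g', Apx f' g' ∧ ∫ y, |f y - f' y| ≤ ε ∧ ∫ y, ‖g y - g' y‖ ≤ ε) :
    Apx f g := by
  refine ⟨hf, hg, fun ε hε => ?_⟩
  obtain ⟨f', g', ha, h1, h2⟩ := h (ε / 2) (half_pos hε)
  obtain ⟨f₁, hs, h3, h4⟩ := ha.ap (ε / 2) (half_pos hε)
  refine ⟨f₁, hs, ?_, ?_⟩
  · have := apx_tri hf ha.fi hs.integrable
    simp only [Real.norm_eq_abs] at this
    linarith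
  · have := apx_tri hg ha.gi hs.integrable_grad
    linarith

/-- bump functions with shrinking support -/
noncomputable def apxB (n : ℕ) : ContDiffBump (0 : E) :=
  ⟨1 / ((n : ℝ) + 1) / 2, 1 / ((n : ℝ) + 1), by positivity, half_lt_self (by positivity)⟩

theorem apx_moll {F : Type*} [NormedAddCommGroup F] [NormedSpace ℝ F] [CompleteSpace F]
    {h : E → F} (hh : Integrable h) :
    Filter.Tendsto (fun n => ∫ x, ‖h x -
      convolution ((apxB n).normed volume) h (ContinuousLinearMap.lsmul ℝ ℝ) volume x‖)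
      Filter.atTop (nhds 0) := by
  set u : ℕ → E → F := fun n =>
    convolution ((apxB n).normed volume) h (ContinuousLinearMap.lsmul ℝ ℝ) volume with hu
  set v : ℕ → E → ℝ := fun n => convolution ((apxB n).normed volume) (fun x => ‖h x‖)
    (ContinuousLinearMap.lsmul ℝ ℝ) volume with hv
  have hr : Filter.Tendsto (fun n => (apxB n).rOut) Filter.atTop (nhds 0) :=
    tendsto_one_div_add_atTop_nhds_zero_nat
  have hK : ∀ᶠ n in Filter.atTop, (apxB n).rOut ≤ 2 * (apxB n).rIn :=
    Filter.Eventually.of_forall fun n => le_of_eq (by simp only [apxB]; ring)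
  have a1 := ContDiffBump.ae_convolution_tendsto_right_of_locallyIntegrable hr hK
    hh.locallyIntegrable
  have a2 := ContDiffBump.ae_convolution_tendsto_right_of_locallyIntegrable hr hK
    hh.norm.locallyIntegrable
  have iu : ∀ n, Integrable (u n) := fun n =>
    (apxB n).integrable_normed.integrable_convolution _ hh
  have iv : ∀ n, Integrable (v n) := fun n =>
    (apxB n).integrable_normed.integrable_convolution _ hh.norm
  have ev : ∀ n, ∫ x, v n x = ∫ x, ‖h x‖ := fun n => by
    rw [hv]
    simp only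
    rw [integral_convolution _ (apxB n).integrable_normed hh.norm, (apxB n).integral_normed]
    simp
  have le : ∀ n x, ‖u n x‖ ≤ v n x := fun n x => by
    simp only [hu, hv, convolution_lsmul]
    refine (norm_integral_le_integral_norm _).trans (le_of_eq ?_)
    refine integral_congr_ae (Filter.Eventually.of_forall fun t => ?_)
    simp only
    rw [norm_smul, Real.norm_of_nonneg ((apxB n).nonneg_normed t), smul_eq_mul]
  have ic : ∀ n, Integrable fun x => max (‖h x - u n x‖ - v n x + ‖h x‖) 0 := fun n =>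
    (((hh.sub (iu n)).norm.sub (iv n)).add hh.norm).pos_part
  have t : Filter.Tendsto (fun n => ∫ x, max (‖h x - u n x‖ - v n x + ‖h x‖) 0) Filter.atTop
      (nhds (∫ _ : E, 0)) := by
    refine tendsto_integral_of_dominated_convergence (fun x => 2 * ‖h x‖)
      (fun n => (ic n).aestronglyMeasurable) (hh.norm.const_mul 2)
      (fun n => Filter.Eventually.of_forall fun x => ?_) ?_
    · rw [Real.norm_of_nonneg (le_max_right _ _)]
      refine max_le ?_ (by positivity)
      linarith [norm_sub_le (h x) (u n x), le n x]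
    · filter_upwards [a1, a2] with x h1 h2
      have := ((((tendsto_const_nhds (x := h x)).sub h1).norm.sub h2).add
        (tendsto_const_nhds (x := ‖h x‖))).max (tendsto_const_nhds (x := (0 : ℝ)))
      simpa using this
  rw [integral_zero] at t
  refine squeeze_zero (fun n => integral_nonneg fun x => norm_nonneg _) (fun n => ?_) t
  have h1 : ∫ x, (‖h x - u n x‖ - v n x + ‖h x‖) ≤ ∫ x, max (‖h x - u n x‖ - v n x + ‖h x‖) 0 :=
    integral_mono (((hh.sub (iu n)).norm.sub (iv n)).add hh.norm) (ic n) fun x => le_max_left _ _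
  have h2 : Integrable fun x => ‖h x - u n x‖ := (hh.sub (iu n)).norm
  have h3 : Integrable fun x => ‖h x - u n x‖ - v n x := h2.sub (iv n)
  rw [integral_add h3 hh.norm, integral_sub h2 (iv n), ev] at h1
  simpa using h1

/-- `L¹` convergence of mollifications.  `‖ρ ⋆ h‖₁ ≤ ‖h‖₁` (`Integrable.integrable_convolution`,
`integral_convolution`); either density of `C_c`
(`Integrable.exists_hasCompactSupport_integral_sub_le`, `ContDiffBump.dist_normed_convolution_le`
/ uniform continuity), or a.e. convergence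
(`ContDiffBump.ae_convolution_tendsto_right_of_locallyIntegrable`) plus Fatou for
`ρ ⋆ ‖h‖ + ‖h‖ - ‖ρ ⋆ h - h‖ ≥ 0`. -/
theorem exists_mollifier {f : E → ℝ} {g : E → E} (hf : Integrable f) (hg : Integrable g) {ε : ℝ}
    (hε : 0 < ε) : ∃ ρ : E → ℝ, ContDiff ℝ (⊤ : ℕ∞) ρ ∧ HasCompactSupport ρ ∧
      ∫ x, |f x - ∫ y, ρ (x - y) * f y| ≤ ε ∧ ∫ x, ‖g x - ∫ y, ρ (x - y) • g y‖ ≤ ε ∧
      Integrable (fun x => ∫ y, ρ (x - y) * f y) ∧ Integrable (fun x => ∫ y, ρ (x - y) • g y) := by
  obtain ⟨n, hn1, hn2⟩ := (((apx_moll hf).eventually (ge_mem_nhds hε)).and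
    ((apx_moll hg).eventually (ge_mem_nhds hε))).exists
  have hi : Integrable ((apxB n).normed volume) := (apxB n).integrable_normed
  have i1 := hi.integrable_convolution (ContinuousLinearMap.lsmul ℝ ℝ) hf
  have i2 := hi.integrable_convolution (ContinuousLinearMap.lsmul ℝ ℝ) hg
  refine ⟨(apxB n).normed volume, (apxB n).contDiff_normed, (apxB n).hasCompactSupport_normed,
    ?_, ?_, ?_, ?_⟩
  · simpa only [convolution_lsmul_swap, smul_eq_mul, Real.norm_eq_abs] using hn1
  · simpa only [convolution_lsmul_swap] using hn2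
  · exact i1.congr (Filter.Eventually.of_forall fun x => convolution_lsmul_swap)
  · exact i2.congr (Filter.Eventually.of_forall fun x => convolution_lsmul_swap)

/-- `u x = ∫ ρ (x - y) f y` is smooth (`HasCompactSupport.contDiff_convolution_left`), its
derivative is `∫ ρ' (x - y) v f y` (`HasCompactSupport.hasFDerivAt_convolution_left`), which is
`⟪∫ ρ (x - y) • g y, v⟫` by the weak gradient identity for the test function `y ↦ ρ (x - y)`. -/
theorem apx_of_weak {f : E → ℝ} {g : E → E} (hf : Integrable f)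
    (hw : Crest.AnalysisR.IsWeakGradient f g) (hg : Integrable g) : Apx f g := by
  refine Apx.of_approx hf hg fun ε hε => ?_
  obtain ⟨ρ, hρ, hc, h1, h2, h3, h4⟩ := exists_mollifier hf hg hε
  have e : (fun x => ∫ y, ρ (x - y) * f y) =
      convolution f ρ (ContinuousLinearMap.lsmul ℝ ℝ) volume := by
    funext x
    simp only [convolution_lsmul, smul_eq_mul, mul_comm]
  have hu : ContDiff ℝ (⊤ : ℕ∞) fun x => ∫ y, ρ (x - y) * f y := by
    rw [e]
    exact hc.contDiff_convolution_right _ hf.locallyIntegrable hρ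
  have hρ1 : ContDiff ℝ 1 ρ := hρ.of_le (by exact_mod_cast le_top)
  have hgr : gradient (fun x => ∫ y, ρ (x - y) * f y) = fun x => ∫ y, ρ (x - y) • g y := by
    funext x
    refine ext_inner_right ℝ fun v => ?_
    rw [SM_inner_grad, e, (hc.hasFDerivAt_convolution_right _ hf.locallyIntegrable hρ1 x).fderiv,
      convolution_precompR_apply _ hf.locallyIntegrable (hc.fderiv ℝ)
        (hρ1.continuous_fderiv one_ne_zero), convolution_lsmul]
    have hφc : HasCompactSupport fun t => ρ (x - t) :=
      hc.comp_homeomorph (Homeomorph.subLeft x)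
    have h5 := hw.2.2 (fun t => ρ (x - t)) (hρ.comp (contDiff_const.sub contDiff_id)) hφc v
    have h6 : ∀ t, fderiv ℝ (fun t => ρ (x - t)) t v = -fderiv ℝ ρ (x - t) v := fun t => by
      have := (hρ1.differentiable one_ne_zero (x - t)).hasFDerivAt.comp t
        ((hasFDerivAt_id t).const_sub x)
      erw [this.fderiv]
      simp
    simp only [h6, mul_neg, integral_neg, neg_inj] at h5
    have h7 : Integrable fun t => ρ (x - t) • g t :=
      hg.locallyIntegrable.integrable_smul_left_of_hasCompactSupport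
        (hρ.continuous.comp (continuous_const.sub continuous_id)) hφc
    simp only [smul_eq_mul]
    rw [h5, real_inner_comm, ← integral_inner h7]
    refine integral_congr_ae (Filter.Eventually.of_forall fun t => ?_)
    simp only [real_inner_smul_right]
    rw [mul_comm, real_inner_comm]
  refine ⟨_, _, apx_of_contDiff (hu.of_le (WithTop.coe_le_coe.2 (le_top (a := (2 : ℕ∞))))) h3 (by rw [hgr]; exact h4),
    h1, ?_⟩
  rw [hgr]
  exact h2

end Crest.Agent.R112
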