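import Crest.Agent.R112.Smooth

/-! # Row 112: averages of integrable functions (task AVG) -/

set_option autoImplicit false

namespace Crest.Agent.R112

open MeasureTheory Metric
open scoped RealInnerProductSpace

variable {f : E → ℝ} {g : E → E}

/-- dominated convergence for the indicators of the discs (spheres are null) -/
theorem continuousOn_setIntegral_ball {F : Type*} [NormedAddCommGroup F] [NormedSpace ℝ F]
    {h : E → F} (hh : Integrable h) :
    Continuous fun z : E × ℝ => ∫ y in ball z.1 z.2, h y := by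
  simp only [← integral_indicator measurableSet_ball]
  refine continuous_iff_continuousAt.2 fun z₀ => ?_
  refine continuousAt_of_dominated (bound := fun y => ‖h y‖)
    (Filter.Eventually.of_forall fun z => hh.aestronglyMeasurable.indicator measurableSet_ball)
    (Filter.Eventually.of_forall fun z => Filter.Eventually.of_forall fun y =>
      norm_indicator_le_norm_self _ _) hh.norm ?_
  have h0 : ∀ᵐ y : E, y ∉ sphere z₀.1 z₀.2 :=
    measure_eq_zero_iff_ae_notMem.1 (Measure.addHaar_sphere volume _ _)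
  filter_upwards [h0] with y hy
  have hc : Continuous fun z : E × ℝ => dist y z.1 := by fun_prop
  rcases lt_or_gt_of_ne (fun e => hy (mem_sphere.2 e)) with h1 | h1
  · refine (continuousAt_const (y := h y)).congr ?_
    filter_upwards [(isOpen_lt hc continuous_snd).mem_nhds h1] with z hz
    exact (Set.indicator_of_mem (mem_ball.2 hz) _).symm
  · refine (continuousAt_const (y := (0 : F))).congr ?_
    filter_upwards [(isOpen_lt continuous_snd hc).mem_nhds h1] with z hz
    exact (Set.indicator_of_notMem (fun hm => lt_asymm (mem_ball.1 hm) hz) _).symm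

theorem continuousOn_uu (hf : Integrable f) :
    ContinuousOn (fun z : E × ℝ => uu f z.1 z.2) {z | 0 < z.2} := by
  refine ContinuousOn.mul (ContinuousOn.inv₀ (by fun_prop) fun z hz => ?_)
    (continuousOn_setIntegral_ball hf).continuousOn
  have : 0 < z.2 := hz
  positivity

theorem continuousOn_GG (hg : Integrable g) :
    ContinuousOn (fun z : E × ℝ => GG g z.1 z.2) {z | 0 < z.2} := by
  refine ContinuousOn.smul (ContinuousOn.inv₀ (f := fun z : E × ℝ => Real.pi * z.2 ^ 2)
    (by fun_prop) fun z hz => ?_) (continuousOn_setIntegral_ball hg).continuousOn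
  have : 0 < z.2 := hz
  positivity

theorem abs_uu_le (hf : Integrable f) (x : E) {r : ℝ} (hr : 0 < r) :
    |uu f x r| ≤ (Real.pi * r ^ 2)⁻¹ * ∫ y, |f y| := by
  have hA : 0 < (Real.pi * r ^ 2)⁻¹ := by positivity
  rw [uu, abs_mul, abs_of_pos hA]
  refine mul_le_mul_of_nonneg_left (abs_integral_le_integral_abs.trans ?_) hA.le
  exact setIntegral_le_integral hf.abs (Filter.Eventually.of_forall fun y => abs_nonneg _)

theorem norm_GG_le (hg : Integrable g) (x : E) {r : ℝ} (hr : 0 < r) :
    ‖GG g x r‖ ≤ (Real.pi * r ^ 2)⁻¹ * ∫ y, ‖g y‖ := by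
  have hA : 0 < (Real.pi * r ^ 2)⁻¹ := by positivity
  rw [GG, norm_smul, Real.norm_eq_abs, abs_of_pos hA]
  refine mul_le_mul_of_nonneg_left ((norm_integral_le_integral_norm _).trans ?_) hA.le
  exact setIntegral_le_integral hg.norm (Filter.Eventually.of_forall fun y => norm_nonneg _)

theorem uu_sub {f' : E → ℝ} (hf : Integrable f) (hf' : Integrable f') (x : E) (r : ℝ) :
    uu (fun y => f y - f' y) x r = uu f x r - uu f' x r := by
  unfold uu
  rw [integral_sub hf.integrableOn hf'.integrableOn, mul_sub]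

theorem GG_sub {g' : E → E} (hg : Integrable g) (hg' : Integrable g') (x : E) (r : ℝ) :
    GG (fun y => g y - g' y) x r = GG g x r - GG g' x r := by
  unfold GG
  rw [integral_sub hg.integrableOn hg'.integrableOn, smul_sub]

theorem AVG_continuousOn (hf : Integrable f) (x : E) : ContinuousOn (uu f x) (Set.Ioi 0) :=
  (continuousOn_uu hf).comp (f := fun r : ℝ => (x, r)) (by fun_prop) (fun _ hr => hr)

theorem exists_isMx (hf : Integrable f) {a b : ℝ} (ha : 0 < a) (hab : a ≤ b) (x : E) :
    ∃ r, IsMx f a b x r := by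
  obtain ⟨r, hr, h⟩ := isCompact_Icc.exists_isMaxOn (Set.nonempty_Icc.2 hab)
    ((AVG_continuousOn hf x).mono fun s hs => ha.trans_le hs.1)
  exact ⟨r, hr, fun s hs => h hs⟩

theorem IsMx.ww_eq {a b : ℝ} {x : E} {r : ℝ} (h : IsMx f a b x r) : ww f a b x = uu f x r := by
  refine IsGreatest.csSup_eq ⟨⟨r, h.1, rfl⟩, ?_⟩
  rintro _ ⟨s, hs, rfl⟩
  exact h.2 s hs

theorem uu_le_ww (hf : Integrable f) {a b : ℝ} (ha : 0 < a) (x : E) {r : ℝ}
    (hr : r ∈ Set.Icc a b) : uu f x r ≤ ww f a b x := by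
  obtain ⟨s, hs⟩ := exists_isMx hf ha (hr.1.trans hr.2) x
  rw [hs.ww_eq]
  exact hs.2 r hr

theorem IsMx.mono {a b a' b' : ℝ} {x : E} {r : ℝ} (h : IsMx f a b x r) (ha : a ≤ a') (hb : b' ≤ b)
    (hr : r ∈ Set.Icc a' b') : IsMx f a' b' x r := by
  exact ⟨hr, fun s hs => h.2 s ⟨ha.trans hs.1, hs.2.trans hb⟩⟩

theorem AVG_sm_grad (hf : Sm f) (x : E) {r : ℝ} (hr : 0 < r) :
    HasFDerivAt (fun x => uu f x r) (InnerProductSpace.toDual ℝ E (GG (gradient f) x r)) x := by
  obtain ⟨Λ, -, h⟩ := hf.second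
  have h1 : (fun y => uu f y r - uu f x r - ⟪GG (gradient f) x r, y - x⟫) =O[nhds x]
      fun y => ‖y - x‖ ^ 2 := by
    refine Asymptotics.IsBigO.of_bound Λ (Filter.Eventually.of_forall fun y => ?_)
    have := h x (y - x) r hr
    rw [add_sub_cancel] at this
    simpa using this
  have h2 := h1.hasFDerivAt (𝕜 := ℝ) (by norm_num)
  have h3 : HasFDerivAt (fun y : E => uu f x r + ⟪GG (gradient f) x r, y - x⟫)
      (InnerProductSpace.toDual ℝ E (GG (gradient f) x r)) x := by
    have := (((InnerProductSpace.toDual ℝ E (GG (gradient f) x r)).hasFDerivAt (x := x)).sub_const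
      ⟪GG (gradient f) x r, x⟫).const_add (uu f x r)
    simpa [inner_sub_right] using this
  have h4 := h2.add h3
  rw [zero_add] at h4
  refine h4.congr_of_eventuallyEq (Filter.Eventually.of_forall fun y => ?_)
  simp

/-- true for `Sm` (`Sm.second`); pass to the limit with `hasFDerivAt_of_tendstoUniformly`
(`abs_uu_le`, `norm_GG_le` give uniform convergence) -/
theorem Apx.hasGradientAt (h : Apx f g) (x : E) {r : ℝ} (hr : 0 < r) :
    HasGradientAt (fun x => uu f x r) (GG g x r) x := by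
  choose F hF h1 h2 using fun n : ℕ => h.ap (1 / ((n : ℝ) + 1)) Nat.one_div_pos_of_nat
  have hA : 0 < (Real.pi * r ^ 2)⁻¹ := by positivity
  have ht : Filter.Tendsto (fun n : ℕ => (Real.pi * r ^ 2)⁻¹ * (1 / ((n : ℝ) + 1))) Filter.atTop
      (nhds 0) := by
    have := (tendsto_one_div_add_atTop_nhds_zero_nat (𝕜 := ℝ)).const_mul (Real.pi * r ^ 2)⁻¹
    rwa [mul_zero] at this
  rw [hasGradientAt_iff_hasFDerivAt]
  refine hasFDerivAt_of_tendstoUniformly (l := Filter.atTop) (f := fun n x => uu (F n) x r)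
    (f' := fun n x => InnerProductSpace.toDual ℝ E (GG (gradient (F n)) x r))
    (g' := fun x => InnerProductSpace.toDual ℝ E (GG g x r)) ?_
    (fun n x => AVG_sm_grad (hF n) x hr) (fun x => ?_) x
  · rw [Metric.tendstoUniformly_iff]
    intro ε hε
    filter_upwards [ht.eventually (gt_mem_nhds hε)] with n hn x
    rw [dist_eq_norm, ← map_sub, LinearIsometryEquiv.norm_map,
      ← GG_sub h.gi (hF n).integrable_grad]
    refine lt_of_le_of_lt ((norm_GG_le (h.gi.sub (hF n).integrable_grad) x hr).trans ?_) hn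
    exact mul_le_mul_of_nonneg_left (h2 n) hA.le
  · rw [tendsto_iff_norm_sub_tendsto_zero]
    refine squeeze_zero (fun n => norm_nonneg _) (fun n => ?_) ht
    rw [Real.norm_eq_abs, abs_sub_comm, ← uu_sub h.fi (hF n).integrable]
    refine (abs_uu_le (h.fi.sub (hF n).integrable) x hr).trans ?_
    exact mul_le_mul_of_nonneg_left (h1 n) hA.le

theorem Apx.uu_lip (h : Apx f g) {a r : ℝ} (ha : 0 < a) (hr : a ≤ r) (x y : E) :
    |uu f x r - uu f y r| ≤ (Real.pi * a ^ 2)⁻¹ * (∫ y, ‖g y‖) * ‖x - y‖ := by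
  have hr0 : 0 < r := ha.trans_le hr
  have h1 := Convex.norm_image_sub_le_of_norm_hasFDerivWithin_le (𝕜 := ℝ)
    (f := fun x => uu f x r) (f' := fun x => InnerProductSpace.toDual ℝ E (GG g x r))
    (s := Set.univ) (C := (Real.pi * a ^ 2)⁻¹ * (∫ y, ‖g y‖)) (x := y) (y := x)
    (fun z _ => (h.hasGradientAt z hr0).hasFDerivAt.hasFDerivWithinAt)
    (fun z _ => by
      rw [LinearIsometryEquiv.norm_map]
      refine (norm_GG_le h.gi z hr0).trans (mul_le_mul_of_nonneg_right ?_
        (integral_nonneg fun _ => norm_nonneg _))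
      exact inv_anti₀ (by positivity) (by gcongr))
    convex_univ (Set.mem_univ _) (Set.mem_univ _)
  exact h1

theorem Apx.ww_lip (h : Apx f g) {a b : ℝ} (ha : 0 < a) (hab : a ≤ b) :
    ∃ L, LipschitzWith L (ww f a b) := by
  refine ⟨_, LipschitzWith.of_le_add_mul' ((Real.pi * a ^ 2)⁻¹ * (∫ y, ‖g y‖)) fun x y => ?_⟩
  obtain ⟨r, hr⟩ := exists_isMx h.fi ha hab x
  have h1 := h.uu_lip ha hr.1.1 x y
  have h2 := uu_le_ww h.fi ha y hr.1
  rw [hr.ww_eq, dist_eq_norm]
  linarith [le_abs_self (uu f x r - uu f y r)]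

/-- `ww - uu(·, r)` has a minimum at `x` (`IsLocalMin.hasFDerivAt_eq_zero`) -/
theorem Apx.gradient_ww (h : Apx f g) {a b : ℝ} (ha : 0 < a) {x : E} {r : ℝ}
    (hr : IsMx f a b x r) (hd : DifferentiableAt ℝ (ww f a b) x) :
    gradient (ww f a b) x = GG g x r := by
  have h1 := (h.hasGradientAt x (ha.trans_le hr.1.1)).hasFDerivAt
  have h2 := hd.hasGradientAt.hasFDerivAt
  have h3 : IsLocalMin (fun y => ww f a b y - uu f y r) x := by
    refine Filter.Eventually.of_forall fun y => ?_
    have := uu_le_ww h.fi ha y hr.1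
    simp only [hr.ww_eq]
    linarith
  have h4 := h3.hasFDerivAt_eq_zero (h2.sub h1)
  exact (InnerProductSpace.toDual ℝ E).injective (sub_eq_zero.1 h4)

/-- Rademacher: `LipschitzWith.ae_differentiableAt` -/
theorem Apx.ae_gradient_ww (h : Apx f g) {a b : ℝ} (ha : 0 < a) (hab : a ≤ b) :
    ∀ᵐ x, ∀ r, IsMx f a b x r → gradient (ww f a b) x = GG g x r := by
  obtain ⟨L, hL⟩ := h.ww_lip ha hab
  filter_upwards [hL.ae_differentiableAt (μ := volume)] with x hx r hr
  exact h.gradient_ww ha hr hx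

theorem measurable_gradient (w : E → ℝ) : Measurable (gradient w) := by
  exact (InnerProductSpace.toDual ℝ E).symm.continuous.measurable.comp (measurable_fderiv ℝ w)

theorem AVG_ii (hf : Integrable f) (x : E) {r s : ℝ} (hr : 0 < r) (hrs : r ≤ s) :
    IntervalIntegrable (uu f x) volume r s :=
  ((AVG_continuousOn hf x).mono fun t ht => by
    rw [Set.uIcc_of_le hrs] at ht
    exact hr.trans_le ht.1).intervalIntegrable

theorem AVG_sm_radial (hf : Sm f) (x : E) {r s : ℝ} (hr : 0 < r) (hrs : r ≤ s) :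
    |uu f x s - uu f x r| ≤ ∫ σ in r..s, uu (fun y => ‖gradient f y‖) x σ := by
  refine norm_sub_le_integral_of_norm_deriv_le_of_le hrs
    ((AVG_continuousOn hf.integrable x).mono fun t ht => hr.trans_le ht.1)
    (fun t ht => (hf.hasDerivAt_uu x (hr.trans ht.1)).differentiableAt.differentiableWithinAt)
    (Filter.Eventually.of_forall fun t ht => ?_) (AVG_ii hf.integrable_grad.norm x hr hrs)
  have ht0 : 0 < t := hr.trans ht.1
  rw [(hf.hasDerivAt_uu x ht0).deriv, norm_mul, Real.norm_eq_abs, abs_of_pos (by positivity)]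
  have h1 : ‖∫ y in ball x t, ⟪y - x, gradient f y⟫‖ ≤ ∫ y in ball x t, t * ‖gradient f y‖ := by
    refine norm_integral_le_of_norm_le (hf.integrable_grad.norm.const_mul t).integrableOn ?_
    filter_upwards [ae_restrict_mem measurableSet_ball] with y hy
    refine (norm_inner_le_norm _ _).trans (mul_le_mul_of_nonneg_right ?_ (norm_nonneg _))
    rw [← dist_eq_norm]
    exact (mem_ball.1 hy).le
  rw [integral_const_mul] at h1
  refine (mul_le_mul_of_nonneg_left h1 (by positivity)).trans (le_of_eq ?_)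
  unfold uu
  field_simp

/-- for `Sm`: `Sm.hasDerivAt_uu`, `|∂_σ uu| ≤ uu ‖g‖`; then the limit -/
theorem Apx.radial_le (h : Apx f g) (x : E) {r s : ℝ} (hr : 0 < r) (hrs : r ≤ s) :
    |uu f x s - uu f x r| ≤ ∫ σ in r..s, uu (fun y => ‖g y‖) x σ := by
  have hs : 0 < s := hr.trans_le hrs
  set A := (Real.pi * r ^ 2)⁻¹ with hA
  have hA0 : 0 < A := by positivity
  have hAt : ∀ t, r ≤ t → (Real.pi * t ^ 2)⁻¹ ≤ A := fun t ht =>
    inv_anti₀ (by positivity) (by gcongr)
  have hM : 0 < (2 + (s - r)) * A := mul_pos (by linarith) hA0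
  refine le_of_forall_pos_le_add fun η hη => ?_
  obtain ⟨f₁, hf₁, h1, h2⟩ := h.ap (η / ((2 + (s - r)) * A)) (by positivity)
  set ε := η / ((2 + (s - r)) * A) with hε
  have hε0 : 0 < ε := by positivity
  have e : η = (2 + (s - r)) * A * ε := by rw [hε, mul_div_cancel₀ _ hM.ne']
  have h3 : ∀ t, r ≤ t → |uu f x t - uu f₁ x t| ≤ A * ε := by
    intro t ht
    rw [← uu_sub h.fi hf₁.integrable]
    refine (abs_uu_le (h.fi.sub hf₁.integrable) x (hr.trans_le ht)).trans ?_
    exact mul_le_mul (hAt t ht) h1 (integral_nonneg fun _ => abs_nonneg _) hA0.le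
  have h4 : ∀ t, r ≤ t → uu (fun y => ‖gradient f₁ y‖) x t ≤ uu (fun y => ‖g y‖) x t + A * ε := by
    intro t ht
    have h5 := abs_uu_le (h.gi.norm.sub hf₁.integrable_grad.norm) x (hr.trans_le ht)
    have h6 := uu_sub h.gi.norm hf₁.integrable_grad.norm x t
    have h7 : ∫ y, |‖g y‖ - ‖gradient f₁ y‖| ≤ ε :=
      (integral_mono (h.gi.norm.sub hf₁.integrable_grad.norm).abs
        (h.gi.sub hf₁.integrable_grad).norm fun y => abs_norm_sub_norm_le _ _).trans h2
    have h8 := mul_le_mul (hAt t ht) h7 (integral_nonneg fun _ => abs_nonneg _) hA0.le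
    have h9 : |uu (fun y => ‖g y‖ - ‖gradient f₁ y‖) x t| ≤ A * ε := h5.trans h8
    rw [h6] at h9
    linarith [(abs_le.1 h9).1]
  have h5 := intervalIntegral.integral_mono_on hrs (AVG_ii hf₁.integrable_grad.norm x hr hrs)
    ((AVG_ii h.gi.norm x hr hrs).add intervalIntegrable_const) (fun t ht => h4 t ht.1)
  rw [intervalIntegral.integral_add (AVG_ii h.gi.norm x hr hrs) intervalIntegrable_const,
    intervalIntegral.integral_const, smul_eq_mul] at h5
  have h6 := AVG_sm_radial hf₁ x hr hrs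
  have h7 := abs_le.1 (h3 r le_rfl)
  have h8 := abs_le.1 (h3 s hrs)
  have h9 := abs_le.1 h6
  rw [e, abs_le]
  constructor <;> linarith [h7.1, h7.2, h8.1, h8.2, h9.1, h9.2]

end Crest.Agent.R112
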