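import Crest.Agent.R112.Defs

/-! # Row 112: the nesting lemma (task NEST) -/

set_option autoImplicit false

namespace Crest.Agent.R112

open MeasureTheory Metric
open scoped RealInnerProductSpace

/-- pairs `(x, p)` such that the disc around `x` through `p` has little interior mass but much
mass near its boundary away from `p` -/
def nestSet (μ : Measure E) (T t τ D : ℝ) : Set (E × E) :=
  {z | ‖z.1 - z.2‖ ≤ 3 ∧ μ.real {y | ‖y - z.1‖ - ‖z.2 - z.1‖ < -τ} ≤ T ∧
    t ≤ μ.real {y | |‖y - z.1‖ - ‖z.2 - z.1‖| ≤ τ ∧ D ≤ ‖y - z.2‖}}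

theorem nest_and {α : Type} [MeasurableSpace α] {P Q : α → Prop} (hP : MeasurableSet {a | P a})
    (hQ : MeasurableSet {a | Q a}) : MeasurableSet {a | P a ∧ Q a} := hP.inter hQ

theorem nest_meas {α : Type} [MeasurableSpace α] (μ : Measure E) [IsFiniteMeasure μ]
    {P : α → E → Prop} (h : MeasurableSet {w : α × E | P w.1 w.2}) :
    Measurable fun z => μ.real {y | P z y} :=
  (measurable_measure_prodMk_left (ν := μ) h).ennreal_toReal

/-- `measurable_measure_prodMk_left` -/
theorem measurableSet_nestSet (μ : Measure E) [IsFiniteMeasure μ] (T t τ D : ℝ) :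
    MeasurableSet (nestSet μ T t τ D) := by
  refine nest_and (measurableSet_le (by fun_prop) measurable_const)
    (nest_and (measurableSet_le (nest_meas μ ?_) measurable_const)
      (measurableSet_le measurable_const (nest_meas μ ?_)))
  · exact measurableSet_lt (by fun_prop) measurable_const
  · exact nest_and (measurableSet_le (by fun_prop) measurable_const)
      (measurableSet_le measurable_const (by fun_prop))

/-- a set of reals without `N + 1` points at mutual distance `≥ σ` is covered by `N` intervals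
(take a `σ`-separated finite subset of maximal cardinality) -/
theorem volume_le_of_sep {A : Set ℝ} {σ : ℝ} (hσ : 0 < σ) {N : ℕ}
    (h : ∀ s : Finset ℝ, (s : Set ℝ) ⊆ A → (∀ a ∈ s, ∀ b ∈ s, a ≠ b → σ ≤ |a - b|) → s.card ≤ N) :
    volume A ≤ ENNReal.ofReal (2 * N * σ) := by
  classical
  let Q : ℕ → Prop := fun k => ∃ s : Finset ℝ, (s : Set ℝ) ⊆ A ∧
    (∀ a ∈ s, ∀ b ∈ s, a ≠ b → σ ≤ |a - b|) ∧ s.card = k
  have h0 : Q 0 := ⟨∅, by simp, by simp, rfl⟩
  obtain ⟨s, hs1, hs2, hs3⟩ : Q (Nat.findGreatest Q N) := Nat.findGreatest_spec (Nat.zero_le N) h0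
  have hcov : A ⊆ ⋃ a ∈ s, ball a σ := by
    intro u hu
    by_contra hc
    simp only [Set.mem_iUnion, mem_ball, Real.dist_eq, not_exists, not_lt] at hc
    have hus : u ∉ s := fun h' => by
      have := hc u h'
      simp only [sub_self, abs_zero] at this
      linarith
    have h1 : ((insert u s : Finset ℝ) : Set ℝ) ⊆ A := by
      rw [Finset.coe_insert]
      exact Set.insert_subset hu hs1
    have h2 : ∀ a ∈ insert u s, ∀ b ∈ insert u s, a ≠ b → σ ≤ |a - b| := by
      intro a ha b hb hab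
      rcases Finset.mem_insert.1 ha with h1 | h1 <;> rcases Finset.mem_insert.1 hb with h2 | h2
      · exact (hab (h1.trans h2.symm)).elim
      · rw [h1]; exact hc b h2
      · rw [abs_sub_comm, h2]; exact hc a h1
      · exact hs2 a h1 b h2 hab
    have h3 := Nat.le_findGreatest (P := Q) (h _ h1 h2) ⟨_, h1, h2, rfl⟩
    rw [Finset.card_insert_of_notMem hus] at h3
    omega
  refine (measure_mono hcov).trans ((measure_biUnion_finset_le _ _).trans ?_)
  simp only [Real.volume_ball, Finset.sum_const, nsmul_eq_mul]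
  rw [← ENNReal.ofReal_natCast, ← ENNReal.ofReal_mul (Nat.cast_nonneg _)]
  refine ENNReal.ofReal_le_ofReal ?_
  have : (s.card : ℝ) ≤ N := by exact_mod_cast h s hs1 hs2
  nlinarith

/-- the annulus set of the class `w` -/
def nestA (p w : E) (τ D : ℝ) (x : E) : Set E :=
  {y | |‖y - x‖ - ‖p - x‖| ≤ τ ∧ D / 2 ≤ ⟪w, y - p⟫}

/-- the centres of the class `w` -/
def nestN (μ : Measure E) (p w : E) (T t τ D : ℝ) : Set E :=
  {x | ‖x - p‖ ≤ 3 ∧ μ.real {y | ‖y - x‖ - ‖p - x‖ < -τ} ≤ T ∧ t / 4 ≤ μ.real (nestA p w τ D x)}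

theorem nest_measA (p w : E) (τ D : ℝ) (x : E) : MeasurableSet (nestA p w τ D x) :=
  nest_and (measurableSet_le (by fun_prop) measurable_const)
    (measurableSet_le measurable_const (by fun_prop))

theorem nest_measN (μ : Measure E) [IsFiniteMeasure μ] (p w : E) (T t τ D : ℝ) :
    MeasurableSet (nestN μ p w T t τ D) := by
  refine nest_and (measurableSet_le (by fun_prop) measurable_const)
    (nest_and (measurableSet_le (nest_meas μ ?_) measurable_const)
      (measurableSet_le measurable_const (nest_meas μ ?_)))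
  · exact measurableSet_lt (by fun_prop) measurable_const
  · exact nest_and (measurableSet_le (by fun_prop) measurable_const)
      (measurableSet_le measurable_const (by fun_prop))

theorem nest_geom {p w x y : E} {τ D s : ℝ} (hτ : 0 < τ) (hτ1 : τ ≤ 1) (hD : 0 < D)
    (hx : ‖x - p‖ ≤ 3) (hx' : ‖x + s • w - p‖ ≤ 3) (hs : 14 * τ / D ≤ s)
    (hy : y ∈ nestA p w τ D x) : ‖y - (x + s • w)‖ - ‖p - (x + s • w)‖ < -τ := by
  obtain ⟨h1, h2⟩ := hy
  rw [norm_sub_rev] at hx hx'
  have e : ‖y - (x + s • w)‖ ^ 2 - ‖p - (x + s • w)‖ ^ 2 =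
      ‖y - x‖ ^ 2 - ‖p - x‖ ^ 2 - 2 * s * ⟪w, y - p⟫ := by
    simp only [norm_sq_E, inner_E, PiLp.sub_apply, PiLp.add_apply, PiLp.smul_apply, smul_eq_mul]
    ring
  have hs' : 14 * τ ≤ s * D := (div_le_iff₀ hD).1 hs
  have hs0 : 0 ≤ s := le_trans (by positivity) hs
  have h3 := mul_le_mul_of_nonneg_left h2 hs0
  have h4 := (abs_le.1 h1).2
  have a0 := norm_nonneg (y - x)
  have b0 := norm_nonneg (p - x)
  have h5 : ‖y - x‖ ^ 2 - ‖p - x‖ ^ 2 ≤ 7 * τ := by nlinarith
  have h6 : ‖y - (x + s • w)‖ ^ 2 - ‖p - (x + s • w)‖ ^ 2 ≤ -(7 * τ) := by linarith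
  have c0 := norm_nonneg (y - (x + s • w))
  have d0 := norm_nonneg (p - (x + s • w))
  generalize ‖y - (x + s • w)‖ = a at *
  generalize ‖p - (x + s • w)‖ = b at *
  by_contra hc
  have h7 : b - τ ≤ a := by linarith
  by_cases h8 : b ≤ a
  · nlinarith
  · nlinarith

theorem nest_line (μ : Measure E) [IsFiniteMeasure μ] (p x₀ e : E) {T t τ D ς : ℝ} (hT : 0 ≤ T)
    (ht : 0 < t) (hτ : 0 < τ) (hτ1 : τ ≤ 1) (hD : 0 < D) (hς : ς = 1 ∨ ς = -1) :
    volume {u : ℝ | x₀ + u • e ∈ nestN μ p (ς • e) T t τ D} ≤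
      ENNReal.ofReal (112 * (T / t + 1) * τ / D) := by
  classical
  have hσ : 0 < 14 * τ / D := by positivity
  refine (volume_le_of_sep hσ (N := ⌊4 * T / t⌋₊ + 1) fun s hs hsep => ?_).trans
    (ENNReal.ofReal_le_ofReal ?_)
  · rcases s.eq_empty_or_nonempty with rfl | hne
    · simp
    obtain ⟨m, hm, hmax⟩ := s.exists_max_image (fun u => ς * u) hne
    have key : ∀ a ∈ s, ∀ b ∈ s, a ≠ b → ς * a ≤ ς * b →
        nestA p (ς • e) τ D (x₀ + a • e) ⊆
          {y | ‖y - (x₀ + b • e)‖ - ‖p - (x₀ + b • e)‖ < -τ} := by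
      intro a ha b hb hab hle y hy
      have e1 : x₀ + b • e = x₀ + a • e + (ς * b - ς * a) • ς • e := by
        rcases hς with rfl | rfl <;> module
      have e2 : ς * b - ς * a = |a - b| := by
        rcases hς with rfl | rfl
        · rw [abs_of_nonpos (by linarith)]; ring
        · rw [abs_of_nonneg (by linarith)]; ring
      have h1 := (hs hb).1
      rw [Set.mem_ofPred_eq, e1]
      rw [e1] at h1
      exact nest_geom hτ hτ1 hD (hs ha).1 h1 (e2 ▸ hsep a ha b hb hab) hy
    have hdis : ∀ a ∈ s, ∀ b ∈ s, a ≠ b → ς * a ≤ ς * b →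
        Disjoint (nestA p (ς • e) τ D (x₀ + a • e)) (nestA p (ς • e) τ D (x₀ + b • e)) := by
      intro a ha b hb hab hle
      refine Set.disjoint_left.2 fun y hy hy' => ?_
      have h1 : _ < -τ := key a ha b hb hab hle hy
      have h2 := (abs_le.1 hy'.1).1
      linarith
    have h1 := measureReal_biUnion_finset (μ := μ) (s := s.erase m)
      (f := fun a => nestA p (ς • e) τ D (x₀ + a • e)) (fun a ha b hb hab => by
        have ha' := Finset.mem_of_mem_erase ha
        have hb' := Finset.mem_of_mem_erase hb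
        rcases le_total (ς * a) (ς * b) with h | h
        · exact hdis a ha' b hb' hab h
        · exact (hdis b hb' a ha' hab.symm h).symm) (fun a _ => nest_measA _ _ _ _ _)
    have h2 : μ.real (⋃ a ∈ s.erase m, nestA p (ς • e) τ D (x₀ + a • e)) ≤ T := by
      refine le_trans (measureReal_mono (Set.iUnion₂_subset fun a ha => ?_)) (hs hm).2.1
      have ha' := Finset.mem_of_mem_erase ha
      exact key a ha' m hm (Finset.ne_of_mem_erase ha) (hmax a ha')
    have h3 : ((s.erase m).card : ℝ) * (t / 4) ≤ T := by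
      rw [h1] at h2
      refine le_trans ?_ h2
      rw [← nsmul_eq_mul, ← Finset.sum_const]
      exact Finset.sum_le_sum fun a ha => (hs (Finset.mem_of_mem_erase ha)).2.2
    have h4 : (s.erase m).card ≤ ⌊4 * T / t⌋₊ := by
      refine Nat.le_floor ?_
      rw [le_div_iff₀ ht]
      linarith
    rw [Finset.card_erase_of_mem hm] at h4
    omega
  · have h1 : (⌊4 * T / t⌋₊ : ℝ) ≤ 4 * T / t := Nat.floor_le (by positivity)
    have h2 : 4 * T / t = 4 * (T / t) := by ring
    have h3 : 112 * (T / t + 1) * τ / D = 2 * (4 * (T / t) + 4) * (14 * τ / D) := by ring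
    rw [h3]
    push_cast
    exact mul_le_mul_of_nonneg_right (by linarith) hσ.le

theorem nest_mp : MeasurePreserving (fun z : ℝ × ℝ => (!₂[z.1, z.2] : E)) volume volume :=
  (PiLp.volume_preserving_toLp (Fin 2)).comp (volume_preserving_finTwoArrow ℝ).symm

theorem nest_int {F : ℝ → ENNReal} {M : ENNReal} (a : ℝ) (h1 : ∀ v, F v ≤ M)
    (h2 : ∀ v, 2 < |v - a| → F v = 0) : ∫⁻ v, F v ≤ M * 4 := by
  calc _ ≤ ∫⁻ v, (closedBall a 2).indicator (fun _ => M) v := by
        refine lintegral_mono fun v => ?_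
        by_cases hv : v ∈ closedBall a 2
        · rw [Set.indicator_of_mem hv]; exact h1 v
        · rw [h2 v (by simpa [Real.dist_eq] using hv)]
          exact zero_le
    _ = M * 4 := by
        rw [lintegral_indicator_const measurableSet_closedBall, Real.volume_closedBall]
        norm_num

theorem nest_fub0 {S : Set E} (hS : MeasurableSet S) (c : E) {M : ENNReal}
    (h : ∀ x₀ : E, volume {u : ℝ | x₀ + u • (!₂[1, 0] : E) ∈ S} ≤ M) :
    volume (closedBall c 2 ∩ S) ≤ M * 4 := by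
  have hm := measurableSet_closedBall (x := c) (ε := 2) |>.inter hS
  rw [← nest_mp.measure_preimage hm.nullMeasurableSet, Measure.volume_eq_prod,
    Measure.prod_apply_symm (nest_mp.measurable hm)]
  refine nest_int (c 1) (fun v => le_trans (measure_mono fun u hu => ?_) (h !₂[0, v])) fun v hv => ?_
  · have : (!₂[0, v] : E) + u • !₂[1, 0] = !₂[u, v] := by
      ext i; fin_cases i <;> simp
    rw [Set.mem_ofPred_eq, this]
    exact hu.2
  · refine measure_mono_null (t := ∅) (fun u hu => ?_) measure_empty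
    have h1 := hu.1
    rw [mem_closedBall, dist_eq_norm] at h1
    have h2 := (abs_apply_le _ 1).trans h1
    simp only [PiLp.sub_apply, Matrix.cons_val_one, Matrix.cons_val_fin_one] at h2
    linarith

theorem nest_fub1 {S : Set E} (hS : MeasurableSet S) (c : E) {M : ENNReal}
    (h : ∀ x₀ : E, volume {u : ℝ | x₀ + u • (!₂[0, 1] : E) ∈ S} ≤ M) :
    volume (closedBall c 2 ∩ S) ≤ M * 4 := by
  have hm := measurableSet_closedBall (x := c) (ε := 2) |>.inter hS
  rw [← nest_mp.measure_preimage hm.nullMeasurableSet, Measure.volume_eq_prod,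
    Measure.prod_apply (nest_mp.measurable hm)]
  refine nest_int (c 0) (fun v => le_trans (measure_mono fun u hu => ?_) (h !₂[v, 0])) fun v hv => ?_
  · have : (!₂[v, 0] : E) + u • !₂[0, 1] = !₂[v, u] := by
      ext i; fin_cases i <;> simp
    rw [Set.mem_ofPred_eq, this]
    exact hu.2
  · refine measure_mono_null (t := ∅) (fun u hu => ?_) measure_empty
    have h1 := hu.1
    rw [mem_closedBall, dist_eq_norm] at h1
    have h2 := (abs_apply_le _ 0).trans h1
    simp only [PiLp.sub_apply, Matrix.cons_val_zero] at h2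
    linarith

/-- `q_x(y) = ‖y - x‖² - ‖p - x‖²` is affine in `x`: `q_{x + s e} = q_x - 2 s ⟪e, y - p⟫`.  Split the
annulus into the four classes `Y_e = {y | D/2 ≤ ⟪e, y - p⟫}`, `e = ±e₀, ±e₁`; one of them has mass
`≥ t/4`.  If `x, x + s e` are both in the set, `s ≥ 14 τ / D`, `y ∈ Y_e` in the annulus of `x`, then
`|q_x(y)| ≤ 7τ`, `q_{x+se}(y) ≤ -7τ`, so `y` is in the interior set of `x + s e`
(`‖y - x'‖ + ‖p - x'‖ ≤ 6` when `q < 0`).  Hence on a line in direction `e`, separated points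
`x₁ < … < x_N` of the class-`e` set give disjoint sets of mass `≥ t/4` inside the interior set of
`x_N`: `(N - 1) t/4 ≤ T`.  `volume_le_of_sep` and Fubini
(`EuclideanSpace.volume_preserving_measurableEquiv`, `MeasurableEquiv.finTwoArrow`,
`Measure.prod_apply`(`_symm`)); the other coordinate ranges over an interval of length `4`. -/
theorem nest : ∃ C : ℝ, 0 < C ∧ ∀ (μ : Measure E) [IsFiniteMeasure μ] (p c : E) (T t τ D : ℝ),
    0 ≤ T → 0 < t → 0 < τ → τ ≤ 1 → 0 < D →
    volume {x | x ∈ closedBall c 2 ∧ (x, p) ∈ nestSet μ T t τ D} ≤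
      ENNReal.ofReal (C * (T / t + 1) * τ / D) := by
  refine ⟨16 * 112, by norm_num, fun μ _ p c T t τ D hT ht hτ hτ1 hD => ?_⟩
  have h0 : ∀ ς : ℝ, ς = 1 ∨ ς = -1 → volume (closedBall c 2 ∩
      nestN μ p (ς • !₂[1, 0]) T t τ D) ≤ ENNReal.ofReal (112 * (T / t + 1) * τ / D) * 4 :=
    fun ς hς => nest_fub0 (nest_measN μ p _ T t τ D) c
      fun x₀ => nest_line μ p x₀ _ hT ht hτ hτ1 hD hς
  have h1 : ∀ ς : ℝ, ς = 1 ∨ ς = -1 → volume (closedBall c 2 ∩
      nestN μ p (ς • !₂[0, 1]) T t τ D) ≤ ENNReal.ofReal (112 * (T / t + 1) * τ / D) * 4 :=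
    fun ς hς => nest_fub1 (nest_measN μ p _ T t τ D) c
      fun x₀ => nest_line μ p x₀ _ hT ht hτ hτ1 hD hς
  have hsub : {x | x ∈ closedBall c 2 ∧ (x, p) ∈ nestSet μ T t τ D} ⊆
      (closedBall c 2 ∩ nestN μ p ((1 : ℝ) • !₂[1, 0]) T t τ D ∪
        closedBall c 2 ∩ nestN μ p ((-1 : ℝ) • !₂[1, 0]) T t τ D) ∪
      (closedBall c 2 ∩ nestN μ p ((1 : ℝ) • !₂[0, 1]) T t τ D ∪
        closedBall c 2 ∩ nestN μ p ((-1 : ℝ) • !₂[0, 1]) T t τ D) := by
    rintro x ⟨hx, h3, hT', ht'⟩
    by_contra hc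
    simp only [Set.mem_union, Set.mem_inter_iff, hx, true_and, nestN, Set.mem_ofPred_eq, not_or,
      not_and, not_le] at hc
    have a1 := hc.1.1 h3 hT'
    have a2 := hc.1.2 h3 hT'
    have a3 := hc.2.1 h3 hT'
    have a4 := hc.2.2 h3 hT'
    have hs : {y | |‖y - x‖ - ‖p - x‖| ≤ τ ∧ D ≤ ‖y - p‖} ⊆
        (nestA p ((1 : ℝ) • !₂[1, 0]) τ D x ∪ nestA p ((-1 : ℝ) • !₂[1, 0]) τ D x) ∪
        (nestA p ((1 : ℝ) • !₂[0, 1]) τ D x ∪ nestA p ((-1 : ℝ) • !₂[0, 1]) τ D x) := by
      rintro y ⟨hy1, hy2⟩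
      have h4 := hy2.trans (norm_le_E _)
      by_contra hc'
      simp only [Set.mem_union, nestA, Set.mem_ofPred_eq, hy1, true_and, not_or, not_le, inner_E,
        PiLp.smul_apply, Matrix.cons_val_zero, Matrix.cons_val_one, Matrix.cons_val_fin_one,
        smul_eq_mul] at hc'
      obtain ⟨⟨b1, b2⟩, b3, b4⟩ := hc'
      have c1 : |(y - p) 0| < D / 2 := abs_lt.2 ⟨by linarith, by linarith⟩
      have c2 : |(y - p) 1| < D / 2 := abs_lt.2 ⟨by linarith, by linarith⟩
      linarith
    have h5 := (measureReal_mono (μ := μ) hs).trans ((measureReal_union_le _ _).trans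
      (add_le_add (measureReal_union_le _ _) (measureReal_union_le _ _)))
    have h6 : t ≤ μ.real {y | |‖y - x‖ - ‖p - x‖| ≤ τ ∧ D ≤ ‖y - p‖} := ht'
    linarith
  refine (measure_mono hsub).trans ((measure_union_le _ _).trans ((add_le_add
    ((measure_union_le _ _).trans (add_le_add (h0 1 (Or.inl rfl)) (h0 (-1) (Or.inr rfl))))
    ((measure_union_le _ _).trans (add_le_add (h1 1 (Or.inl rfl)) (h1 (-1) (Or.inr rfl))))).trans
    (le_of_eq ?_)))
  have e : 16 * 112 * (T / t + 1) * τ / D = 16 * (112 * (T / t + 1) * τ / D) := by ring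
  rw [e, ENNReal.ofReal_mul (by norm_num)]
  simp only [ENNReal.ofReal_ofNat]
  ring

/-- area of an annulus (`EuclideanSpace.volume_ball_fin_two` or `Measure.addHaar_ball`) -/
theorem volume_annulus (p : E) {R τ : ℝ} (hR1 : 1 ≤ R) (hR2 : R ≤ 2) (hτ : 0 ≤ τ) (hτ1 : τ ≤ 1) :
    volume {x : E | |‖p - x‖ - R| ≤ τ} ≤ ENNReal.ofReal (32 * τ) := by
  have hsub : {x : E | |‖p - x‖ - R| ≤ τ} ⊆ closedBall p (R + τ) \ ball p (R - τ) := by
    intro x hx
    have h := abs_le.1 (show |‖p - x‖ - R| ≤ τ from hx)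
    rw [Set.mem_sdiff, mem_closedBall, mem_ball, dist_eq_norm, norm_sub_rev]
    constructor
    · linarith [h.2]
    · intro h'
      linarith [h.1]
  refine (measure_mono hsub).trans ?_
  rw [measure_sdiff (ball_subset_closedBall.trans (closedBall_subset_closedBall (by linarith)))
    measurableSet_ball.nullMeasurableSet measure_ball_lt_top.ne,
    EuclideanSpace.volume_ball_fin_two, EuclideanSpace.volume_closedBall_fin_two,
    ← ENNReal.ofReal_pow (by linarith), ← ENNReal.ofReal_pow (by linarith),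
    ← ENNReal.ofReal_mul (sq_nonneg _), ← ENNReal.ofReal_mul (sq_nonneg _),
    ← ENNReal.ofReal_sub _ (by positivity)]
  refine ENNReal.ofReal_le_ofReal ?_
  have h1 := Real.pi_le_four
  have h2 := Real.pi_pos
  have h3 : R * Real.pi ≤ 2 * 4 := mul_le_mul hR2 h1 h2.le (by norm_num)
  nlinarith

/-- Markov + Tonelli -/
theorem markov_prod (φ : Measure E) [IsFiniteMeasure φ] {B : Set (E × E)} (hB : MeasurableSet B)
    {θ m : ℝ} (hθ : 0 < θ) (hm : 0 ≤ m) (h : ∀ p, volume {x | (x, p) ∈ B} ≤ ENNReal.ofReal m) :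
    MeasurableSet {x | θ ≤ φ.real {p | (x, p) ∈ B}} ∧
    volume {x | θ ≤ φ.real {p | (x, p) ∈ B}} ≤ ENNReal.ofReal (m * φ.real Set.univ / θ) := by
  have hme : Measurable fun x => φ {p | (x, p) ∈ B} := measurable_measure_prodMk_left (ν := φ) hB
  refine ⟨measurableSet_le measurable_const hme.ennreal_toReal, ?_⟩
  have e : {x | θ ≤ φ.real {p | (x, p) ∈ B}} = {x | ENNReal.ofReal θ ≤ φ {p | (x, p) ∈ B}} := by
    ext x
    exact (ENNReal.ofReal_le_iff_le_toReal (measure_ne_top _ _)).symm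
  rw [e]
  refine (meas_ge_le_lintegral_div hme.aemeasurable (by simpa using hθ) ENNReal.ofReal_ne_top).trans ?_
  rw [ENNReal.ofReal_div_of_pos hθ, ENNReal.ofReal_mul hm, ofReal_measureReal]
  gcongr
  have h1 := Measure.prod_apply (μ := (volume : Measure E)) (ν := φ) hB
  have h2 := Measure.prod_apply_symm (μ := (volume : Measure E)) (ν := φ) hB
  calc _ = ∫⁻ p, volume {x | (x, p) ∈ B} ∂φ := h1.symm.trans h2
    _ ≤ ∫⁻ _, ENNReal.ofReal m ∂φ := lintegral_mono h
    _ = _ := lintegral_const _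

end Crest.Agent.R112
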