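import Crest.Agent.R112.Ind
import Crest.Agent.R112.Nest

/-! # Row 112: the abstract key lemma (task BAD) -/

set_option autoImplicit false

namespace Crest.Agent.R112

open MeasureTheory Metric
open scoped RealInnerProductSpace

/-- Borel–Cantelli with a weight. -/
theorem bad_abs (Bad : ℕ → Set E) (hm : ∀ σ, MeasurableSet (Bad σ)) {K : ℝ} (hK : 0 ≤ K)
    (hv : ∀ σ, volume (Bad σ) ≤ ENNReal.ofReal (K * (qq ^ σ) ^ 2)) :
    ∃ F : E → ℝ, Integrable F ∧ (∀ x, 0 ≤ F x) ∧ ∫ x, F x ≤ K / (1 - qq) ∧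
      ∀ᵐ x, ∃ N, (∀ σ, N ≤ σ → x ∉ Bad σ) ∧ 1 / qq ^ N ≤ 1 + 2 * F x := by
  have hq := qq_pos
  have hq1 := qq_lt_one
  set G : E → ENNReal := fun x =>
    ∑' σ, (Bad σ).indicator (fun _ => ENNReal.ofReal (1 / qq ^ σ)) x with hG
  have hGm : Measurable G :=
    Measurable.tsum fun σ => measurable_const.indicator (hm σ)
  have hint : ∫⁻ x, G x ≤ ENNReal.ofReal (K / (1 - qq)) := by
    rw [hG, lintegral_tsum fun σ => (measurable_const.indicator (hm σ)).aemeasurable]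
    have h1 : ∀ σ, ∫⁻ x, (Bad σ).indicator (fun _ => ENNReal.ofReal (1 / qq ^ σ)) x ≤
        ENNReal.ofReal (K * qq ^ σ) := by
      intro σ
      rw [lintegral_indicator_const (hm σ)]
      refine (mul_le_mul_right (hv σ) _).trans ?_
      rw [← ENNReal.ofReal_mul (by positivity)]
      refine le_of_eq (congrArg _ ?_)
      field_simp
    refine (ENNReal.tsum_le_tsum h1).trans ?_
    rw [← ENNReal.ofReal_tsum_of_nonneg (fun σ => by positivity)
      ((summable_geometric_of_lt_one hq.le hq1).mul_left K), tsum_mul_left,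
      tsum_geometric_of_lt_one hq.le hq1, div_eq_mul_inv]
  have hne : ∫⁻ x, G x ≠ ⊤ := ne_top_of_le_ne_top ENNReal.ofReal_ne_top hint
  refine ⟨fun x => (G x).toReal, integrable_toReal_of_lintegral_ne_top hGm.aemeasurable hne,
    fun x => ENNReal.toReal_nonneg, ?_, ?_⟩
  · rw [integral_toReal hGm.aemeasurable (ae_lt_top hGm hne)]
    exact ENNReal.toReal_le_of_le_ofReal (div_nonneg hK (by linarith)) hint
  · filter_upwards [ae_lt_top hGm hne] with x hx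
    have hle : ∀ σ, x ∈ Bad σ → 1 / qq ^ σ ≤ (G x).toReal := by
      intro σ hσ
      rw [← ENNReal.ofReal_le_iff_le_toReal hx.ne]
      refine le_trans ?_ (ENNReal.le_tsum σ)
      rw [Set.indicator_of_mem hσ]
    by_cases hA : {σ | x ∈ Bad σ}.Nonempty
    · have hb : BddAbove {σ | x ∈ Bad σ} := by
        obtain ⟨N, hN⟩ := pow_unbounded_of_one_lt (G x).toReal ((one_lt_inv₀ hq).2 hq1)
        refine ⟨N, fun σ hσ => ?_⟩
        by_contra hc
        have h1 := hle σ hσ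
        have h2 : qq⁻¹ ^ N ≤ qq⁻¹ ^ σ :=
          pow_le_pow_right₀ ((one_lt_inv₀ hq).2 hq1).le (by omega)
        rw [one_div, ← inv_pow] at h1
        linarith
      refine ⟨sSup {σ | x ∈ Bad σ} + 1, fun σ hσ hx' => ?_, ?_⟩
      · have := le_csSup hb hx'
        omega
      · have h1 := hle _ (Nat.sSup_mem hA hb)
        have h2 : 1 / qq ^ (sSup {σ | x ∈ Bad σ} + 1) ≤
            2 * (1 / qq ^ (sSup {σ | x ∈ Bad σ})) := by
          rw [pow_succ, div_le_iff₀ (by positivity)]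
          have := half_lt_qq
          field_simp
          linarith
        linarith
    · refine ⟨0, fun σ _ hx' => hA ⟨σ, hx'⟩, ?_⟩
      have : 0 ≤ (G x).toReal := ENNReal.toReal_nonneg
      simp only [pow_zero, div_one]
      linarith

/-- the exceptional set of level `σ` attached to a set of pairs -/
def badSet (φ : ℕ → Measure E) (V : ℝ) (c : E) (σ : ℕ) (B : Set (E × E)) : Set E :=
  {x | qq ^ (σ + 1) * V ≤ ((φ (σ + 1)).restrict (closedBall c 8)).real {p | (x, p) ∈ B}}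

theorem bad_vol {φ : ℕ → Measure E} (hφ : ∀ m, IsFiniteMeasure (φ m)) {V : ℝ} (hV : 0 < V) {c : E}
    (htot : ∀ m, (φ m).real (closedBall c 8) ≤ V / qq ^ m) (σ : ℕ) {B : Set (E × E)}
    (hB : MeasurableSet B) {K : ℝ} (hK : 0 ≤ K)
    (h : ∀ p, volume {x | (x, p) ∈ B} ≤ ENNReal.ofReal (K * (qq ^ σ) ^ 4)) :
    MeasurableSet (badSet φ V c σ B) ∧
      volume (badSet φ V c σ B) ≤ ENNReal.ofReal (4 * K * (qq ^ σ) ^ 2) := by
  have := hφ (σ + 1)
  have hq := qq_pos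
  obtain ⟨h1, h2⟩ := markov_prod ((φ (σ + 1)).restrict (closedBall c 8)) hB
    (θ := qq ^ (σ + 1) * V) (by positivity) (by positivity) h
  refine ⟨h1, h2.trans (ENNReal.ofReal_le_ofReal ?_)⟩
  have h3 : ((φ (σ + 1)).restrict (closedBall c 8)).real Set.univ ≤ V / qq ^ (σ + 1) := by
    rw [measureReal_restrict_apply_univ]
    exact htot _
  calc K * (qq ^ σ) ^ 4 * ((φ (σ + 1)).restrict (closedBall c 8)).real Set.univ /
        (qq ^ (σ + 1) * V)
      ≤ K * (qq ^ σ) ^ 4 * (V / qq ^ (σ + 1)) / (qq ^ (σ + 1) * V) := by gcongr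
    _ = K * (qq ^ σ) ^ 2 * (1 / qq ^ 2) := by rw [pow_succ qq σ]; field_simp
    _ ≤ K * (qq ^ σ) ^ 2 * 4 := by
        gcongr
        rw [div_le_iff₀ (by positivity)]
        nlinarith [half_lt_qq]
    _ = 4 * K * (qq ^ σ) ^ 2 := by ring

theorem bad_mem {φ : ℕ → Measure E} (hφ : ∀ m, IsFiniteMeasure (φ m)) {V : ℝ} {c x : E} {r : ℝ}
    {σ : ℕ} {B : Set (E × E)} (hx : x ∈ closedBall c 2) (hr : r ≤ 2)
    (hb : qq ^ (σ + 1) * V < (φ (σ + 1)).real (Ann x r (σ + 1)))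
    (hsub : ∀ p ∈ Ann x r (σ + 1), (x, p) ∈ B) : x ∈ badSet φ V c σ B := by
  have := hφ (σ + 1)
  have h1 : Ann x r (σ + 1) ⊆ closedBall c 8 := by
    intro y hy
    have hy' : |r - ‖y - x‖| ≤ 4 / 2 ^ (σ + 1) := hy
    have h2 : (4 : ℝ) / 2 ^ (σ + 1) ≤ 4 :=
      div_le_self (by norm_num) (one_le_pow₀ (by norm_num))
    rw [mem_closedBall] at hx ⊢
    have h3 := dist_triangle y x c
    rw [dist_eq_norm y x] at h3
    linarith [(abs_le.1 hy').1]
  have h4 : ((φ (σ + 1)).restrict (closedBall c 8)).real (Ann x r (σ + 1)) =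
      (φ (σ + 1)).real (Ann x r (σ + 1)) := by
    simp only [Measure.real, Measure.restrict_eq_self _ h1]
  exact hb.le.trans (h4.ge.trans (measureReal_mono hsub))

/-- pairs at distance close to `R` -/
def badR (R : ℝ) (σ : ℕ) : Set (E × E) := {z | |‖z.2 - z.1‖ - R| ≤ 3 / 2 ^ σ}

/-- nesting pairs -/
def bad0 (μ : ℕ → Measure E) (Cin V : ℝ) (c : E) (σ : ℕ) : Set (E × E) :=
  {z | z.1 ∈ closedBall c 2 ∧
    z ∈ nestSet (μ σ) (2 * Cin * V / (qq ^ σ) ^ 3) (qq ^ σ * V) (6 / 2 ^ σ) ((qq ^ σ) ^ 4)}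

theorem bad_good {Cin : ℝ} (hCin : 0 < Cin) {g : E → E} {n : E} {φ μ : ℕ → Measure E} {V : ℝ}
    {c x : E} {r : ℝ} {σ : ℕ} (kd : KD g n φ μ) (hV : 0 < V) (hx : x ∈ closedBall c 2)
    (hr1 : 1 ≤ r) (hr2 : r ≤ 2) (hσ : 3 ≤ σ)
    (hin : (μ σ).real {y | 4 / 2 ^ σ ≤ dp x r y} ≤ Cin * (max ⟪n, Phi g x r σ⟫ 0 + V / qq ^ σ))
    (hwin : ∀ δ, 0 < δ → 1 ≤ r - δ → r + δ ≤ 2 → Win g x r δ)
    (h0 : x ∉ badSet φ V c σ (bad0 μ Cin V c σ)) (h1 : x ∉ badSet φ V c σ (badR 1 σ))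
    (h2 : x ∉ badSet φ V c σ (badR 2 σ))
    (hb : qq ^ (σ + 1) * V < (φ (σ + 1)).real (Ann x r (σ + 1)))
    (hT : ⟪n, Phi g x r σ⟫ ≤ V / (qq ^ σ) ^ 3) : ∃ p, Good g μ V x r σ p := by
  have := kd.finμ σ
  have hq := qq_pos
  set ε : ℝ := 1 / 2 ^ σ with hε
  have hε0 : 0 < ε := by positivity
  have hε8 : ε ≤ 1 / 8 := by
    rw [hε]
    refine one_div_le_one_div_of_le (by norm_num) ?_
    calc (8 : ℝ) = 2 ^ 3 := by norm_num
      _ ≤ 2 ^ σ := pow_le_pow_right₀ (by norm_num) hσ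
  have e2 : (4 : ℝ) / 2 ^ (σ + 1) = 2 * ε := by rw [hε, pow_succ]; field_simp; norm_num
  have e2' : (2 : ℝ) / 2 ^ σ = 2 * ε := by rw [hε]; ring
  have e3 : (3 : ℝ) / 2 ^ σ = 3 * ε := by rw [hε]; ring
  have e4 : (4 : ℝ) / 2 ^ σ = 4 * ε := by rw [hε]; ring
  have e6 : (6 : ℝ) / 2 ^ σ = 6 * ε := by rw [hε]; ring
  have hA : ∀ p ∈ Ann x r (σ + 1), |r - ‖p - x‖| ≤ 2 * ε := fun p hp => e2 ▸ hp
  have ha : 1 ≤ r - ε := by
    by_contra hc
    refine h1 (bad_mem kd.finφ hx hr2 hb fun p hp => ?_)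
    have := abs_le.1 (hA p hp)
    show |‖p - x‖ - 1| ≤ 3 / 2 ^ σ
    rw [e3, abs_le]
    constructor <;> linarith [this.1, this.2]
  have hb2 : r + ε ≤ 2 := by
    by_contra hc
    refine h2 (bad_mem kd.finφ hx hr2 hb fun p hp => ?_)
    have := abs_le.1 (hA p hp)
    show |‖p - x‖ - 2| ≤ 3 / 2 ^ σ
    rw [e3, abs_le]
    constructor <;> linarith [this.1, this.2]
  obtain ⟨p, hp, hpB⟩ : ∃ p ∈ Ann x r (σ + 1), (x, p) ∉ bad0 μ Cin V c σ := by
    by_contra hc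
    push Not at hc
    exact h0 (bad_mem kd.finφ hx hr2 hb hc)
  have hp' := abs_le.1 (hA p hp)
  refine ⟨p, by rw [e2']; exact hA p hp, ?_, fun L hL => ?_⟩
  · by_contra hc
    push Not at hc
    refine hpB ⟨hx, ?_, ?_, ?_⟩
    · show ‖x - p‖ ≤ 3
      rw [norm_sub_rev]
      linarith [hp'.1]
    · show (μ σ).real {y | ‖y - x‖ - ‖p - x‖ < -(6 / 2 ^ σ)} ≤ 2 * Cin * V / (qq ^ σ) ^ 3
      have hs1 : qq ^ σ ≤ 1 := pow_le_one₀ hq.le qq_lt_one.le
      have hs0 : 0 < qq ^ σ := by positivity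
      have h3 : V / qq ^ σ ≤ V / (qq ^ σ) ^ 3 :=
        div_le_div_of_nonneg_left hV.le (by positivity) (pow_le_of_le_one hs0.le hs1 (by norm_num))
      have h4 : max ⟪n, Phi g x r σ⟫ 0 ≤ V / (qq ^ σ) ^ 3 := max_le hT (by positivity)
      calc (μ σ).real {y | ‖y - x‖ - ‖p - x‖ < -(6 / 2 ^ σ)}
          ≤ (μ σ).real {y | 4 / 2 ^ σ ≤ dp x r y} := by
            refine measureReal_mono fun y hy => ?_
            have hy' : ‖y - x‖ - ‖p - x‖ < -(6 / 2 ^ σ) := hy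
            show 4 / 2 ^ σ ≤ r - ‖y - x‖
            rw [e6] at hy'
            rw [e4]
            linarith [hp'.1]
        _ ≤ Cin * (V / (qq ^ σ) ^ 3 + V / (qq ^ σ) ^ 3) :=
            hin.trans (mul_le_mul_of_nonneg_left (add_le_add h4 h3) hCin.le)
        _ = 2 * Cin * V / (qq ^ σ) ^ 3 := by ring
    · show qq ^ σ * V ≤
        (μ σ).real {y | |‖y - x‖ - ‖p - x‖| ≤ 6 / 2 ^ σ ∧ (qq ^ σ) ^ 4 ≤ ‖y - p‖}
      refine hc.le.trans (measureReal_mono fun y hy => ⟨?_, ?_⟩)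
      · have hy' : |r - ‖y - x‖| ≤ 4 / 2 ^ σ := hy.1
        rw [e4] at hy'
        have := abs_le.1 hy'
        rw [e6, abs_le]
        constructor <;> linarith [this.1, this.2, hp'.1, hp'.2]
      · have := hy.2
        rwa [mem_ball, dist_eq_norm, not_lt] at this
  · have hL' : (1 : ℝ) / 2 ^ L ≤ ε :=
      one_div_le_one_div_of_le (by positivity) (pow_le_pow_right₀ (by norm_num) hL)
    exact hwin _ (by positivity) (by linarith) (by linarith)

/-- For `σ ≥ 3`, `s = qq^σ`, `φ' = (φ (σ+1)).restrict (closedBall c 8)`, `θ = qq^(σ+1) V`, let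
`Bad σ` be the union of the three sets of `markov_prod` for
`B₀ = {(x,p) | x ∈ closedBall c 2 ∧ (x,p) ∈ nestSet (μ σ) (2 Cin V/s^3) (s V) (6/2^σ) (s^4)}` and
`B_R = {(x,p) | |‖p - x‖ - R| ≤ 3/2^σ}`, `R = 1, 2`.  `vol (Bad σ) ≤ C s^6` (`nest`,
`volume_annulus`, `1/2^σ = s^16`).  If `x ∉ Bad σ`, `b_{σ+1} > θ` and `T_σ ≤ V/s^3` then
`[r - 1/2^σ, r + 1/2^σ] ⊆ [1,2]` (else `Ann (σ+1) ⊆ {p | (x,p) ∈ B_R}`) and some `p ∈ Ann (σ+1)` has
`(x,p) ∉ B₀`, which gives `Good σ p` (interior set `⊆ {4/2^σ ≤ dp}`, `Ann σ \ ball p D ⊆` annulus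
set).  `β = C V (1 + ∑_σ 1_{Bad (σ+3)} / qq^σ) 1_{closedBall c 2}`; almost every `x` lies in finitely
many `Bad σ` (`measure_limsup_atTop_eq_zero` / `ae_finite_setOf_mem`); apply `kl_pt` with
`σs = 1 +` the last bad level. -/
theorem kl_abs (Cin : ℝ) (hCin : 0 < Cin) : ∃ C : ℝ, 0 < C ∧ ∀ {g : E → E} {n : E}
    {φ μ : ℕ → Measure E} {V : ℝ} {c : E}, KD g n φ μ → 0 < V →
    (∀ m, (φ m).real (closedBall c 8) ≤ V / qq ^ m) →
    (∀ (x : E) (r : ℝ) (σ : ℕ), x ∈ closedBall c 2 → r ≤ 2 →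
      (μ σ).real {y | 4 / 2 ^ σ ≤ dp x r y} ≤ Cin * (max ⟪n, Phi g x r σ⟫ 0 + V / qq ^ σ)) →
    ∃ β : E → ℝ, Integrable β ∧ (∀ x, 0 ≤ β x) ∧ ∫ x, β x ≤ C * V ∧
      ∀ᵐ x, x ∈ closedBall c 2 → ∀ r, 1 ≤ r → r ≤ 2 →
        (∀ δ, 0 < δ → 1 ≤ r - δ → r + δ ≤ 2 → Win g x r δ) →
        ∀ e' : E, ‖e'‖ ≤ 2 → 1 / 200 ≤ ⟪n, e'⟫ → -β x ≤ ⟪e', ∫ y in ball x r, g y⟫ := by
  obtain ⟨C, hC, hpt⟩ := kl_pt
  obtain ⟨Cn, hCn, hnest⟩ := nest
  have hq := qq_pos
  have hq1 := qq_lt_one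
  set K : ℝ := 4 * (6 * Cn * (2 * Cin + 1)) + 4 * 96 + 4 * 96 with hK
  have hK0 : 0 ≤ K := by positivity
  set A : ℝ := volume.real (closedBall (0 : E) 2) with hA
  have hA0 : 0 ≤ A := measureReal_nonneg
  have hKq : 0 ≤ K / (1 - qq) := div_nonneg hK0 (by linarith)
  refine ⟨8 * C * (A + 2 * (K / (1 - qq))) + 1, by positivity, ?_⟩
  intro g n φ μ V c kd hV htot hin
  have hs : ∀ σ : ℕ, 0 < qq ^ σ ∧ qq ^ σ ≤ 1 := fun σ =>
    ⟨by positivity, pow_le_one₀ hq.le hq1.le⟩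
  have h8 : ∀ σ : ℕ, 3 ≤ σ → (8 : ℝ) ≤ 2 ^ σ := fun σ hσ =>
    calc (8 : ℝ) = 2 ^ 3 := by norm_num
      _ ≤ 2 ^ σ := pow_le_pow_right₀ (by norm_num) hσ
  have hR : ∀ R : ℝ, 1 ≤ R → R ≤ 2 → ∀ σ : ℕ, 3 ≤ σ → MeasurableSet (badSet φ V c σ (badR R σ)) ∧
      volume (badSet φ V c σ (badR R σ)) ≤ ENNReal.ofReal (4 * 96 * (qq ^ σ) ^ 2) := by
    intro R hR1 hR2 σ hσ
    refine bad_vol kd.finφ hV htot σ (measurableSet_le (by fun_prop) measurable_const)
      (by norm_num) fun p => ?_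
    refine (volume_annulus p hR1 hR2 (τ := 3 / 2 ^ σ) (by positivity) ?_).trans
      (ENNReal.ofReal_le_ofReal ?_)
    · rw [div_le_one (by positivity)]
      linarith [h8 σ hσ]
    · have h1 : (qq ^ σ) ^ 16 ≤ (qq ^ σ) ^ 4 :=
        pow_le_pow_of_le_one (hs σ).1.le (hs σ).2 (by norm_num)
      rw [qq_pow_pow] at h1
      have : (32 : ℝ) * (3 / 2 ^ σ) = 96 * (1 / 2 ^ σ) := by ring
      linarith
  have h0 : ∀ σ : ℕ, 3 ≤ σ → MeasurableSet (badSet φ V c σ (bad0 μ Cin V c σ)) ∧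
      volume (badSet φ V c σ (bad0 μ Cin V c σ)) ≤
        ENNReal.ofReal (4 * (6 * Cn * (2 * Cin + 1)) * (qq ^ σ) ^ 2) := by
    intro σ hσ
    have := kd.finμ σ
    obtain ⟨hs0, hs1⟩ := hs σ
    refine bad_vol kd.finφ hV htot σ
      ((measurable_fst measurableSet_closedBall).inter (measurableSet_nestSet _ _ _ _ _))
      (by positivity) fun p => ?_
    refine (hnest (μ σ) p c (2 * Cin * V / (qq ^ σ) ^ 3) (qq ^ σ * V) (6 / 2 ^ σ) ((qq ^ σ) ^ 4)
      (by positivity) (by positivity) (by positivity) ?_ (by positivity)).trans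
      (ENNReal.ofReal_le_ofReal ?_)
    · rw [div_le_one (by positivity)]
      linarith [h8 σ hσ]
    · have e6 : (6 : ℝ) / 2 ^ σ = 6 * (qq ^ σ) ^ 16 := by rw [qq_pow_pow]; ring
      rw [e6]
      generalize qq ^ σ = s at hs0 hs1
      have h4 : s ^ 4 ≤ 1 := pow_le_one₀ hs0.le hs1
      calc Cn * (2 * Cin * V / s ^ 3 / (s * V) + 1) * (6 * s ^ 16) / s ^ 4
          = 6 * Cn * (2 * Cin + s ^ 4) * (s ^ 4 * s ^ 4) := by field_simp
        _ ≤ 6 * Cn * (2 * Cin + 1) * (s ^ 4 * 1) := by gcongr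
        _ = 6 * Cn * (2 * Cin + 1) * s ^ 4 := by ring
  obtain ⟨F, hFi, hF0, hFI, hFae⟩ := bad_abs
    (fun σ => badSet φ V c (σ + 3) (bad0 μ Cin V c (σ + 3)) ∪
      badSet φ V c (σ + 3) (badR 1 (σ + 3)) ∪ badSet φ V c (σ + 3) (badR 2 (σ + 3)))
    (fun σ => ((h0 _ (by omega)).1.union (hR 1 le_rfl one_le_two _ (by omega)).1).union
      (hR 2 one_le_two le_rfl _ (by omega)).1) hK0 (fun σ => by
      refine (measure_union_le _ _).trans ((add_le_add ((measure_union_le _ _).trans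
        (add_le_add (h0 _ (by omega)).2 (hR 1 le_rfl one_le_two _ (by omega)).2))
        (hR 2 one_le_two le_rfl _ (by omega)).2).trans ?_)
      rw [← ENNReal.ofReal_add (by positivity) (by positivity),
        ← ENNReal.ofReal_add (by positivity) (by positivity)]
      refine ENNReal.ofReal_le_ofReal ?_
      have h1 : (qq ^ (σ + 3)) ^ 2 ≤ (qq ^ σ) ^ 2 :=
        pow_le_pow_left₀ (by positivity) (pow_le_pow_of_le_one hq.le hq1.le (by omega)) 2
      calc _ = K * (qq ^ (σ + 3)) ^ 2 := by rw [hK]; ring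
        _ ≤ K * (qq ^ σ) ^ 2 := by gcongr)
  have hI : Integrable ((closedBall c 2).indicator fun _ : E => (1 : ℝ)) :=
    (integrableOn_const (measure_closedBall_lt_top.ne)).integrable_indicator
      measurableSet_closedBall
  refine ⟨fun x => 8 * C * V * ((closedBall c 2).indicator (fun _ => (1 : ℝ)) x + 2 * F x),
    (hI.add (hFi.const_mul 2)).const_mul _, fun x => ?_, ?_, ?_⟩
  · have := hF0 x
    have : 0 ≤ (closedBall c 2).indicator (fun _ => (1 : ℝ)) x :=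
      Set.indicator_nonneg (fun _ _ => zero_le_one) x
    positivity
  · rw [integral_const_mul, integral_add hI (hFi.const_mul 2), integral_const_mul,
      integral_indicator_const _ measurableSet_closedBall, smul_eq_mul, mul_one]
    have e : volume.real (closedBall c 2) = A := by
      simp only [hA, Measure.real, Measure.addHaar_closedBall_center]
    rw [e]
    calc 8 * C * V * (A + 2 * ∫ x, F x) ≤ 8 * C * V * (A + 2 * (K / (1 - qq))) := by gcongr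
      _ ≤ (8 * C * (A + 2 * (K / (1 - qq))) + 1) * V := by linarith
  · filter_upwards [hFae] with x ⟨N, hN, hNF⟩ hx r hr1 hr2 hwin e' he1 he2
    have ctx : Ctx g n φ μ V x r := ⟨kd, hV, hr1, hr2, fun m => by
      have := kd.finφ m
      refine le_trans (measureReal_mono (closedBall_subset_closedBall' ?_)) (htot m)
      have := mem_closedBall.1 hx
      linarith⟩
    refine le_trans ?_ (hpt (σs := N + 3) ctx he1 he2 fun σ hσ hb hT => ?_)
    · rw [neg_le_neg_iff, Set.indicator_of_mem hx]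
      have h1 : 1 / qq ^ 3 ≤ 8 := by
        rw [div_le_iff₀ (by positivity)]
        have := pow_le_pow_left₀ (by norm_num) half_lt_qq.le 3
        linarith
      calc C * V / qq ^ (N + 3) = C * V * (1 / qq ^ N) * (1 / qq ^ 3) := by
            rw [pow_add]; field_simp
        _ ≤ C * V * (1 + 2 * F x) * 8 := by
            have := hF0 x
            gcongr
        _ = 8 * C * V * (1 + 2 * F x) := by ring
    · obtain ⟨σ', rfl⟩ : ∃ σ', σ = σ' + 3 := ⟨σ - 3, by omega⟩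
      have hn := hN σ' (by omega)
      simp only [Set.mem_union, not_or] at hn
      exact bad_good hCin kd hV hx hr1 hr2 (by omega) (hin x r _ hx hr2) hwin hn.1.1 hn.1.2 hn.2
        hb hT

end Crest.Agent.R112
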