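import Crest.Agent.R112.Gam

/-! # Row 112: node measures and budgets (task BUD) -/

set_option autoImplicit false

namespace Crest.Agent.R112

open MeasureTheory Metric
open scoped RealInnerProductSpace

variable {g : E → E}

/-- `Measure.sum_apply_of_countable`, `Measure.dirac_apply` (valid for every set) -/
theorem nm_apply (φ : E → ℝ) (g : E → E) (j : ℤ) (S : Set E) :
    nm φ g j S = ∑' p : ℕ × (ℤ × ℤ), S.indicator
      (fun _ => ENNReal.ofReal ((1 / 2) ^ p.1 * φ (Gam g (j - p.1) p.2))) (pos (j - p.1) p.2) := by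
  rw [nm, Measure.sum_apply_of_countable]
  refine tsum_congr fun p => ?_
  rw [Measure.smul_apply, Measure.dirac_apply, smul_eq_mul]
  by_cases h : pos (j - p.1) p.2 ∈ S <;> simp [h]

theorem bud_summable (hg : Integrable g) (j : ℤ) :
    Summable fun p : ℕ × (ℤ × ℤ) => (1 / 2 : ℝ) ^ p.1 * ‖Gam g (j - p.1) p.2‖ := by
  refine (summable_prod_of_nonneg fun p => by positivity).2
    ⟨fun i => (summable_Gam hg (j - i)).mul_left ((1 / 2 : ℝ) ^ i), ?_⟩
  refine Summable.of_nonneg_of_le (fun i => tsum_nonneg fun _ => by positivity) (fun i => ?_)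
    (summable_geometric_two.mul_right (∫ y, ‖g y‖))
  simp only
  rw [tsum_mul_left]
  exact mul_le_mul_of_nonneg_left (aa_le hg _) (by positivity)

open Classical in
theorem bud_nm (hg : Integrable g) {φ : E → ℝ} {c : ℝ} (h : ∀ v, 0 ≤ φ v ∧ φ v ≤ c * ‖v‖)
    (j : ℤ) (S : Set E) :
    Summable (fun p : ℕ × (ℤ × ℤ) => if pos (j - p.1) p.2 ∈ S then
      (1 / 2 : ℝ) ^ p.1 * φ (Gam g (j - p.1) p.2) else 0) ∧
    nm φ g j S = ENNReal.ofReal (∑' p : ℕ × (ℤ × ℤ), if pos (j - p.1) p.2 ∈ S then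
      (1 / 2 : ℝ) ^ p.1 * φ (Gam g (j - p.1) p.2) else 0) := by
  have h0 : ∀ p : ℕ × (ℤ × ℤ), 0 ≤ if pos (j - p.1) p.2 ∈ S then
      (1 / 2 : ℝ) ^ p.1 * φ (Gam g (j - p.1) p.2) else 0 := fun p => by
    have := (h (Gam g (j - p.1) p.2)).1
    positivity
  have hs : Summable (fun p : ℕ × (ℤ × ℤ) => if pos (j - p.1) p.2 ∈ S then
      (1 / 2 : ℝ) ^ p.1 * φ (Gam g (j - p.1) p.2) else 0) := by
    refine Summable.of_nonneg_of_le h0 (fun p => ?_) ((bud_summable hg j).mul_left c)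
    obtain ⟨h1, h2⟩ := h (Gam g (j - p.1) p.2)
    have h3 : (0 : ℝ) ≤ (1 / 2) ^ p.1 := by positivity
    split_ifs <;> nlinarith
  refine ⟨hs, ?_⟩
  rw [ENNReal.ofReal_tsum_of_nonneg h0 hs, nm_apply]
  refine tsum_congr fun p => ?_
  by_cases hp : pos (j - p.1) p.2 ∈ S <;> simp [hp]

theorem bud_norm (v : E) : 0 ≤ ‖v‖ ∧ ‖v‖ ≤ 1 * ‖v‖ := ⟨norm_nonneg _, (one_mul _).ge⟩

theorem bud_term_nonneg (hg : Integrable g) (k : ℤ) (m : ℕ) :
    0 ≤ qq ^ m * (aa g (k - m) - aa g (k + 5)) :=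
  mul_nonneg (pow_nonneg qq_pos.le _) (sub_nonneg.2 (aa_anti hg (by omega)))

theorem summable_alpha' (hg : Integrable g) (k : ℤ) :
    Summable fun m : ℕ => qq ^ m * (aa g (k - m) - aa g (k + 5)) := by
  refine Summable.of_nonneg_of_le (bud_term_nonneg hg k) (fun m => ?_)
    ((summable_geometric_of_lt_one qq_pos.le qq_lt_one).mul_right (∫ y, ‖g y‖))
  refine mul_le_mul_of_nonneg_left ?_ (pow_nonneg qq_pos.le _)
  linarith [aa_le hg (k - m), aa_nonneg g (k + 5)]

theorem bud_lt : (2 * qq)⁻¹ < 1 := inv_lt_one_of_one_lt₀ (by linarith [half_lt_qq])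

theorem bud_C_pos : 0 < (1 - (2 * qq)⁻¹)⁻¹ := inv_pos.2 (sub_pos.2 bud_lt)

theorem bud_geom : HasSum (fun i : ℕ => (2 * qq)⁻¹ ^ i) (1 - (2 * qq)⁻¹)⁻¹ :=
  hasSum_geometric_of_lt_one (by have := qq_pos; positivity) bud_lt

theorem bud_tele1 {F : ℤ → ℝ} {B : ℝ} (h0 : ∀ k, 0 ≤ F k) (h1 : ∀ k, F k ≤ B) (k₀ k₁ : ℤ) :
    ∑ k ∈ Finset.Icc k₀ k₁, (F k - F (k + 1)) ≤ B := by
  by_cases h : k₀ - 1 ≤ k₁
  · have key : ∑ k ∈ Finset.Icc k₀ k₁, (F k - F (k + 1)) = F k₀ - F (k₁ + 1) := by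
      induction k₁, h using Int.leInduction with
      | base => simp
      | succ n hn ih =>
        have e : Finset.Icc k₀ (n + 1) = insert (n + 1) (Finset.Icc k₀ n) := by
          ext x
          simp only [Finset.mem_Icc, Finset.mem_insert]
          omega
        rw [e, Finset.sum_insert (by simp), ih]
        ring
    linarith [h1 k₀, h0 (k₁ + 1)]
  · rw [Finset.Icc_eq_empty (by omega), Finset.sum_empty]
    exact (h0 0).trans (h1 0)

theorem bud_tele {F : ℤ → ℝ} {B : ℝ} (h0 : ∀ k, 0 ≤ F k) (h1 : ∀ k, F k ≤ B) (k₀ k₁ : ℤ) (d : ℕ)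
    (a : ℤ) : ∑ k ∈ Finset.Icc k₀ k₁, (F (k + a) - F (k + a + d)) ≤ d * B := by
  induction d with
  | zero => simp
  | succ d ih =>
    have h := bud_tele1 (F := fun k => F (k + a + d)) (fun k => h0 _) (fun k => h1 _) k₀ k₁
    have e : ∀ k : ℤ, F (k + a) - F (k + a + ((d + 1 : ℕ) : ℤ)) =
        (F (k + a) - F (k + a + d)) + (F (k + a + d) - F (k + 1 + a + d)) := fun k => by
      rw [show k + a + ((d + 1 : ℕ) : ℤ) = k + 1 + a + d by push_cast; ring]
      ring
    simp only [e, Finset.sum_add_distrib]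
    push_cast
    linarith

/-- Tonelli for a series of nonnegative functions with integrable majorants. -/
theorem bud_tonelli {α ι : Type*} [MeasurableSpace α] [Countable ι] {μ : Measure α}
    {F u : ι → α → ℝ} {G : α → ℝ} {B : ℝ} (hG : ∀ x, HasSum (fun i => F i x) (G x))
    (hm : ∀ i, Measurable (F i)) (h0 : ∀ i x, 0 ≤ F i x) (hu : ∀ i x, F i x ≤ u i x)
    (hi : ∀ i, Integrable (u i) μ) (hB : HasSum (fun i => ∫ x, u i x ∂μ) B) :
    Integrable G μ ∧ ∫ x, G x ∂μ ≤ B := by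
  have hG0 : ∀ x, 0 ≤ G x := fun x => (hG x).nonneg fun i => h0 i x
  have hu0 : ∀ i, 0 ≤ ∫ x, u i x ∂μ := fun i => integral_nonneg fun x => (h0 i x).trans (hu i x)
  have e : ∀ x, ENNReal.ofReal (G x) = ∑' i, ENNReal.ofReal (F i x) := fun x => by
    rw [← (hG x).tsum_eq, ENNReal.ofReal_tsum_of_nonneg (fun i => h0 i x) (hG x).summable]
  have hme : Measurable fun x => ENNReal.ofReal (G x) := by
    simp only [e]
    exact Measurable.tsum fun i => (hm i).ennreal_ofReal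
  have hGm : Measurable G := by
    have := hme.ennreal_toReal
    simpa only [ENNReal.toReal_ofReal (hG0 _)] using this
  have hl : ∫⁻ x, ENNReal.ofReal (G x) ∂μ ≤ ENNReal.ofReal B := by
    simp only [e]
    rw [lintegral_tsum fun i => (hm i).ennreal_ofReal.aemeasurable, ← hB.tsum_eq,
      ENNReal.ofReal_tsum_of_nonneg hu0 hB.summable]
    refine ENNReal.tsum_le_tsum fun i => ?_
    rw [ofReal_integral_eq_lintegral_ofReal (hi i)
      (Filter.Eventually.of_forall fun x => (h0 i x).trans (hu i x))]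
    exact lintegral_mono fun x => ENNReal.ofReal_le_ofReal (hu i x)
  have hI : Integrable G μ :=
    (lintegral_ofReal_ne_top_iff_integrable hGm.aestronglyMeasurable
      (Filter.Eventually.of_forall hG0)).1 (hl.trans_lt ENNReal.ofReal_lt_top).ne
  refine ⟨hI, ?_⟩
  rw [← ofReal_integral_eq_lintegral_ofReal hI (Filter.Eventually.of_forall hG0)] at hl
  exact (ENNReal.ofReal_le_ofReal_iff (hB.nonneg hu0)).1 hl

theorem nm_finite (hg : Integrable g) {φ : E → ℝ} {c : ℝ} (h : ∀ v, 0 ≤ φ v ∧ φ v ≤ c * ‖v‖)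
    (j : ℤ) : IsFiniteMeasure (nm φ g j) := by
  exact ⟨by rw [(bud_nm hg h j Set.univ).2]; exact ENNReal.ofReal_lt_top⟩

open Classical in
/-- real form: the double family is summable -/
theorem hasSum_nm (hg : Integrable g) {φ : E → ℝ} {c : ℝ} (h : ∀ v, 0 ≤ φ v ∧ φ v ≤ c * ‖v‖)
    (j : ℤ) (S : Set E) :
    HasSum (fun p : ℕ × (ℤ × ℤ) => if pos (j - p.1) p.2 ∈ S then
      (1 / 2) ^ p.1 * φ (Gam g (j - p.1) p.2) else 0) ((nm φ g j).real S) := by
  obtain ⟨h1, h2⟩ := bud_nm hg h j S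
  rw [Measure.real, h2, ENNReal.toReal_ofReal (tsum_nonneg fun p => by
    have := (h (Gam g (j - p.1) p.2)).1
    positivity)]
  exact h1.hasSum

theorem nm_garb_le (hg : Integrable g) {n : E} (hn : ‖n‖ = 1) (j : ℤ) (S : Set E) :
    (nm (garb n) g j).real S ≤ 2 * (nm (fun v => ‖v‖) g j).real S := by
  refine hasSum_le (fun p => ?_)
    (hasSum_nm hg (c := 2) (fun v => ⟨garb_nonneg hn v, garb_le hn v⟩) j S)
    ((hasSum_nm hg bud_norm j S).mul_left 2)
  split_ifs
  · have := garb_le hn (Gam g (j - p.1) p.2)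
    have h2 : (0 : ℝ) ≤ (1 / 2) ^ p.1 := by positivity
    nlinarith
  · simp

theorem nm_pred_le (hg : Integrable g) (j : ℤ) (S : Set E) :
    (nm (fun v => ‖v‖) g (j - 1)).real S ≤ 2 * (nm (fun v => ‖v‖) g j).real S := by
  refine hasSum_le_inj (fun p : ℕ × (ℤ × ℤ) => (p.1 + 1, p.2)) ?_ (fun p _ => ?_) (fun p => ?_)
    (hasSum_nm hg bud_norm (j - 1) S) ((hasSum_nm hg bud_norm j S).mul_left 2)
  · intro p q h
    simp only [Prod.mk.injEq, add_left_inj] at h
    exact Prod.ext h.1 h.2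
  · positivity
  · have e : j - ((p.1 + 1 : ℕ) : ℤ) = j - 1 - p.1 := by push_cast; ring
    simp only
    rw [e]
    split_ifs
    · rw [pow_succ]; linarith
    · simp

theorem summable_V0 (hg : Integrable g) (k : ℤ) (X : ℤ × ℤ) :
    Summable fun m : ℕ => qq ^ m * loc g k X (k - m) := by
  refine Summable.of_nonneg_of_le (fun m => mul_nonneg (pow_nonneg qq_pos.le _)
    (loc_nonneg _ _ _ _)) (fun m => ?_) ((summable_alpha' hg k).mul_left 16384)
  have := sum_loc_le hg (i := k - m) (k := k) (by omega) {X}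
  rw [Finset.sum_singleton] at this
  have h2 := pow_nonneg qq_pos.le m
  nlinarith

theorem V0_nonneg (g : E → E) (k : ℤ) (X : ℤ × ℤ) : 0 ≤ V0 g k X := by
  exact tsum_nonneg fun m => mul_nonneg (pow_nonneg qq_pos.le _) (loc_nonneg _ _ _ _)

theorem summable_alpha (hg : Integrable g) (k : ℤ) :
    Summable fun m : ℕ => qq ^ m * (aa g (k - m) - aa g (k + 5)) := by
  exact summable_alpha' hg k

theorem alpha_nonneg (hg : Integrable g) (k : ℤ) : 0 ≤ alpha g k := by
  exact tsum_nonneg fun m => bud_term_nonneg hg k m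

theorem aa_sub_le_alpha (hg : Integrable g) (k : ℤ) (m : ℕ) :
    aa g (k - m) - aa g (k + 5) ≤ alpha g k / qq ^ m := by
  rw [le_div_iff₀ (pow_pos qq_pos m), mul_comm]
  exact (summable_alpha hg k).le_tsum m fun m _ => bud_term_nonneg hg k m

theorem sum_V0_le (hg : Integrable g) (k : ℤ) (s : Finset (ℤ × ℤ)) :
    ∑ X ∈ s, V0 g k X ≤ 16384 * alpha g k := by
  refine hasSum_le (fun m => ?_) (hasSum_sum fun X (_ : X ∈ s) => (summable_V0 hg k X).hasSum)
    ((summable_alpha hg k).hasSum.mul_left 16384)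
  rw [← Finset.mul_sum]
  have := sum_loc_le hg (i := k - m) (k := k) (by omega) s
  have h2 := pow_nonneg qq_pos.le m
  nlinarith

/-- `∑_{k ∈ Icc k₀ k₁} (aa (k - m) - aa (k + 5)) ≤ (m + 5) ‖g‖₁` (telescoping: induction on the
shift, `∑_k (aa k - aa (k+1)) ≤ ‖g‖₁`), and `∑ (m + 5) qq^m < ∞`. -/
theorem sum_alpha_le : ∃ C : ℝ, 0 < C ∧ ∀ g : E → E, Integrable g → ∀ k₀ k₁ : ℤ,
    ∑ k ∈ Finset.Icc k₀ k₁, alpha g k ≤ C * ∫ y, ‖g y‖ := by
  have hq : ‖qq‖ < 1 := by rw [Real.norm_of_nonneg qq_pos.le]; exact qq_lt_one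
  have hs : Summable fun m : ℕ => ((m : ℝ) + 5) * qq ^ m := by
    simp only [add_mul]
    exact (by simpa using summable_pow_mul_geometric_of_norm_lt_one 1 hq : Summable fun m : ℕ =>
      (m : ℝ) * qq ^ m).add ((summable_geometric_of_norm_lt_one hq).mul_left 5)
  refine ⟨∑' m : ℕ, ((m : ℝ) + 5) * qq ^ m, ?_, fun g hg k₀ k₁ => ?_⟩
  · exact hs.tsum_pos (fun m => by have := qq_pos; positivity) 0 (by norm_num)
  · refine hasSum_le (fun m => ?_)
      (hasSum_sum fun k (_ : k ∈ Finset.Icc k₀ k₁) => (summable_alpha hg k).hasSum)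
      (hs.hasSum.mul_right _)
    rw [← Finset.mul_sum]
    have := bud_tele (aa_nonneg g) (aa_le hg) k₀ k₁ (m + 5) (-m)
    have e : ∀ k : ℤ, k + -(m : ℤ) + ((m + 5 : ℕ) : ℤ) = k + 5 := fun k => by push_cast; ring
    simp only [e] at this
    simp only [← sub_eq_add_neg] at this
    have h2 := pow_nonneg qq_pos.le m
    push_cast at this
    nlinarith

/-- level `k - m - i` contributes `2^(-i) loc g k X (k - m - i) ≤ 2^(-i) V0 / qq^(m+i)`;
`2 qq > 1`. -/
theorem nm_box_le : ∃ C : ℝ, 0 < C ∧ ∀ g : E → E, Integrable g → ∀ (k : ℤ) (X : ℤ × ℤ) (m : ℕ),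
    (nm (garb (nref g k X)) g (k - m)).real (box 8 k X) ≤ C * V0 g k X / qq ^ m := by
  refine ⟨(1 - (2 * qq)⁻¹)⁻¹, bud_C_pos, fun g hg k X m => ?_⟩
  have hn := norm_nref g k X
  have h1 := hasSum_nm hg (c := 2) (fun v => ⟨garb_nonneg hn v, garb_le hn v⟩) (k - m) (box 8 k X)
  have h2 := h1.prod_fiberwise (g := fun i : ℕ => (1 / 2) ^ i * loc g k X (k - m - i)) (by
    intro i
    refine (h1.summable.prod_factor i).hasSum_iff.2 ?_
    rw [loc, ← tsum_mul_left]
    refine tsum_congr fun Y => ?_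
    split_ifs <;> simp)
  rw [mul_div_assoc]
  refine hasSum_le (fun i => ?_) h2 (bud_geom.mul_right _)
  have h3 : qq ^ (m + i) * loc g k X (k - ((m + i : ℕ) : ℤ)) ≤ V0 g k X :=
    (summable_V0 hg k X).le_tsum (m + i) fun m _ =>
      mul_nonneg (pow_nonneg qq_pos.le _) (loc_nonneg _ _ _ _)
  have e : k - ((m + i : ℕ) : ℤ) = k - m - i := by push_cast; ring
  rw [e, ← le_div_iff₀' (pow_pos qq_pos _)] at h3
  refine (mul_le_mul_of_nonneg_left h3 (by positivity)).trans (le_of_eq ?_)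
  have := qq_pos.ne'
  rw [pow_add, inv_pow, mul_pow, one_div_pow]
  field_simp

/-- Weighted local masses.  Tonelli (`nm_apply`, `lintegral_tsum`): the left side is
`∑_{i, Y} 2^(-i) ‖Γ Y‖ ∫_{closedBall (pos Y) (4 2^l)} w ≤ 16 π 4^l ∑_i 2^(-i) ∑_Y ‖Γ Y‖ itp k ω (pos Y)`
(if `hat k Z (pos Y) ≠ 0` and `‖x - pos Y‖ ≤ 4 2^l` then `x ∈ box 5 k Z`, so `w x ≤ itp k ω (pos Y)`
by `itp_mem`); then `tsum_itp_norm`, `aa_anti`, `aa_sub_le_alpha` with `2^(-i) qq^(-i)` summable.
Measurability of `x ↦ nm (closedBall x ρ)`: `measurable_measure_prodMk_left` or the series. -/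
theorem wsum : ∃ C : ℝ, 0 < C ∧ ∀ g : E → E, Integrable g → ∀ (k : ℤ) (m : ℕ)
    (ω : ℤ × ℤ → ℝ) (w : E → ℝ), (∀ Z, 0 ≤ ω Z ∧ ω Z ≤ 1) → Measurable w → (∀ x, 0 ≤ w x) →
    (∀ x Z, x ∈ box 5 k Z → w x ≤ ω Z) →
    Integrable (fun x => w x * (nm (fun v => ‖v‖) g (k - m)).real (closedBall x (4 * 2 ^ (k - m)))) ∧
    ∫ x, w x * (nm (fun v => ‖v‖) g (k - m)).real (closedBall x (4 * 2 ^ (k - m))) ≤
      C * (2 ^ (k - m)) ^ 2 * (∑' Z, ω Z * ‖Gam g k Z‖ + alpha g k / qq ^ m) := by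
  classical
  refine ⟨16 * Real.pi * (1 - (2 * qq)⁻¹)⁻¹, by have := bud_C_pos; positivity,
    fun g hg k m ω w hω hw hw0 hwω => ?_⟩
  set ρ : ℝ := 4 * 2 ^ (k - m) with hρ
  have hρ0 : 0 < ρ := by positivity
  have hρk : ρ ≤ 4 * 2 ^ k := by
    have : (2 : ℝ) ^ (k - m) ≤ 2 ^ k := zpow_le_zpow_right₀ one_le_two (by omega)
    linarith
  have hit : ∀ y, 0 ≤ itp k ω y ∧ itp k ω y ≤ 1 := fun y => itp_mem fun X _ => hω X
  have hwle : ∀ x y : E, y ∈ closedBall x ρ → w x ≤ itp k ω y := by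
    intro x y hy
    refine (itp_mem (hi := 1) fun Z hZ => ⟨hwω x Z ?_, (hω Z).2⟩).1
    have hb := mem_box_of_hat hZ
    have hd : ‖y - x‖ ≤ ρ := by rwa [mem_closedBall, dist_eq_norm] at hy
    have h0 := abs_apply_le (y - x) 0
    have h1 := abs_apply_le (y - x) 1
    simp only [PiLp.sub_apply] at h0 h1
    obtain ⟨b0, b1⟩ := hb
    rw [abs_le] at h0 h1 b0 b1
    constructor <;> rw [abs_le] <;> constructor <;> linarith
  set A : ℝ := ∑' Z, ω Z * ‖Gam g k Z‖ with hA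
  have hA0 : 0 ≤ A := tsum_nonneg fun Z => mul_nonneg (hω Z).1 (norm_nonneg _)
  have hb : Summable fun p : ℕ × (ℤ × ℤ) => (1 / 2 : ℝ) ^ p.1 *
      (itp k ω (pos (k - m - p.1) p.2) * ‖Gam g (k - m - p.1) p.2‖) := by
    refine Summable.of_nonneg_of_le (fun p => ?_) (fun p => ?_) (bud_summable hg (k - m))
    · have := (hit (pos (k - m - p.1) p.2)).1
      positivity
    · exact mul_le_mul_of_nonneg_left (mul_le_of_le_one_left (norm_nonneg _) (hit _).2)
        (by positivity)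
  have hB : ∑' p : ℕ × (ℤ × ℤ), (1 / 2 : ℝ) ^ p.1 *
      (itp k ω (pos (k - m - p.1) p.2) * ‖Gam g (k - m - p.1) p.2‖) ≤
      (1 - (2 * qq)⁻¹)⁻¹ * (A + alpha g k / qq ^ m) := by
    have h2 := hb.hasSum.prod_fiberwise (g := fun i : ℕ => (1 / 2 : ℝ) ^ i *
      ∑' Y, itp k ω (pos (k - m - i) Y) * ‖Gam g (k - m - i) Y‖) (by
        intro i
        have hs := (hb.prod_factor i).hasSum
        simp only at hs
        rwa [tsum_mul_left] at hs)
    refine hasSum_le (fun i => ?_) h2 (bud_geom.mul_right _)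
    have h3 := (tsum_itp_norm hg (i := k - m - i) (k := k) (by omega) hω).2
    have h4 := aa_sub_le_alpha hg k (m + i)
    have h5 := aa_anti hg (i := k) (k := k + 5) (by omega)
    have e : k - ((m + i : ℕ) : ℤ) = k - m - i := by push_cast; ring
    rw [e] at h4
    have h6 : A ≤ A / qq ^ i :=
      le_div_self hA0 (pow_pos qq_pos _) (pow_le_one₀ qq_pos.le qq_lt_one.le)
    have h7 : ∑' Y, itp k ω (pos (k - m - i) Y) * ‖Gam g (k - m - i) Y‖ ≤
        A / qq ^ i + alpha g k / qq ^ (m + i) := by linarith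
    refine (mul_le_mul_of_nonneg_left h7 (by positivity)).trans (le_of_eq ?_)
    have := qq_pos.ne'
    rw [pow_add, inv_pow, mul_pow, one_div_pow]
    field_simp
  have key := bud_tonelli (μ := (volume : Measure E))
    (F := fun (p : ℕ × (ℤ × ℤ)) x => w x * if pos (k - m - p.1) p.2 ∈ closedBall x ρ then
      (1 / 2) ^ p.1 * ‖Gam g (k - m - p.1) p.2‖ else 0)
    (u := fun (p : ℕ × (ℤ × ℤ)) => (closedBall (pos (k - m - p.1) p.2) ρ).indicator fun _ =>
      (1 / 2 : ℝ) ^ p.1 * (itp k ω (pos (k - m - p.1) p.2) * ‖Gam g (k - m - p.1) p.2‖))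
    (fun x => (hasSum_nm hg bud_norm (k - m) (closedBall x ρ)).mul_left (w x))
    (fun p => by
      refine hw.mul (Measurable.ite ?_ measurable_const measurable_const)
      simp only [mem_closedBall_comm (x := pos _ _)]
      exact measurableSet_closedBall)
    (fun p x => by have := hw0 x; positivity)
    (fun p x => by
      by_cases hx : pos (k - m - p.1) p.2 ∈ closedBall x ρ
      · rw [if_pos hx, Set.indicator_of_mem (mem_closedBall_comm.1 hx), mul_left_comm]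
        exact mul_le_mul_of_nonneg_left
          (mul_le_mul_of_nonneg_right (hwle x _ hx) (norm_nonneg _)) (by positivity)
      · rw [if_neg hx, Set.indicator_of_notMem (fun h => hx (mem_closedBall_comm.1 h)), mul_zero])
    (fun p => (integrableOn_const (measure_closedBall_lt_top.ne)).integrable_indicator
      measurableSet_closedBall)
    (B := (ρ ^ 2 * Real.pi) * _) (by
      have e : ∀ (y : E) (c : ℝ), ∫ x, (closedBall y ρ).indicator (fun _ => c) x =
          ρ ^ 2 * Real.pi * c := fun y c => by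
        rw [integral_indicator measurableSet_closedBall, setIntegral_const, Measure.real,
          EuclideanSpace.volume_closedBall_fin_two, ENNReal.toReal_mul, ENNReal.toReal_pow,
          ENNReal.toReal_ofReal hρ0.le, ENNReal.toReal_ofReal Real.pi_pos.le, smul_eq_mul]
      simp only [e]
      exact hb.hasSum.mul_left _)
  refine ⟨key.1, key.2.trans ?_⟩
  refine (mul_le_mul_of_nonneg_left hB (by positivity)).trans (le_of_eq ?_)
  rw [hρ]
  ring

end Crest.Agent.R112
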