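import Crest.Agent.R112.Defs

/-! # Row 112: single-scale tools (task TOOL) -/

set_option autoImplicit false

namespace Crest.Agent.R112

open MeasureTheory Metric
open scoped RealInnerProductSpace

section SL
variable {F : Type*} [NormedAddCommGroup F]

theorem SL.nonneg {κ : E → F} {a b : ℝ} (h : SL κ a b) : 0 ≤ a :=
  (norm_nonneg _).trans (h.bd 0)

theorem SL.tool_nonneg {κ : E → F} {a b : ℝ} (h : SL κ a b) : 0 ≤ b := by
  have h1 := (norm_nonneg _).trans (h.lip (dir 0) 0)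
  rwa [sub_zero, norm_dir, mul_one] at h1

theorem SL.mono {κ : E → F} {a b a' b' : ℝ} (h : SL κ a b) (ha : a ≤ a') (hb : b ≤ b') :
    SL κ a' b' :=
  ⟨fun y => (h.bd y).trans ha,
    fun y z => (h.lip y z).trans (mul_le_mul_of_nonneg_right hb (norm_nonneg _))⟩

theorem SL.continuous {κ : E → F} {a b : ℝ} (h : SL κ a b) : Continuous κ :=
  (LipschitzWith.of_dist_le_mul (K := ⟨b, h.tool_nonneg⟩) fun y z => by
    rw [dist_eq_norm, dist_eq_norm]; exact h.lip y z).continuous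

theorem SL.add {κ κ' : E → F} {a b a' b' : ℝ} (h : SL κ a b) (h' : SL κ' a' b') :
    SL (fun y => κ y + κ' y) (a + a') (b + b') := by
  refine ⟨fun y => (norm_add_le _ _).trans (add_le_add (h.bd y) (h'.bd y)), fun y z => ?_⟩
  rw [add_sub_add_comm, add_mul]
  exact (norm_add_le _ _).trans (add_le_add (h.lip y z) (h'.lip y z))

theorem SL.sub {κ κ' : E → F} {a b a' b' : ℝ} (h : SL κ a b) (h' : SL κ' a' b') :
    SL (fun y => κ y - κ' y) (a + a') (b + b') := by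
  refine ⟨fun y => (norm_sub_le _ _).trans (add_le_add (h.bd y) (h'.bd y)), fun y z => ?_⟩
  rw [sub_sub_sub_comm, add_mul]
  exact (norm_sub_le _ _).trans (add_le_add (h.lip y z) (h'.lip y z))

theorem SL.neg {κ : E → F} {a b : ℝ} (h : SL κ a b) : SL (fun y => -κ y) a b := by
  refine ⟨fun y => by rw [norm_neg]; exact h.bd y, fun y z => ?_⟩
  rw [neg_sub_neg, norm_sub_rev]
  exact h.lip y z

/-- a function with values in `[0, 1]` -/
theorem SL.of_unit {h : E → ℝ} {b : ℝ} (h0 : ∀ y, 0 ≤ h y ∧ h y ≤ 1)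
    (hl : ∀ y z, |h y - h z| ≤ b * ‖y - z‖) : SL h 1 b :=
  ⟨fun y => by rw [Real.norm_of_nonneg (h0 y).1]; exact (h0 y).2, hl⟩

/-- Product rule; `κ` only has to be bounded where `h ≠ 0`.  If `h y ≠ 0 ≠ h z` use
`h y • κ y - h z • κ z = (h y - h z) • κ y + h z • (κ y - κ z)`; if `h z = 0` then
`h y • κ y = (h y - h z) • κ y`. -/
theorem SL.smul [NormedSpace ℝ F] {h : E → ℝ} {κ : E → F} {a b a' b' : ℝ} (hh : SL h a b)
    (ha' : 0 ≤ a') (hb' : 0 ≤ b') (hbd : ∀ y, h y ≠ 0 → ‖κ y‖ ≤ a')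
    (hl : ∀ y z, ‖κ y - κ z‖ ≤ b' * ‖y - z‖) :
    SL (fun y => h y • κ y) (a * a') (b * a' + a * b') := by
  have ha := hh.nonneg
  have hb := hh.tool_nonneg
  have key : ∀ y z, h y ≠ 0 → ‖h y • κ y - h z • κ z‖ ≤ (b * a' + a * b') * ‖y - z‖ := by
    intro y z hy
    have e : h y • κ y - h z • κ z = (h y - h z) • κ y + h z • (κ y - κ z) := by
      rw [sub_smul, smul_sub]; abel
    rw [e]
    refine (norm_add_le _ _).trans ?_
    rw [norm_smul, norm_smul]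
    have h1 := mul_le_mul (hh.lip y z) (hbd y hy) (norm_nonneg _) (by positivity)
    have h2 := mul_le_mul (hh.bd z) (hl y z) (norm_nonneg _) ha
    linarith
  refine ⟨fun y => ?_, fun y z => ?_⟩
  · by_cases hy : h y = 0
    · rw [hy, zero_smul, norm_zero]; positivity
    · rw [norm_smul]
      exact mul_le_mul (hh.bd y) (hbd y hy) (norm_nonneg _) ha
  · by_cases hy : h y = 0
    · by_cases hz : h z = 0
      · rw [hy, hz, zero_smul, zero_smul, sub_zero, norm_zero]; positivity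
      · rw [norm_sub_rev, norm_sub_rev y]; exact key z y hz
    · exact key y z hy

theorem SL.mul {h k : E → ℝ} {a b a' b' : ℝ} (hh : SL h a b) (hk : SL k a' b') :
    SL (fun y => h y * k y) (a * a') (b * a' + a * b') :=
  hh.smul hk.nonneg hk.tool_nonneg (fun y _ => hk.bd y) hk.lip

theorem SL.const_mul {h : E → ℝ} {a b c : ℝ} (hh : SL h a b) (hc : 0 ≤ c) :
    SL (fun y => c * h y) (c * a) (c * b) := by
  refine ⟨fun y => ?_, fun y z => ?_⟩
  · rw [norm_mul, Real.norm_of_nonneg hc]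
    exact mul_le_mul_of_nonneg_left (hh.bd y) hc
  · rw [← mul_sub, norm_mul, Real.norm_of_nonneg hc, mul_assoc]
    exact mul_le_mul_of_nonneg_left (hh.lip y z) hc

theorem SL.integrable_inner {κ g : E → E} {a b : ℝ} (h : SL κ a b) (hg : Integrable g) :
    Integrable fun y => ⟪κ y, g y⟫ := by
  refine (hg.norm.const_mul a).mono' (h.continuous.aestronglyMeasurable.inner hg.1)
    (ae_of_all _ fun y => ?_)
  exact (norm_inner_le_norm _ _).trans (mul_le_mul_of_nonneg_right (h.bd y) (norm_nonneg _))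

theorem SL.integrable_mul_inner {h : E → ℝ} {g : E → E} {a b : ℝ} (hh : SL h a b)
    (hg : Integrable g) (ξ : E) : Integrable fun y => h y * ⟪ξ, g y⟫ :=
  (hg.const_inner ξ).bdd_mul hh.continuous.aestronglyMeasurable (ae_of_all _ hh.bd)

theorem SL.integrable_smul {h : E → ℝ} {g : E → E} {a b : ℝ} (hh : SL h a b)
    (hg : Integrable g) : Integrable fun y => h y • g y := by
  refine (hg.norm.const_mul a).mono' (hh.continuous.aestronglyMeasurable.smul hg.1)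
    (ae_of_all _ fun y => ?_)
  rw [norm_smul]
  exact mul_le_mul_of_nonneg_right (hh.bd y) (norm_nonneg _)

end SL

/-- `h ⟪κ, g⟫` is integrable if `h` is `SL`, `κ` is Lipschitz and bounded where `h ≠ 0`
(`SL.smul`, `real_inner_smul_left`) -/
theorem integrable_mul_inner {h : E → ℝ} {κ g : E → E} {a b a' b' : ℝ} (hh : SL h a b)
    (ha' : 0 ≤ a') (hb' : 0 ≤ b') (hbd : ∀ y, h y ≠ 0 → ‖κ y‖ ≤ a')
    (hl : ∀ y z, ‖κ y - κ z‖ ≤ b' * ‖y - z‖) (hg : Integrable g) :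
    Integrable fun y => h y * ⟪κ y, g y⟫ :=
  ((hh.smul ha' hb' hbd hl).integrable_inner hg).congr
    (ae_of_all _ fun _ => real_inner_smul_left _ _ _)

/-- Cone lemma.  `v = ⟪n,v⟫ n + w`, `‖w‖² = φ (2‖v‖ - φ) ≤ 2 φ ‖v‖` with `φ = garb n v`, so
`⟪ξ,v⟫ ≥ ⟪ξ,n⟫ (‖v‖ - φ) - B ‖w‖ ≥ c ‖v‖ - B φ - (c ‖v‖ + B² φ / (2c))`. -/
theorem cone_low {n ξ : E} {c B : ℝ} (hn : ‖n‖ = 1) (hc : 0 < c) (hξ : c ≤ ⟪n, ξ⟫) (hB : ‖ξ‖ ≤ B)
    (v : E) : -((B + B ^ 2 / c) * garb n v) ≤ ⟪ξ, v⟫ := by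
  have hφ := garb_nonneg hn v
  have hB0 : 0 ≤ B := (norm_nonneg _).trans hB
  have hv := norm_nonneg v
  have ha : ⟪n, ξ⟫ ≤ B := by
    have := real_inner_le_norm n ξ
    rw [hn, one_mul] at this
    linarith
  have hw : ‖v - ⟪n, v⟫ • n‖ ^ 2 = ‖v‖ ^ 2 - ⟪n, v⟫ ^ 2 := by
    rw [norm_sub_sq_real, real_inner_smul_right, norm_smul, hn, real_inner_comm n v,
      Real.norm_eq_abs, mul_one, sq_abs]
    ring
  have e : ⟪ξ, v⟫ = ⟪n, v⟫ * ⟪n, ξ⟫ + ⟪ξ, v - ⟪n, v⟫ • n⟫ := by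
    rw [inner_sub_right, real_inner_smul_right, real_inner_comm n ξ]; ring
  have h1 : -(B * ‖v - ⟪n, v⟫ • n‖) ≤ ⟪ξ, v - ⟪n, v⟫ • n⟫ := by
    have h2 := (abs_le.1 (abs_real_inner_le_norm ξ (v - ⟪n, v⟫ • n))).1
    have h3 := mul_le_mul_of_nonneg_right hB (norm_nonneg (v - ⟪n, v⟫ • n))
    linarith
  have ht : ⟪n, v⟫ = ‖v‖ - garb n v := by unfold garb; ring
  have hw0 := norm_nonneg (v - ⟪n, v⟫ • n)
  generalize ‖v - ⟪n, v⟫ • n‖ = W at *
  generalize ⟪ξ, v - ⟪n, v⟫ • n⟫ = P at *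
  rw [e]
  rw [ht] at hw ⊢
  generalize garb n v = φ at *
  generalize ‖v‖ = N at *
  have h4 : B * W ≤ c * N + B ^ 2 / c * φ := by
    refine (sq_le_sq₀ (by positivity) (by positivity)).1 ?_
    have h5 : c * N * (B ^ 2 / c * φ) = B ^ 2 * (N * φ) := by field_simp
    have h6 : W ^ 2 ≤ 4 * (N * φ) := by nlinarith [mul_nonneg hv hφ]
    have h7 := mul_le_mul_of_nonneg_left h6 (sq_nonneg B)
    nlinarith [sq_nonneg (c * N - B ^ 2 / c * φ)]
  have h8 := mul_le_mul_of_nonneg_left hξ hv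
  have h9 := mul_le_mul_of_nonneg_left ha hφ
  nlinarith

theorem tool_sq {n : E} (hn : ‖n‖ = 1) (v : E) : ‖v - ‖v‖ • n‖ ^ 2 = 2 * ‖v‖ * garb n v := by
  rw [norm_sub_sq_real, real_inner_smul_right, norm_smul, hn, real_inner_comm n v, norm_norm, garb]
  ring

/-- for unit vectors `‖v‖ ‖n - n'‖² ≤ 4 (garb n v + garb n' v)`
(`‖v‖ ‖n - v/‖v‖‖² = 2 garb n v`) -/
theorem norm_mul_sq_le_garb {n n' : E} (hn : ‖n‖ = 1) (hn' : ‖n'‖ = 1) (v : E) :
    ‖v‖ * ‖n - n'‖ ^ 2 ≤ 4 * (garb n v + garb n' v) := by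
  rcases (norm_nonneg v).eq_or_lt with h | h
  · rw [← h, zero_mul]
    linarith [garb_nonneg hn v, garb_nonneg hn' v]
  · have h1 := tool_sq hn v
    have h2 := tool_sq hn' v
    have h3 : ‖v‖ * ‖n - n'‖ ≤ ‖v - ‖v‖ • n'‖ + ‖v - ‖v‖ • n‖ := by
      have e : ‖v‖ • (n - n') = (v - ‖v‖ • n') - (v - ‖v‖ • n) := by rw [smul_sub]; abel
      have := norm_sub_le (v - ‖v‖ • n') (v - ‖v‖ • n)
      rwa [← e, norm_smul, norm_norm] at this
    have h4 := pow_le_pow_left₀ (by positivity) h3 2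
    refine le_of_mul_le_mul_left ?_ h
    nlinarith [sq_nonneg (‖v - ‖v‖ • n'‖ - ‖v - ‖v‖ • n‖)]

/-- `|⟪e, v⟫ - ‖v‖ ⟪e, n⟫| ≤ ‖v‖ ‖v/‖v‖ - n‖ ≤ ‖v‖ / 20 + 10 garb n v` -/
theorem abs_inner_sub_le_garb {n e : E} (hn : ‖n‖ = 1) (he : ‖e‖ = 1) (v : E) :
    |⟪e, v⟫ - ‖v‖ * ⟪n, e⟫| ≤ ‖v‖ / 20 + 10 * garb n v := by
  have hφ := garb_nonneg hn v
  have e1 : ⟪e, v⟫ - ‖v‖ * ⟪n, e⟫ = ⟪e, v - ‖v‖ • n⟫ := by
    rw [inner_sub_right, real_inner_smul_right, real_inner_comm n e]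
  rw [e1]
  refine (abs_real_inner_le_norm _ _).trans ?_
  rw [he, one_mul]
  refine (sq_le_sq₀ (norm_nonneg _) (by positivity)).1 ?_
  rw [tool_sq hn]
  nlinarith [sq_nonneg (‖v‖ / 20 - 10 * garb n v)]

variable {g : E → E} {n : E} {φ μ : ℕ → Measure E}

theorem KD.lowc (hk : KD g n φ μ) (m : ℕ) {h : E → ℝ} {H c B : ℝ} {S : Set E} {ξ : E}
    (hc : 0 < c) (hξ : c ≤ ⟪n, ξ⟫) (hB : ‖ξ‖ ≤ B) (h0 : ∀ y, 0 ≤ h y) (hh : SL h H (H * 2 ^ m))
    (hS : Bornology.IsBounded S) (hs : ∀ y, y ∉ S → h y = 0) :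
    -(9 * (B + B ^ 2 / c) * H * (φ m).real S) ≤ ∫ y, h y * ⟪ξ, g y⟫ := by
  have hB0 : 0 ≤ B := (norm_nonneg _).trans hB
  exact hk.low m h H _ S ξ (by positivity) (cone_low hk.n1 hc hξ hB) h0 hh hS hs

/-- `ξ = n`, `c = 1` -/
theorem KD.lown (hk : KD g n φ μ) (m : ℕ) {h : E → ℝ} {H : ℝ} {S : Set E}
    (h0 : ∀ y, 0 ≤ h y) (hh : SL h H (H * 2 ^ m))
    (hS : Bornology.IsBounded S) (hs : ∀ y, y ∉ S → h y = 0) :
    -(9 * H * (φ m).real S) ≤ ∫ y, h y * ⟪n, g y⟫ := by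
  have := hk.low m h H 1 S n zero_le_one (fun v => by unfold garb; linarith [norm_nonneg v])
    h0 hh hS hs
  rwa [mul_one] at this

theorem SL.tool_coord {κ : E → E} {a b : ℝ} (h : SL κ a b) (i : Fin 2) : SL (fun y => κ y i) a b :=
  ⟨fun y => (abs_apply_le _ i).trans (h.bd y),
    fun y z => (abs_apply_le (κ y - κ z) i).trans (h.lip y z)⟩

theorem SL.tool_pos {k : E → ℝ} {a b : ℝ} (h : SL k a b) : SL (fun y => max (k y) 0) a b := by
  refine ⟨fun y => le_trans ?_ (h.bd y), fun y z => (abs_max_sub_max_le_abs _ _ _).trans (h.lip y z)⟩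
  simpa using abs_max_sub_max_le_abs (k y) 0 0

/-- the coordinate vectors -/
noncomputable def tool_e (i : Fin 2) : E := EuclideanSpace.single i 1

theorem tool_e_norm (i : Fin 2) : ‖tool_e i‖ = 1 := by simp [tool_e]

theorem tool_coord {κ : E → E} {a b : ℝ} (h : SL κ a b) (hg : Integrable g) :
    ∫ y, ⟪κ y, g y⟫ = (∫ y, κ y 0 * ⟪tool_e 0, g y⟫) + ∫ y, κ y 1 * ⟪tool_e 1, g y⟫ := by
  rw [← integral_add ((h.tool_coord 0).integrable_mul_inner hg _) ((h.tool_coord 1).integrable_mul_inner hg _)]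
  refine integral_congr_ae (ae_of_all _ fun y => ?_)
  simp [inner_E, tool_e]

theorem tool_mass (hk : KD g n φ μ) (m : ℕ) {k : E → ℝ} {H : ℝ} {S : Set E} {e : E}
    (he : ‖e‖ = 1) (h : SL k H (H * 2 ^ m)) (hS : Bornology.IsBounded S)
    (hs : ∀ y, y ∉ S → k y = 0) : -(18 * H * (μ m).real S) ≤ ∫ y, k y * ⟪e, g y⟫ := by
  have h1 := hk.mass m _ H S e (fun y => le_max_right _ _) h.tool_pos hS fun y hy => by simp [hs y hy]
  have h2 := hk.mass m _ H S (-e) (fun y => le_max_right _ _) h.neg.tool_pos hS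
    fun y hy => by simp [hs y hy]
  have h3 : ∫ y, k y * ⟪e, g y⟫ =
      (∫ y, max (k y) 0 * ⟪e, g y⟫) + ∫ y, max (-k y) 0 * ⟪-e, g y⟫ := by
    rw [← integral_add (h.tool_pos.integrable_mul_inner hk.gi _) (h.neg.tool_pos.integrable_mul_inner hk.gi _)]
    refine integral_congr_ae (ae_of_all _ fun y => ?_)
    beta_reduce
    rw [inner_neg_left, mul_neg, ← sub_eq_add_neg, ← sub_mul, max_zero_sub_max_neg_zero_eq_self]
  rw [norm_neg, he] at h2
  rw [he] at h1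
  linarith

theorem tool_cone (hk : KD g n φ μ) (m : ℕ) {k h : E → ℝ} {H : ℝ} {S : Set E} {e : E}
    (he : ‖e‖ = 1) (hκ : SL k H (H * 2 ^ m)) (hh : SL h H (H * 2 ^ m)) (hle : ∀ y, |k y| ≤ h y)
    (hS : Bornology.IsBounded S) (hs : ∀ y, y ∉ S → h y = 0) :
    ∫ y, k y * ⟪e, g y⟫ ≤ 2 * (∫ y, h y * ⟪n, g y⟫) + 216 * H * (φ m).real S := by
  have hnn : ⟪n, n⟫ = 1 := by rw [real_inner_self_eq_norm_sq, hk.n1]; norm_num
  have hne := abs_real_inner_le_norm n e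
  rw [hk.n1, he, one_mul, abs_le] at hne
  have h2n : ‖(2 : ℝ) • n‖ = 2 := by rw [norm_smul, hk.n1]; norm_num
  have s1 : SL (fun y => 1 / 2 * (h y - k y)) H (H * 2 ^ m) :=
    ((hh.sub hκ).const_mul (by norm_num)).mono (by linarith) (by linarith)
  have s2 : SL (fun y => 1 / 2 * (h y + k y)) H (H * 2 ^ m) :=
    ((hh.add hκ).const_mul (by norm_num)).mono (by linarith) (by linarith)
  have hk0 : ∀ y, y ∉ S → k y = 0 := fun y hy =>
    abs_nonpos_iff.1 ((hle y).trans (hs y hy).le)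
  have h1 := hk.lowc m (ξ := (2 : ℝ) • n + e) (c := 1) (B := 3) one_pos
    (by rw [inner_add_right, real_inner_smul_right, hnn]; linarith)
    ((norm_add_le _ _).trans (by rw [h2n, he]; norm_num))
    (fun y => by linarith [(abs_le.1 (hle y)).2]) s1 hS fun y hy => by simp [hs y hy, hk0 y hy]
  have h2 := hk.lowc m (ξ := (2 : ℝ) • n - e) (c := 1) (B := 3) one_pos
    (by rw [inner_sub_right, real_inner_smul_right, hnn]; linarith)
    ((norm_sub_le _ _).trans (by rw [h2n, he]; norm_num))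
    (fun y => by linarith [(abs_le.1 (hle y)).1]) s2 hS fun y hy => by simp [hs y hy, hk0 y hy]
  have h3 : (∫ y, 1 / 2 * (h y - k y) * ⟪(2 : ℝ) • n + e, g y⟫) +
      ∫ y, 1 / 2 * (h y + k y) * ⟪(2 : ℝ) • n - e, g y⟫ =
      2 * (∫ y, h y * ⟪n, g y⟫) - ∫ y, k y * ⟪e, g y⟫ := by
    rw [← integral_add (s1.integrable_mul_inner hk.gi _) (s2.integrable_mul_inner hk.gi _),
      ← integral_const_mul, ← integral_sub ((hh.integrable_mul_inner hk.gi _).const_mul _)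
        (hκ.integrable_mul_inner hk.gi _)]
    refine integral_congr_ae (ae_of_all _ fun y => ?_)
    simp only [inner_add_left, inner_sub_left, real_inner_smul_left]
    ring
  linarith

/-- `κ = ∑_i (κ_i⁺ - κ_i⁻) e_i`, `KD.mass` -/
theorem KD.absle (hk : KD g n φ μ) (m : ℕ) {κ : E → E} {H : ℝ} {S : Set E}
    (hκ : SL κ H (H * 2 ^ m)) (hS : Bornology.IsBounded S) (hs : ∀ y, y ∉ S → κ y = 0) :
    |∫ y, ⟪κ y, g y⟫| ≤ 36 * H * (μ m).real S := by
  have key : ∀ {κ : E → E}, SL κ H (H * 2 ^ m) → (∀ y, y ∉ S → κ y = 0) →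
      -(36 * H * (μ m).real S) ≤ ∫ y, ⟪κ y, g y⟫ := by
    intro κ hκ hs
    have h0 := tool_mass hk m (tool_e_norm 0) (hκ.tool_coord 0) hS fun y hy => by simp [hs y hy]
    have h1 := tool_mass hk m (tool_e_norm 1) (hκ.tool_coord 1) hS fun y hy => by simp [hs y hy]
    rw [tool_coord hκ hk.gi]
    linarith
  have h1 := key hκ hs
  have h2 := key hκ.neg fun y hy => by simp [hs y hy]
  simp only [inner_neg_left, integral_neg] at h2
  rw [abs_le]
  constructor <;> linarith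

/-- `(h - κ_i)/2 (2n + e_i) + (h + κ_i)/2 (2n - e_i) = 2 h n - κ_i e_i` and `KD.lowc` with `c = 1`,
`B = 3`; the same for `-κ`. -/
theorem KD.conele (hk : KD g n φ μ) (m : ℕ) {κ : E → E} {h : E → ℝ} {H : ℝ} {S : Set E}
    (hκ : SL κ H (H * 2 ^ m)) (hh : SL h H (H * 2 ^ m)) (hle : ∀ y, ‖κ y‖ ≤ h y)
    (hS : Bornology.IsBounded S) (hs : ∀ y, y ∉ S → h y = 0) :
    |∫ y, ⟪κ y, g y⟫| ≤ 4 * (∫ y, h y * ⟪n, g y⟫) + 432 * H * (φ m).real S := by
  have key : ∀ {κ : E → E}, SL κ H (H * 2 ^ m) → (∀ y, ‖κ y‖ ≤ h y) →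
      ∫ y, ⟪κ y, g y⟫ ≤ 4 * (∫ y, h y * ⟪n, g y⟫) + 432 * H * (φ m).real S := by
    intro κ hκ hle
    have h0 := tool_cone hk m (tool_e_norm 0) (hκ.tool_coord 0) hh
      (fun y => (abs_apply_le _ 0).trans (hle y)) hS hs
    have h1 := tool_cone hk m (tool_e_norm 1) (hκ.tool_coord 1) hh
      (fun y => (abs_apply_le _ 1).trans (hle y)) hS hs
    rw [tool_coord hκ hk.gi]
    linarith
  have h1 := key hκ hle
  have h2 := key hκ.neg fun y => by rw [norm_neg]; exact hle y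
  simp only [inner_neg_left, integral_neg] at h2
  rw [abs_le]
  constructor <;> linarith

theorem KD.μle_pow (hk : KD g n φ μ) (m j : ℕ) (S : Set E) :
    (μ (m + j)).real S ≤ 2 ^ j * (μ m).real S := by
  induction j with
  | zero => simp
  | succ j ih =>
    have := hk.μle (m + j) S
    rw [← add_assoc, pow_succ]
    linarith

theorem KD.φmono (hk : KD g n φ μ) (m : ℕ) {S T : Set E} (h : S ⊆ T) :
    (φ m).real S ≤ (φ m).real T := by
  have := hk.finφ m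
  exact measureReal_mono h

theorem KD.μmono (hk : KD g n φ μ) (m : ℕ) {S T : Set E} (h : S ⊆ T) :
    (μ m).real S ≤ (μ m).real T := by
  have := hk.finμ m
  exact measureReal_mono h

end Crest.Agent.R112
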