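import Crest.Agent.R112.Bud
import Crest.Agent.R112.Tool

/-! # Row 112: the corona construction (task COR) -/

set_option autoImplicit false

namespace Crest.Agent.R112

open MeasureTheory Metric
open scoped RealInnerProductSpace

theorem cor_chain {f : ℤ → ℝ} {c : ℤ} {δ : ℝ} (hδ : 0 ≤ δ)
    (h : ∀ x, |x - c| ≤ 8 → |x + 1 - c| ≤ 8 → |f (x + 1) - f x| ≤ δ) :
    ∀ x y, |x - c| ≤ 8 → |y - c| ≤ 8 → |f x - f y| ≤ 16 * δ := by
  have key : ∀ (n : ℕ) (x : ℤ), |x - c| ≤ 8 → |x + n - c| ≤ 8 → |f (x + n) - f x| ≤ n * δ := by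
    intro n
    induction n with
    | zero => intro x _ _; simp
    | succ n ih =>
      intro x hx hn
      have h1 : |x + n - c| ≤ 8 := by
        rw [abs_le] at *
        push_cast at hn
        constructor <;> omega
      have h2 := ih x hx h1
      have h3 := h (x + n) h1 (by push_cast at hn; rwa [add_assoc])
      have e : x + ((n + 1 : ℕ) : ℤ) = x + n + 1 := by push_cast; ring
      rw [e]
      push_cast
      calc |f (x + n + 1) - f x| = |(f (x + n + 1) - f (x + n)) + (f (x + n) - f x)| := by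
            ring_nf
        _ ≤ |f (x + n + 1) - f (x + n)| + |f (x + n) - f x| := abs_add_le _ _
        _ ≤ (n + 1) * δ := by linarith
  have main : ∀ x y, x ≤ y → |x - c| ≤ 8 → |y - c| ≤ 8 → |f y - f x| ≤ 16 * δ := by
    intro x y hxy hx hy
    obtain ⟨n, rfl⟩ := Int.le.dest hxy
    have h1 := key n x hx hy
    have h2 : (n : ℤ) ≤ 16 := by
      rw [abs_le] at *
      omega
    have h3 : (n : ℝ) ≤ 16 := by exact_mod_cast h2
    nlinarith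
  intro x y hx hy
  rcases le_total x y with hxy | hxy
  · rw [abs_sub_comm]; exact main x y hxy hx hy
  · exact main y x hxy hy hx

/-- adjacent differences `≤ δ` in a box give differences `≤ 32 δ` -/
theorem osc_of_adj {F : ℤ × ℤ → ℝ} {Z : ℤ × ℤ} {δ : ℝ} (hδ : 0 ≤ δ)
    (h : ∀ X, Near 8 X Z → (Near 8 (X.1 + 1, X.2) Z → |F (X.1 + 1, X.2) - F X| ≤ δ) ∧
      (Near 8 (X.1, X.2 + 1) Z → |F (X.1, X.2 + 1) - F X| ≤ δ)) :
    ∀ X X', Near 8 X Z → Near 8 X' Z → |F X - F X'| ≤ 32 * δ := by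
  intro X X' hX hX'
  have h1 : |F (X.1, X.2) - F (X'.1, X.2)| ≤ 16 * δ :=
    cor_chain (f := fun x => F (x, X.2)) (c := Z.1) hδ
      (fun x hx hx1 => (h (x, X.2) ⟨hx, hX.2⟩).1 ⟨hx1, hX.2⟩) X.1 X'.1 hX.1 hX'.1
  have h2 : |F (X'.1, X.2) - F (X'.1, X'.2)| ≤ 16 * δ :=
    cor_chain (f := fun y => F (X'.1, y)) (c := Z.2) hδ
      (fun y hy hy1 => (h (X'.1, y) ⟨hX'.1, hy⟩).2 ⟨hX'.1, hy1⟩) X.2 X'.2 hX.2 hX'.2
  calc |F X - F X'| = |(F (X.1, X.2) - F (X'.1, X.2)) + (F (X'.1, X.2) - F (X'.1, X'.2))| := by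
        simp
    _ ≤ _ := abs_add_le _ _
    _ ≤ 32 * δ := by linarith

theorem cor_tent_zero {a P : ℤ} {u : ℝ} (h0 : 0 ≤ u) (h1 : u ≤ 1) (hP : P ≠ a) (hP' : P ≠ a + 1) :
    tent (a + u - P) = 0 := by
  unfold tent
  apply max_eq_left
  rcases lt_or_gt_of_ne hP with h | h
  · have : (P : ℝ) + 1 ≤ a := by exact_mod_cast h
    have := le_abs_self ((a : ℝ) + u - P)
    linarith
  · have : a + 2 ≤ P := by omega
    have : (a : ℝ) + 2 ≤ P := by exact_mod_cast this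
    have := neg_abs_le ((a : ℝ) + u - P)
    linarith

theorem cor_itp_formula (j : ℤ) (F : ℤ × ℤ → ℝ) (y : E) (a b : ℤ) (u v : ℝ) (hu0 : 0 ≤ u)
    (hu1 : u ≤ 1) (hv0 : 0 ≤ v) (hv1 : v ≤ 1) (hy0 : y 0 / 2 ^ j = a + u)
    (hy1 : y 1 / 2 ^ j = b + v) :
    itp j F y = (1 - u) * (1 - v) * F (a, b) + u * (1 - v) * F (a + 1, b) +
      (1 - u) * v * F (a, b + 1) + u * v * F (a + 1, b + 1) := by
  have t0 : ∀ (c : ℤ) (w : ℝ), 0 ≤ w → w ≤ 1 → tent (c + w - c) = 1 - w := by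
    intro c w h0 h1
    unfold tent
    rw [show (c : ℝ) + w - c = w by ring, abs_of_nonneg h0]
    exact max_eq_right (by linarith)
  have t1 : ∀ (c : ℤ) (w : ℝ), 0 ≤ w → w ≤ 1 → tent (c + w - ((c + 1 : ℤ) : ℝ)) = w := by
    intro c w h0 h1
    unfold tent
    push_cast
    rw [show (c : ℝ) + w - (c + 1) = -(1 - w) by ring, abs_neg, abs_of_nonneg (by linarith)]
    rw [max_eq_right (by linarith)]
    ring
  unfold itp
  rw [tsum_eq_sum (s := ({a, a + 1} : Finset ℤ) ×ˢ ({b, b + 1} : Finset ℤ))]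
  · rw [Finset.sum_product, Finset.sum_pair (by omega), Finset.sum_pair (by omega),
      Finset.sum_pair (by omega)]
    simp only [hat, hy0, hy1, t0 a u hu0 hu1, t1 a u hu0 hu1, t0 b v hv0 hv1, t1 b v hv0 hv1]
    ring
  · intro P hP
    simp only [Finset.mem_product, Finset.mem_insert, Finset.mem_singleton, not_and_or,
      not_or] at hP
    simp only [hat, hy0, hy1]
    rcases hP with hP | hP
    · rw [cor_tent_zero hu0 hu1 hP.1 hP.2]; simp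
    · rw [cor_tent_zero hv0 hv1 hP.1 hP.2]; simp

theorem cor_itp_pos (k : ℤ) (F : ℤ × ℤ → ℝ) (a b r t : ℤ) (hr0 : 0 ≤ r) (hr : r ≤ 2) (ht0 : 0 ≤ t)
    (ht : t ≤ 2) :
    itp (k + 1) F (pos k (2 * a + r, 2 * b + t)) =
      (1 - r / 2) * (1 - t / 2) * F (a, b) + r / 2 * (1 - t / 2) * F (a + 1, b) +
      (1 - r / 2) * (t / 2) * F (a, b + 1) + r / 2 * (t / 2) * F (a + 1, b + 1) := by
  have hr0' : (0 : ℝ) ≤ r := by exact_mod_cast hr0
  have hr' : (r : ℝ) ≤ 2 := by exact_mod_cast hr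
  have ht0' : (0 : ℝ) ≤ t := by exact_mod_cast ht0
  have ht' : (t : ℝ) ≤ 2 := by exact_mod_cast ht
  have h2 : (2 : ℝ) ^ k ≠ 0 := by positivity
  apply cor_itp_formula
  · linarith
  · linarith
  · linarith
  · linarith
  · rw [pos_zero_apply, zpow_add_one₀ two_ne_zero]
    push_cast
    field_simp
  · rw [pos_one_apply, zpow_add_one₀ two_ne_zero]
    push_cast
    field_simp

theorem cor_parent {k : ℤ} {Z P : ℤ × ℤ} (hP : hat (k + 1) P (pos k Z) ≠ 0) :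
    |Z.1 - 2 * P.1| ≤ 1 ∧ |Z.2 - 2 * P.2| ≤ 1 := by
  rw [hat_ne_zero_iff] at hP
  have h2 : (2 : ℝ) ^ k ≠ 0 := by positivity
  have key : ∀ z p : ℤ, |2 ^ k * (z : ℝ) / 2 ^ (k + 1) - p| < 1 → |z - 2 * p| ≤ 1 := by
    intro z p h
    rw [zpow_add_one₀ two_ne_zero, show 2 ^ k * (z : ℝ) / (2 ^ k * 2) = z / 2 by field_simp,
      abs_lt] at h
    have h1 : (z : ℝ) - 2 * p < 2 := by linarith
    have h3 : -2 < (z : ℝ) - 2 * p := by linarith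
    have h1' : z - 2 * p < 2 := by exact_mod_cast h1
    have h3' : -2 < z - 2 * p := by exact_mod_cast h3
    rw [abs_le]
    constructor <;> omega
  exact ⟨key _ _ hP.1, key _ _ hP.2⟩

/-- Interpolation halves adjacent differences: one of `X.1`, `X.1 + 1` is even, so the difference
is `± (1/2) ∑_b tent (X.2/2 - b) (F (a+1, b) - F (a, b))`; the parents involved are within `8` of
every parent `P` of `Z`. -/
theorem adj_itp {k : ℤ} {F : ℤ × ℤ → ℝ} {Z P : ℤ × ℤ} {δ : ℝ} (hP : hat (k + 1) P (pos k Z) ≠ 0)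
    (h : ∀ X, Near 8 X P → (Near 8 (X.1 + 1, X.2) P → |F (X.1 + 1, X.2) - F X| ≤ δ) ∧
      (Near 8 (X.1, X.2 + 1) P → |F (X.1, X.2 + 1) - F X| ≤ δ)) :
    ∀ X, Near 8 X Z →
      (Near 8 (X.1 + 1, X.2) Z →
        |itp (k + 1) F (pos k (X.1 + 1, X.2)) - itp (k + 1) F (pos k X)| ≤ δ / 2) ∧
      (Near 8 (X.1, X.2 + 1) Z →
        |itp (k + 1) F (pos k (X.1, X.2 + 1)) - itp (k + 1) F (pos k X)| ≤ δ / 2) := by
  obtain ⟨hp1, hp2⟩ := cor_parent hP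
  rintro ⟨x, y⟩ ⟨hx, hy⟩
  simp only at hx hy ⊢
  obtain ⟨a, r, hr0, hr1, rfl⟩ : ∃ a r : ℤ, 0 ≤ r ∧ r ≤ 1 ∧ x = 2 * a + r :=
    ⟨x / 2, x % 2, by omega, by omega, by omega⟩
  obtain ⟨b, t, ht0, ht1, rfl⟩ : ∃ b t : ℤ, 0 ≤ t ∧ t ≤ 1 ∧ y = 2 * b + t :=
    ⟨y / 2, y % 2, by omega, by omega, by omega⟩
  rw [abs_le] at hx hy hp1 hp2
  have na : |a - P.1| ≤ 8 := by rw [abs_le]; constructor <;> omega
  have na' : |a + 1 - P.1| ≤ 8 := by rw [abs_le]; constructor <;> omega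
  have nb : |b - P.2| ≤ 8 := by rw [abs_le]; constructor <;> omega
  have nb' : |b + 1 - P.2| ≤ 8 := by rw [abs_le]; constructor <;> omega
  have d1 : |F (a + 1, b) - F (a, b)| ≤ δ := (h (a, b) ⟨na, nb⟩).1 ⟨na', nb⟩
  have d2 : |F (a + 1, b + 1) - F (a, b + 1)| ≤ δ := (h (a, b + 1) ⟨na, nb'⟩).1 ⟨na', nb'⟩
  have d3 : |F (a, b + 1) - F (a, b)| ≤ δ := (h (a, b) ⟨na, nb⟩).2 ⟨na, nb'⟩
  have d4 : |F (a + 1, b + 1) - F (a + 1, b)| ≤ δ := (h (a + 1, b) ⟨na', nb⟩).2 ⟨na', nb'⟩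
  have hr0' : (0 : ℝ) ≤ r := by exact_mod_cast hr0
  have hr' : (r : ℝ) ≤ 1 := by exact_mod_cast hr1
  have ht0' : (0 : ℝ) ≤ t := by exact_mod_cast ht0
  have ht' : (t : ℝ) ≤ 1 := by exact_mod_cast ht1
  have conv : ∀ (w p q : ℝ), 0 ≤ w → w ≤ 1 → |p| ≤ δ → |q| ≤ δ →
      |1 / 2 * ((1 - w) * p + w * q)| ≤ δ / 2 := by
    intro w p q h0 h1 hp hq
    rw [abs_le] at *
    constructor <;> nlinarith [mul_nonneg h0 (sub_nonneg.2 hq.2), mul_nonneg h0 (sub_nonneg.2 hq.1),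
      mul_nonneg (sub_nonneg.2 h1) (sub_nonneg.2 hp.2),
      mul_nonneg (sub_nonneg.2 h1) (sub_nonneg.2 hp.1)]
  constructor
  · intro _
    rw [show 2 * a + r + 1 = 2 * a + (r + 1) by ring,
      cor_itp_pos k F a b (r + 1) t (by omega) (by omega) ht0 (by omega),
      cor_itp_pos k F a b r t hr0 (by omega) ht0 (by omega)]
    have := conv (t / 2) _ _ (by linarith) (by linarith) d1 d2
    convert this using 2
    push_cast
    ring
  · intro _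
    rw [show 2 * b + t + 1 = 2 * b + (t + 1) by ring,
      cor_itp_pos k F a b r (t + 1) hr0 (by omega) (by omega) (by omega),
      cor_itp_pos k F a b r t hr0 (by omega) ht0 (by omega)]
    have := conv (r / 2) _ _ (by linarith) (by linarith) d3 d4
    convert this using 2
    push_cast
    ring

open Classical in
theorem cor_garb_le_loc {g : E → E} (hg : Integrable g) (k : ℤ) {X Z : ℤ × ℤ} (h : Near 8 Z X) :
    garb (nref g k X) (Gam g k Z) ≤ loc g k X k := by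
  unfold loc
  have hs : Summable fun Y : ℤ × ℤ =>
      if pos k Y ∈ box 8 k X then garb (nref g k X) (Gam g k Y) else 0 := by
    refine Summable.of_nonneg_of_le (fun Y => ?_) (fun Y => ?_) ((summable_Gam hg k).mul_left 2)
    · split_ifs
      · exact garb_nonneg (norm_nref g k X) _
      · exact le_rfl
    · split_ifs
      · exact garb_le (norm_nref g k X) _
      · positivity
  have hZ : pos k Z ∈ box 8 k X := by
    have := (pos_mem_box (C := 8) (k := k) (X := X) (Z := Z)).2 h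
    simpa using this
  have := hs.le_tsum Z (fun Y _ => by
    split_ifs
    · exact garb_nonneg (norm_nref g k X) _
    · exact le_rfl)
  rwa [if_pos hZ] at this

/-- `‖Γ Z‖ ‖n_X - n_Z‖² ≤ 4 (garb n_X (Γ Z) + garb n_Z (Γ Z))` (`norm_mul_sq_le_garb`); regroup
the sum by `X` (`pos_mem_box`, `sum_loc_le` with `i = k`; at most `17²` neighbours). -/
theorem sum_angle_le : ∃ C : ℝ, 0 < C ∧ ∀ g : E → E, Integrable g → ∀ (k : ℤ)
    (s : Finset (ℤ × ℤ)), ∑ Z ∈ s, (garb (nref g k Z) (Gam g k Z) + ‖Gam g k Z‖ *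
      ∑ d ∈ Finset.Icc (-8 : ℤ) 8 ×ˢ Finset.Icc (-8 : ℤ) 8,
        ‖nref g k (Z + d) - nref g k Z‖ ^ 2) ≤ C * alpha g k := by
  refine ⟨(1 + 289 * 8) * 16384, by norm_num, fun g hg k s => ?_⟩
  set B := Finset.Icc (-8 : ℤ) 8 ×ˢ Finset.Icc (-8 : ℤ) 8 with hB
  have hcard : B.card = 289 := by rw [hB, Finset.card_product]; simp
  have hα : aa g k - aa g (k + 5) ≤ alpha g k := by
    simpa using aa_sub_le_alpha hg k 0
  have hd : ∀ d : ℤ × ℤ, Near 8 (0, 0) d →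
      ∑ Z ∈ s, garb (nref g k (Z + d)) (Gam g k Z) ≤ 16384 * alpha g k := by
    intro d hd
    calc ∑ Z ∈ s, garb (nref g k (Z + d)) (Gam g k Z) ≤ ∑ Z ∈ s, loc g k (Z + d) k := by
          refine Finset.sum_le_sum fun Z _ => cor_garb_le_loc hg k ?_
          unfold Near at hd ⊢
          simpa using hd
      _ = ∑ X ∈ s.map (addRightEmbedding d), loc g k X k := by
          rw [Finset.sum_map]; rfl
      _ ≤ 16384 * (aa g k - aa g (k + 5)) := sum_loc_le hg le_rfl _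
      _ ≤ 16384 * alpha g k := by linarith
  have h0 : ∑ Z ∈ s, garb (nref g k Z) (Gam g k Z) ≤ 16384 * alpha g k := by
    simpa using hd 0 ⟨by simp, by simp⟩
  have h1 : ∑ Z ∈ s, ‖Gam g k Z‖ * ∑ d ∈ B, ‖nref g k (Z + d) - nref g k Z‖ ^ 2 ≤
      ∑ d ∈ B, 8 * (16384 * alpha g k) := by
    simp_rw [Finset.mul_sum]
    rw [Finset.sum_comm]
    refine Finset.sum_le_sum fun d hdB => ?_
    have hdn : Near 8 (0, 0) d := by
      rw [hB, Finset.mem_product, Finset.mem_Icc, Finset.mem_Icc] at hdB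
      constructor <;> rw [abs_le] <;> constructor <;> simp <;> omega
    calc ∑ Z ∈ s, ‖Gam g k Z‖ * ‖nref g k (Z + d) - nref g k Z‖ ^ 2
        ≤ ∑ Z ∈ s, 4 * (garb (nref g k (Z + d)) (Gam g k Z) + garb (nref g k Z) (Gam g k Z)) :=
          Finset.sum_le_sum fun Z _ => norm_mul_sq_le_garb (norm_nref _ _ _) (norm_nref _ _ _) _
      _ = 4 * (∑ Z ∈ s, garb (nref g k (Z + d)) (Gam g k Z) +
            ∑ Z ∈ s, garb (nref g k Z) (Gam g k Z)) := by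
          rw [← Finset.mul_sum, Finset.sum_add_distrib]
      _ ≤ 8 * (16384 * alpha g k) := by linarith [hd d hdn]
  rw [Finset.sum_const, hcard, nsmul_eq_mul] at h1
  rw [Finset.sum_add_distrib]
  push_cast at h1
  linarith


/-! ### the pointwise part of one step -/

theorem cor_cl_mem (t : ℝ) : 0 ≤ cl t ∧ cl t ≤ 1 :=
  ⟨le_max_left _ _, max_le zero_le_one (min_le_left _ _)⟩

theorem cor_cl_lip (s t : ℝ) : |cl s - cl t| ≤ |s - t| := by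
  unfold cl
  calc |max 0 (min 1 s) - max 0 (min 1 t)| ≤ |min 1 s - min 1 t| := by
        rw [max_comm 0, max_comm 0]; exact abs_max_sub_max_le_abs _ _ _
    _ ≤ |s - t| := by
        have := abs_min_sub_min_le_max (1 : ℝ) s 1 t
        simpa using this

theorem cor_cl_one {t : ℝ} (h : 1 ≤ t) : cl t = 1 := by
  unfold cl; rw [min_eq_left h]; exact max_eq_right zero_le_one

theorem cor_cl_zero {t : ℝ} (h : t ≤ 0) : cl t = 0 := by
  unfold cl; exact max_eq_left ((min_le_right _ _).trans h)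

/-- upper switch -/
noncomputable def cor_s (c : ℝ) : ℝ := cl (10 * (c - 1 / 2))

/-- lower switch -/
noncomputable def cor_t (c : ℝ) : ℝ := cl (10 * (3 / 10 - c))

noncomputable def cor_new (c f : ℝ) : ℝ := (1 - cor_s c ^ 2 - cor_t c ^ 2) * f + cor_s c ^ 2

noncomputable def cor_sig (c f : ℝ) : ℝ := cor_s c ^ 2 * (1 - f) + cor_t c ^ 2 * f

theorem cor_cases (c : ℝ) : (1 / 2 ≤ c ∧ cor_t c = 0) ∨ (c ≤ 3 / 10 ∧ cor_s c = 0) ∨
    (cor_s c = 0 ∧ cor_t c = 0) := by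
  by_cases h : 1 / 2 ≤ c
  · exact Or.inl ⟨h, cor_cl_zero (by linarith)⟩
  by_cases h' : c ≤ 3 / 10
  · exact Or.inr (Or.inl ⟨h', cor_cl_zero (by linarith)⟩)
  · exact Or.inr (Or.inr ⟨cor_cl_zero (by linarith), cor_cl_zero (by linarith)⟩)

theorem cor_s_sq (c : ℝ) : 0 ≤ cor_s c ^ 2 ∧ cor_s c ^ 2 ≤ 1 :=
  ⟨sq_nonneg _, pow_le_one₀ (cor_cl_mem _).1 (cor_cl_mem _).2⟩

theorem cor_t_sq (c : ℝ) : 0 ≤ cor_t c ^ 2 ∧ cor_t c ^ 2 ≤ 1 :=
  ⟨sq_nonneg _, pow_le_one₀ (cor_cl_mem _).1 (cor_cl_mem _).2⟩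

theorem cor_sum_sq (c : ℝ) : cor_s c ^ 2 + cor_t c ^ 2 ≤ 1 := by
  have h1 := cor_s_sq c
  have h2 := cor_t_sq c
  rcases cor_cases c with ⟨_, h⟩ | ⟨_, h⟩ | ⟨h, _⟩ <;> rw [h] <;> linarith [h1.2, h2.2]

theorem cor_new_mem {c f : ℝ} (h0 : 0 ≤ f) (h1 : f ≤ 1) : 0 ≤ cor_new c f ∧ cor_new c f ≤ 1 := by
  have a := cor_s_sq c
  have b := cor_t_sq c
  have d := cor_sum_sq c
  unfold cor_new
  constructor <;> nlinarith [mul_nonneg (sub_nonneg.2 d) h0,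
    mul_nonneg (sub_nonneg.2 d) (sub_nonneg.2 h1)]

theorem cor_sig_mem {c f : ℝ} (h0 : 0 ≤ f) (h1 : f ≤ 1) : 0 ≤ cor_sig c f ∧ cor_sig c f ≤ 1 := by
  have a := cor_s_sq c
  have b := cor_t_sq c
  have d := cor_sum_sq c
  unfold cor_sig
  constructor <;> nlinarith [mul_nonneg a.1 h0, mul_nonneg b.1 h0,
    mul_nonneg a.1 (sub_nonneg.2 h1), mul_nonneg b.1 (sub_nonneg.2 h1)]

theorem cor_new_sub {c f : ℝ} (h0 : 0 ≤ f) (h1 : f ≤ 1) : |cor_new c f - f| ≤ cor_sig c f := by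
  have a := cor_s_sq c
  have b := cor_t_sq c
  unfold cor_new cor_sig
  rw [abs_le]
  constructor <;> nlinarith [mul_nonneg b.1 h0, mul_nonneg a.1 (sub_nonneg.2 h1)]

theorem cor_new_one {c f : ℝ} (h : 3 / 5 ≤ c) : cor_new c f = 1 := by
  have h1 : cor_s c = 1 := cor_cl_one (by linarith)
  have h2 : cor_t c = 0 := cor_cl_zero (by linarith)
  simp [cor_new, h1, h2]

theorem cor_new_zero {c f : ℝ} (h : c ≤ 1 / 5) : cor_new c f = 0 := by
  have h1 : cor_s c = 0 := cor_cl_zero (by linarith)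
  have h2 : cor_t c = 1 := cor_cl_one (by linarith)
  simp [cor_new, h1, h2]

/-- gain of the potential -/
theorem cor_gain {c f p N γ : ℝ} (h0 : 0 ≤ f) (h1 : f ≤ 1) (hN : 0 ≤ N) (hγ : 0 ≤ γ)
    (hp : |p - N * c| ≤ N / 20 + 10 * γ) :
    cor_sig c f * N / 20 - 10 * γ ≤ (cor_new c f - f) * (p - 2 / 5 * N) := by
  have a := cor_s_sq c
  have b := cor_t_sq c
  have hs := cor_sig_mem (c := c) h0 h1
  rw [abs_le] at hp
  rcases cor_cases c with ⟨hc, h⟩ | ⟨hc, h⟩ | ⟨h, h'⟩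
  · have e : cor_new c f - f = cor_sig c f := by simp [cor_new, cor_sig, h]; ring
    rw [e]
    have : N / 20 - 10 * γ ≤ p - 2 / 5 * N := by nlinarith
    nlinarith [mul_le_mul_of_nonneg_left this hs.1]
  · have e : cor_new c f - f = -cor_sig c f := by simp [cor_new, cor_sig, h]; ring
    rw [e]
    have : N / 20 - 10 * γ ≤ -(p - 2 / 5 * N) := by nlinarith
    nlinarith [mul_le_mul_of_nonneg_left this hs.1]
  · simp [cor_new, cor_sig, h, h']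
    linarith

theorem cor_sq_diff {sX sY sZ β u d w : ℝ} (hX : 0 ≤ sX ∧ sX ≤ 1) (hY : 0 ≤ sY ∧ sY ≤ 1)
    (_hZ : 0 ≤ sZ) (hβ : 0 ≤ β) (hXZ : |sX - sZ| ≤ β) (hYZ : |sY - sZ| ≤ β) (hw : 0 ≤ w)
    (hu0 : 0 ≤ u) (hu1 : u ≤ 1) (hd0 : 0 ≤ d) (hd1 : d ≤ 1) (hwu : w ≤ u + 32 * d) :
    |(sX ^ 2 - sY ^ 2) * w| ≤ sZ ^ 2 * u + d / 10 + 40968 * β ^ 2 := by
  rw [abs_mul, abs_of_nonneg hw]
  have e : |sX ^ 2 - sY ^ 2| = |sX - sY| * (sX + sY) := by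
    rw [show sX ^ 2 - sY ^ 2 = (sX - sY) * (sX + sY) by ring, abs_mul,
      abs_of_nonneg (add_nonneg hX.1 hY.1)]
  have h1 : |sX - sY| ≤ 2 * β := by
    rw [abs_le] at *
    constructor <;> linarith
  have h2 : sX + sY ≤ 2 * sZ + 2 * β := by
    rw [abs_le] at *
    linarith
  have hA : |sX ^ 2 - sY ^ 2| ≤ sZ ^ 2 + 8 * β ^ 2 := by
    rw [e]
    calc |sX - sY| * (sX + sY) ≤ 2 * β * (2 * sZ + 2 * β) :=
          mul_le_mul h1 h2 (add_nonneg hX.1 hY.1) (by linarith)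
      _ ≤ _ := by nlinarith [sq_nonneg (sZ - 2 * β)]
  have hB : |sX ^ 2 - sY ^ 2| ≤ 4 * β := by
    rw [e]
    calc |sX - sY| * (sX + sY) ≤ 2 * β * 2 :=
          mul_le_mul h1 (by linarith) (add_nonneg hX.1 hY.1) (by linarith)
      _ = _ := by ring
  have hn := abs_nonneg (sX ^ 2 - sY ^ 2)
  calc |sX ^ 2 - sY ^ 2| * w ≤ |sX ^ 2 - sY ^ 2| * (u + 32 * d) :=
        mul_le_mul_of_nonneg_left hwu hn
    _ = |sX ^ 2 - sY ^ 2| * u + |sX ^ 2 - sY ^ 2| * (32 * d) := by ring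
    _ ≤ (sZ ^ 2 + 8 * β ^ 2) * u + 4 * β * (32 * d) :=
        add_le_add (mul_le_mul_of_nonneg_right hA hu0)
          (mul_le_mul_of_nonneg_right hB (by linarith))
    _ ≤ _ := by
        nlinarith [sq_nonneg (d - 640 * β), mul_nonneg (sq_nonneg β) (sub_nonneg.2 hu1),
          mul_nonneg hd0 (sub_nonneg.2 hd1)]

theorem cor_new_diff {cX cY cZ fX fY fZ a d : ℝ} (ha : 0 ≤ a) (hX : |cX - cZ| ≤ a)
    (hY : |cY - cZ| ≤ a) (hfY : 0 ≤ fY ∧ fY ≤ 1) (hfZ : 0 ≤ fZ ∧ fZ ≤ 1) (hd0 : 0 ≤ d)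
    (hd1 : d ≤ 1) (hXY : |fX - fY| ≤ d) (hYZ : |fY - fZ| ≤ 32 * d) :
    |cor_new cX fX - cor_new cY fY| ≤ 6 / 5 * d + cor_sig cZ fZ + 8193600 * a ^ 2 := by
  have ls : ∀ c c' : ℝ, |c - c'| ≤ a → |cor_s c - cor_s c'| ≤ 10 * a := by
    intro c c' h
    refine (cor_cl_lip _ _).trans ?_
    rw [show 10 * (c - 1 / 2) - 10 * (c' - 1 / 2) = 10 * (c - c') by ring, abs_mul]
    norm_num; exact h
  have lt : ∀ c c' : ℝ, |c - c'| ≤ a → |cor_t c - cor_t c'| ≤ 10 * a := by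
    intro c c' h
    refine (cor_cl_lip _ _).trans ?_
    rw [show 10 * (3 / 10 - c) - 10 * (3 / 10 - c') = 10 * (c' - c) by ring, abs_mul,
      abs_sub_comm]
    norm_num; exact h
  have hYZ' := abs_le.1 hYZ
  have h1 := cor_sq_diff (sX := cor_s cX) (sY := cor_s cY) (sZ := cor_s cZ) (β := 10 * a)
    (u := 1 - fZ) (d := d) (w := 1 - fY) (cor_cl_mem _) (cor_cl_mem _) (cor_cl_mem _).1
    (by linarith) (ls _ _ hX) (ls _ _ hY) (by linarith) (by linarith) (by linarith) hd0 hd1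
    (by linarith)
  have h2 := cor_sq_diff (sX := cor_t cX) (sY := cor_t cY) (sZ := cor_t cZ) (β := 10 * a)
    (u := fZ) (d := d) (w := fY) (cor_cl_mem _) (cor_cl_mem _) (cor_cl_mem _).1
    (by linarith) (lt _ _ hX) (lt _ _ hY) hfY.1 hfZ.1 hfZ.2 hd0 hd1 (by linarith)
  have h3 : |(1 - cor_s cX ^ 2 - cor_t cX ^ 2) * (fX - fY)| ≤ d := by
    have a1 := cor_s_sq cX
    have a2 := cor_t_sq cX
    have a3 := cor_sum_sq cX
    rw [abs_mul, abs_of_nonneg (by linarith)]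
    nlinarith [abs_nonneg (fX - fY)]
  have e : cor_new cX fX - cor_new cY fY = (1 - cor_s cX ^ 2 - cor_t cX ^ 2) * (fX - fY) +
      (cor_s cX ^ 2 - cor_s cY ^ 2) * (1 - fY) - (cor_t cX ^ 2 - cor_t cY ^ 2) * fY := by
    unfold cor_new; ring
  rw [e]
  unfold cor_sig
  rw [abs_le] at h1 h2 h3 ⊢
  constructor <;> nlinarith [h1.1, h1.2, h2.1, h2.2, h3.1, h3.2]

/-- adjacent differences in the `8`-box of `Z` are at most `δ` -/
def cor_Adj (F : ℤ × ℤ → ℝ) (Z : ℤ × ℤ) (δ : ℝ) : Prop :=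
  ∀ X, Near 8 X Z → (Near 8 (X.1 + 1, X.2) Z → |F (X.1 + 1, X.2) - F X| ≤ δ) ∧
    (Near 8 (X.1, X.2 + 1) Z → |F (X.1, X.2 + 1) - F X| ≤ δ)

structure cor_Inv (F δ : ℤ × ℤ → ℝ) : Prop where
  F01 : ∀ X, 0 ≤ F X ∧ F X ≤ 1
  δ01 : ∀ X, 0 ≤ δ X ∧ δ X ≤ 1
  adj : ∀ Z, cor_Adj F Z (δ Z)

noncomputable def cor_Phi (g : E → E) (e : E) (k : ℤ) (F δ : ℤ × ℤ → ℝ) : ℝ :=
  88 * ∑' Z, δ Z * ‖Gam g k Z‖ -
    2420 * (∑' Z, F Z * ⟪e, Gam g k Z⟫ + 2 / 5 * ∑' Z, (1 - F Z) * ‖Gam g k Z‖) - 88 * aa g k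

theorem cor_summable {t F : ℤ × ℤ → ℝ} (ht : Summable t) (hF : ∀ Z, 0 ≤ F Z ∧ F Z ≤ 1) :
    Summable fun Z => F Z * t Z := by
  refine Summable.of_norm_bounded ht.abs fun Z => ?_
  rw [Real.norm_eq_abs, abs_mul, abs_of_nonneg (hF Z).1]
  exact mul_le_of_le_one_left (abs_nonneg _) (hF Z).2

theorem cor_summable_inner {g : E → E} (hg : Integrable g) {e : E} (he : ‖e‖ = 1) (k : ℤ) :
    Summable fun Z => ⟪e, Gam g k Z⟫ := by
  refine Summable.of_norm_bounded (summable_Gam hg k) fun Z => ?_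
  have := abs_real_inner_le_norm e (Gam g k Z)
  rwa [he, one_mul] at this

theorem cor_w_le {g : E → E} (hg : Integrable g) {e : E} (he : ‖e‖ = 1) (k : ℤ)
    {F : ℤ × ℤ → ℝ} (hF : ∀ Z, 0 ≤ F Z ∧ F Z ≤ 1) :
    |∑' Z, F Z * ⟪e, Gam g k Z⟫ + 2 / 5 * ∑' Z, (1 - F Z) * ‖Gam g k Z‖| ≤ aa g k := by
  have hF' : ∀ Z, 0 ≤ 1 - F Z ∧ 1 - F Z ≤ 1 := fun Z => ⟨by linarith [(hF Z).2],
    by linarith [(hF Z).1]⟩
  have s1 := cor_summable (cor_summable_inner hg he k) hF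
  have s2 := cor_summable (summable_Gam hg k) hF'
  rw [← tsum_mul_left, ← s1.tsum_add (s2.mul_left _), ← Real.norm_eq_abs]
  refine tsum_of_norm_bounded (summable_Gam hg k).hasSum fun Z => ?_
  have := abs_real_inner_le_norm e (Gam g k Z)
  rw [he, one_mul, abs_le] at this
  have h0 := (hF Z).1
  have h1 := (hF' Z).1
  have hn := norm_nonneg (Gam g k Z)
  rw [Real.norm_eq_abs, abs_le]
  constructor <;> nlinarith [mul_nonneg h0 (sub_nonneg.2 this.1),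
    mul_nonneg h0 (sub_nonneg.2 this.2), mul_nonneg h1 hn]

theorem cor_itp_one_sub (k : ℤ) (F : ℤ × ℤ → ℝ) (y : E) :
    itp k (fun P => 1 - F P) y = 1 - itp k F y := by
  rw [itp_eq_sum, itp_eq_sum]
  simp only [sub_mul, one_mul, Finset.sum_sub_distrib, sum_quad_hat]

theorem cor_step : ∃ C : ℝ, 0 < C ∧ ∀ (g : E → E) (e : E) (k : ℤ) (F' δ' : ℤ × ℤ → ℝ),
    Integrable g → ‖e‖ = 1 → cor_Inv F' δ' →
    ∃ F δ ω : ℤ × ℤ → ℝ, cor_Inv F δ ∧ (∀ X, 0 ≤ ω X ∧ ω X ≤ 1) ∧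
      (∀ X, (3 / 5 ≤ ⟪nref g k X, e⟫ → F X = 1) ∧ (⟪nref g k X, e⟫ ≤ 1 / 5 → F X = 0)) ∧
      (∀ Z X, Near 8 X Z → |F X - F Z| ≤ ω Z ∧ |F X - itp (k + 1) F' (pos k X)| ≤ ω Z) ∧
      ∑' Z, ω Z * ‖Gam g k Z‖ + cor_Phi g e k F δ ≤
        cor_Phi g e (k + 1) F' δ' + C * alpha g k := by
  obtain ⟨C, hC, hang⟩ := sum_angle_le
  refine ⟨(24200 + 120 * 8193600) * C, by positivity, fun g e k F' δ' hg he hI => ?_⟩
  set B := Finset.Icc (-8 : ℤ) 8 ×ˢ Finset.Icc (-8 : ℤ) 8 with hB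
  set c : ℤ × ℤ → ℝ := fun X => ⟪nref g k X, e⟫ with hc
  set f : ℤ × ℤ → ℝ := fun X => itp (k + 1) F' (pos k X) with hf
  set d : ℤ × ℤ → ℝ := fun X => itp (k + 1) δ' (pos k X) with hd
  set A : ℤ × ℤ → ℝ := fun Z => ∑ d ∈ B, ‖nref g k (Z + d) - nref g k Z‖ ^ 2 with hA
  set σ : ℤ × ℤ → ℝ := fun Z => cor_sig (c Z) (f Z) with hσ
  set F : ℤ × ℤ → ℝ := fun Z => cor_new (c Z) (f Z) with hF
  set δ : ℤ × ℤ → ℝ := fun Z => min 1 (3 / 5 * d Z + σ Z + 8193600 * A Z) with hδ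
  set ω : ℤ × ℤ → ℝ := fun Z => min 1 (32 * δ Z + 16 * d Z + σ Z) with hω
  have f01 : ∀ X, 0 ≤ f X ∧ f X ≤ 1 := fun X => itp_mem fun P _ => hI.F01 P
  have d01 : ∀ X, 0 ≤ d X ∧ d X ≤ 1 := fun X => itp_mem fun P _ => hI.δ01 P
  have σ01 : ∀ X, 0 ≤ σ X ∧ σ X ≤ 1 := fun X => cor_sig_mem (f01 X).1 (f01 X).2
  have F01 : ∀ X, 0 ≤ F X ∧ F X ≤ 1 := fun X => cor_new_mem (f01 X).1 (f01 X).2
  have A0 : ∀ X, 0 ≤ A X := fun X => Finset.sum_nonneg fun _ _ => sq_nonneg _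
  have δ01 : ∀ X, 0 ≤ δ X ∧ δ X ≤ 1 := fun X =>
    ⟨le_min zero_le_one (by linarith [(d01 X).1, (σ01 X).1, A0 X]), min_le_left _ _⟩
  have ω01 : ∀ X, 0 ≤ ω X ∧ ω X ≤ 1 := fun X =>
    ⟨le_min zero_le_one (by linarith [(d01 X).1, (σ01 X).1, (δ01 X).1]), min_le_left _ _⟩
  have le1 : ∀ {p q : ℝ}, (0 ≤ p ∧ p ≤ 1) → (0 ≤ q ∧ q ≤ 1) → |p - q| ≤ 1 := by
    intro p q hp hq
    rw [abs_le]; constructor <;> linarith [hp.1, hp.2, hq.1, hq.2]
  -- adjacent differences of the interpolation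
  have fadj : ∀ Z, cor_Adj f Z (d Z / 2) := by
    intro Z X hX
    constructor
    · intro hX1
      have := (itp_mem (k := k + 1) (F := δ') (y := pos k Z)
        (lo := 2 * |f (X.1 + 1, X.2) - f X|) (hi := 1) fun P hP =>
          ⟨by linarith [(adj_itp hP (hI.adj P) X hX).1 hX1], (hI.δ01 P).2⟩).1
      linarith
    · intro hX1
      have := (itp_mem (k := k + 1) (F := δ') (y := pos k Z)
        (lo := 2 * |f (X.1, X.2 + 1) - f X|) (hi := 1) fun P hP =>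
          ⟨by linarith [(adj_itp hP (hI.adj P) X hX).2 hX1], (hI.δ01 P).2⟩).1
      linarith
  have fosc : ∀ Z X X', Near 8 X Z → Near 8 X' Z → |f X - f X'| ≤ 32 * (d Z / 2) := fun Z =>
    osc_of_adj (by linarith [(d01 Z).1]) (fadj Z)
  have nself : ∀ Z, Near 8 Z Z := fun Z => ⟨by simp, by simp⟩
  have cA : ∀ Z X, Near 8 X Z → |c X - c Z| ≤ √(A Z) := by
    intro Z X hX
    apply Real.le_sqrt_of_sq_le
    have h1 : |c X - c Z| ≤ ‖nref g k X - nref g k Z‖ := by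
      have := abs_real_inner_le_norm (nref g k X - nref g k Z) e
      rwa [he, mul_one, inner_sub_left] at this
    have h2 : ‖nref g k (Z + (X - Z)) - nref g k Z‖ ^ 2 ≤ A Z := by
      refine Finset.single_le_sum (f := fun d => ‖nref g k (Z + d) - nref g k Z‖ ^ 2)
        (fun _ _ => sq_nonneg _) ?_
      rw [hB, Finset.mem_product, Finset.mem_Icc, Finset.mem_Icc]
      exact ⟨abs_le.1 hX.1, abs_le.1 hX.2⟩
    rw [add_sub_cancel] at h2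
    exact (pow_le_pow_left₀ (abs_nonneg _) h1 2).trans h2
  have Fdiff : ∀ Z X Y, Near 8 X Z → Near 8 Y Z → |f X - f Y| ≤ d Z / 2 → |F X - F Y| ≤ δ Z := by
    intro Z X Y hX hY hXY
    refine le_min (le1 (F01 X) (F01 Y)) ?_
    have := cor_new_diff (Real.sqrt_nonneg _) (cA Z X hX) (cA Z Y hY) (f01 Y) (f01 Z)
      (by linarith [(d01 Z).1]) (by linarith [(d01 Z).2]) hXY (fosc Z Y Z hY (nself Z))
    rw [Real.sq_sqrt (A0 Z)] at this
    linarith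
  have Fadj : ∀ Z, cor_Adj F Z (δ Z) := fun Z X hX =>
    ⟨fun h => Fdiff Z _ _ h hX ((fadj Z X hX).1 h), fun h => Fdiff Z _ _ h hX ((fadj Z X hX).2 h)⟩
  refine ⟨F, δ, ω, ⟨F01, δ01, Fadj⟩, ω01, fun X => ⟨cor_new_one, cor_new_zero⟩, ?_, ?_⟩
  · intro Z X hX
    have h1 : |F X - F Z| ≤ 32 * δ Z := osc_of_adj (δ01 Z).1 (Fadj Z) X Z hX (nself Z)
    have h2 : |F Z - f Z| ≤ σ Z := cor_new_sub (f01 Z).1 (f01 Z).2
    have h3 := fosc Z Z X (nself Z) hX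
    constructor
    · exact le_min (le1 (F01 X) (F01 Z)) (by linarith [(d01 Z).1, (σ01 Z).1])
    · refine le_min (le1 (F01 X) (f01 X)) ?_
      rw [abs_le] at h1 h2 h3 ⊢
      constructor <;> linarith [h1.1, h1.2, h2.1, h2.2, h3.1, h3.2]
  · -- the sums
    have sN := summable_Gam hg k
    have sI := cor_summable_inner hg he k
    have γ0 : ∀ Z, 0 ≤ garb (nref g k Z) (Gam g k Z) := fun Z => garb_nonneg (norm_nref _ _ _) _
    have AN0 : ∀ Z, 0 ≤ ‖Gam g k Z‖ * A Z := fun Z => mul_nonneg (norm_nonneg _) (A0 Z)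
    have hγ : ∀ s : Finset (ℤ × ℤ), ∑ Z ∈ s, garb (nref g k Z) (Gam g k Z) ≤ C * alpha g k :=
      fun s => (Finset.sum_le_sum fun Z _ => le_add_of_nonneg_right (AN0 Z)).trans (hang g hg k s)
    have hAN : ∀ s : Finset (ℤ × ℤ), ∑ Z ∈ s, ‖Gam g k Z‖ * A Z ≤ C * alpha g k :=
      fun s => (Finset.sum_le_sum fun Z _ => le_add_of_nonneg_left (γ0 Z)).trans (hang g hg k s)
    have sγ : Summable fun Z => garb (nref g k Z) (Gam g k Z) := summable_of_sum_le γ0 hγ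
    have sA : Summable fun Z => ‖Gam g k Z‖ * A Z := summable_of_sum_le AN0 hAN
    have tγ : ∑' Z, garb (nref g k Z) (Gam g k Z) ≤ C * alpha g k := sγ.tsum_le_of_sum_le hγ
    have tA : ∑' Z, ‖Gam g k Z‖ * A Z ≤ C * alpha g k := sA.tsum_le_of_sum_le hAN
    have one_sub : ∀ {G : ℤ × ℤ → ℝ}, (∀ Z, 0 ≤ G Z ∧ G Z ≤ 1) →
        ∀ Z, 0 ≤ 1 - G Z ∧ 1 - G Z ≤ 1 := fun hG Z =>
      ⟨by linarith [(hG Z).2], by linarith [(hG Z).1]⟩
    have sω := (cor_summable sN ω01).hasSum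
    have sδ := (cor_summable sN δ01).hasSum
    have sd := (cor_summable sN d01).hasSum
    have sσ := (cor_summable sN σ01).hasSum
    have sF := (cor_summable sI F01).hasSum
    have sf := (cor_summable sI f01).hasSum
    have sF' := (cor_summable sN (one_sub F01)).hasSum
    have sf' := (cor_summable sN (one_sub f01)).hasSum
    have i1 := hasSum_le (fun Z => by
        have : ω Z ≤ 32 * δ Z + 16 * d Z + σ Z := min_le_right _ _
        nlinarith [norm_nonneg (Gam g k Z)]) sω (((sδ.mul_left 32).add (sd.mul_left 16)).add sσ)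
    have i2 := hasSum_le (fun Z => by
        have : δ Z ≤ 3 / 5 * d Z + σ Z + 8193600 * A Z := min_le_right _ _
        nlinarith [norm_nonneg (Gam g k Z)]) sδ
      (((sd.mul_left (3 / 5)).add sσ).add (sA.hasSum.mul_left 8193600))
    have i3 := hasSum_le (fun Z => by
        have := cor_gain (c := c Z) (f01 Z).1 (f01 Z).2 (norm_nonneg (Gam g k Z)) (γ0 Z)
          (abs_inner_sub_le_garb (norm_nref g k Z) he (Gam g k Z))
        change σ Z * _ / 20 - _ ≤ (F Z - f Z) * _ at this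
        linarith)
      (((sσ.mul_left (1 / 20)).sub (sγ.hasSum.mul_left 10)).add (sf.add (sf'.mul_left (2 / 5))))
      (sF.add (sF'.mul_left (2 / 5)))
    have i4 : ∑' Z, d Z * ‖Gam g k Z‖ ≤ ∑' P, δ' P * ‖Gam g (k + 1) P‖ +
        (aa g k - aa g (k + 1)) := (tsum_itp_norm hg (by omega) hI.δ01).2
    have i5 : ∑' Z, f Z * ⟪e, Gam g k Z⟫ = ∑' P, F' P * ⟪e, Gam g (k + 1) P⟫ :=
      tsum_itp_inner hg (by omega) e (B := 1) fun P => by
        rw [abs_of_nonneg (hI.F01 P).1]; exact (hI.F01 P).2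
    have i6 : ∑' P, (1 - F' P) * ‖Gam g (k + 1) P‖ ≤ ∑' Z, (1 - f Z) * ‖Gam g k Z‖ := by
      have := (tsum_itp_norm hg (show k ≤ k + 1 by omega) (one_sub hI.F01)).1
      simpa only [cor_itp_one_sub] using this
    unfold cor_Phi
    linarith

theorem cor_rec : ∃ C : ℝ, 0 < C ∧ ∀ (g : E → E) (e : E) (k₁ : ℤ), Integrable g → ‖e‖ = 1 →
    ∀ m : ℕ, ∃ (F ω : ℤ → ℤ × ℤ → ℝ) (δ : ℤ × ℤ → ℝ), (∀ k X, 0 ≤ F k X ∧ F k X ≤ 1) ∧
      (∀ X, F (k₁ + 1) X = 0) ∧ (∀ k X, 0 ≤ ω k X ∧ ω k X ≤ 1) ∧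
      (∀ k ∈ Finset.Icc (k₁ + 1 - m) k₁, ∀ X, (3 / 5 ≤ ⟪nref g k X, e⟫ → F k X = 1) ∧
        (⟪nref g k X, e⟫ ≤ 1 / 5 → F k X = 0)) ∧
      (∀ k ∈ Finset.Icc (k₁ + 1 - m) k₁, ∀ Z X, Near 8 X Z → |F k X - F k Z| ≤ ω k Z ∧
        |F k X - itp (k + 1) (F (k + 1)) (pos k X)| ≤ ω k Z) ∧
      cor_Inv (F (k₁ + 1 - m)) δ ∧
      ∑ k ∈ Finset.Icc (k₁ + 1 - m) k₁, ∑' Z, ω k Z * ‖Gam g k Z‖ +
        cor_Phi g e (k₁ + 1 - m) (F (k₁ + 1 - m)) δ ≤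
        cor_Phi g e (k₁ + 1) 0 0 + C * ∑ k ∈ Finset.Icc (k₁ + 1 - m) k₁, alpha g k := by
  obtain ⟨C, hC, hstep⟩ := cor_step
  refine ⟨C, hC, fun g e k₁ hg he m => ?_⟩
  induction m with
  | zero =>
    have hE : Finset.Icc (k₁ + 1 - (0 : ℕ)) k₁ = ∅ := by simp
    rw [hE]
    refine ⟨0, 0, 0, by simp, by simp, by simp, by simp, by simp, ⟨by simp, by simp, ?_⟩, by simp⟩
    intro Z X _
    simp
  | succ m ih =>
    obtain ⟨F, ω, δ, h1, h2, h3, h4, h5, h6, h7⟩ := ih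
    set k := k₁ - m with hk
    have e1 : k₁ + 1 - (m : ℤ) = k + 1 := by omega
    have e2 : k₁ + 1 - ((m + 1 : ℕ) : ℤ) = k := by push_cast; omega
    have hkk : k ≤ k₁ := by omega
    rw [e1] at h4 h5 h6 h7
    rw [e2]
    obtain ⟨F₀, δ₀, ω₀, hI, g1, g2, g3, g4⟩ := hstep g e k (F (k + 1)) δ hg he h6
    have hIcc : Finset.Icc k k₁ = insert k (Finset.Icc (k + 1) k₁) := by
      ext j
      simp only [Finset.mem_Icc, Finset.mem_insert]
      omega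
    have hnot : k ∉ Finset.Icc (k + 1) k₁ := by simp
    have hne : ∀ j ∈ Finset.Icc (k + 1) k₁, j ≠ k ∧ j + 1 ≠ k := by
      intro j hj
      rw [Finset.mem_Icc] at hj
      omega
    refine ⟨Function.update F k F₀, Function.update ω k ω₀, δ₀, ?_, ?_, ?_, ?_, ?_, ?_, ?_⟩
    · intro j X
      by_cases h : j = k
      · rw [h, Function.update_self]; exact hI.F01 X
      · rw [Function.update_of_ne h]; exact h1 j X
    · intro X
      rw [Function.update_of_ne (by omega)]; exact h2 X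
    · intro j X
      by_cases h : j = k
      · rw [h, Function.update_self]; exact g1 X
      · rw [Function.update_of_ne h]; exact h3 j X
    · intro j hj X
      rw [hIcc, Finset.mem_insert] at hj
      rcases hj with rfl | hj
      · rw [Function.update_self]; exact g2 X
      · rw [Function.update_of_ne (hne j hj).1]; exact h4 j hj X
    · intro j hj Z X hX
      rw [hIcc, Finset.mem_insert] at hj
      rcases hj with rfl | hj
      · rw [Function.update_self, Function.update_self, Function.update_of_ne (by omega)]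
        exact g3 Z X hX
      · rw [Function.update_of_ne (hne j hj).1, Function.update_of_ne (hne j hj).1,
          Function.update_of_ne (hne j hj).2]
        exact h5 j hj Z X hX
    · rw [Function.update_self]; exact hI
    · rw [hIcc, Finset.sum_insert hnot, Finset.sum_insert hnot, Function.update_self,
        Function.update_self]
      have : ∑ j ∈ Finset.Icc (k + 1) k₁, ∑' Z, Function.update ω k ω₀ j Z * ‖Gam g j Z‖ =
          ∑ j ∈ Finset.Icc (k + 1) k₁, ∑' Z, ω j Z * ‖Gam g j Z‖ :=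
        Finset.sum_congr rfl fun j hj => by rw [Function.update_of_ne (hne j hj).1]
      rw [this, mul_add]
      linarith

/-- Downward recursion from `F (k₁+1) = 0`, `δ (k₁+1) = 0`.  With `n_X = nref g k X`,
`s_X = cl (10 (⟪n_X,e⟫ - 1/2))`, `s'_X = cl (10 (3/10 - ⟪n_X,e⟫))`, `λ = s²`, `λ' = s'²` (`λ λ' = 0`),
`F̃ X = itp (k+1) (F (k+1)) (pos k X)`:
`F k X = (1 - λ - λ') F̃ + λ`, `σ Z = λ (1 - F̃) + λ' F̃ = |F k Z - F̃ Z|`,
`δ̃ Z = itp (k+1) (δ (k+1)) (pos k Z) / 2`,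
`δ k Z = min 1 (6/5 δ̃ Z + σ Z + C₁ ∑_d ‖n_{Z+d} - n_Z‖²)`, `ω k Z = min 1 (32 (δ + δ̃) + σ)`.
Invariant: adjacent differences of `F k` in the `8`-box of `Z` are `≤ δ k Z` (those of `F̃` are
`≤ δ̃ Z` by `adj_itp` and `itp_mem`; `F X - F Y = (1-λ_X-λ'_X)(F̃ X - F̃ Y) + (λ_X-λ_Y)(1-F̃ Y)
- (λ'_X-λ'_Y) F̃ Y`; with `β = 10 max ‖n_X - n_Z‖`: `|λ_X-λ_Y| ≤ 4β s_Z + 4β²`, `≤ 4β`,
`1 - F̃ Y ≤ 1 - F̃ Z + 32 δ̃`, `4βs ≤ s² + 4β²`, `128 β δ̃ ≤ δ̃/10 + C β²` as `δ̃ ≤ 1`).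
`D k = ∑ ‖Γ‖ δ k ≤ (3/5)(D (k+1) + aa k - aa (k+1)) + ∑ ‖Γ‖ σ + C alpha k` (`tsum_itp_norm`,
`sum_angle_le`).  Potential `w k = ∑ F ⟪e,Γ⟫ + (2/5)(1 - F)‖Γ‖`, `|w k| ≤ aa k`,
`w k ≥ w (k+1) + ∑ (σ ‖Γ‖/20 - 10 garb n_Z Γ)` (`tsum_itp_inner`, `tsum_itp_norm` for `1 - F`,
`abs_inner_sub_le_garb`).  Sum over `k`, `sum_alpha_le`. -/
theorem corona : ∃ C : ℝ, 0 < C ∧ ∀ (g : E → E) (e : E) (k₀ k₁ : ℤ), Integrable g → ‖e‖ = 1 →
    ∃ F ω : ℤ → ℤ × ℤ → ℝ, (∀ k X, 0 ≤ F k X ∧ F k X ≤ 1) ∧ (∀ X, F (k₁ + 1) X = 0) ∧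
      (∀ k X, 0 ≤ ω k X ∧ ω k X ≤ 1) ∧
      (∀ k ∈ Finset.Icc k₀ k₁, ∀ X, (3 / 5 ≤ ⟪nref g k X, e⟫ → F k X = 1) ∧
        (⟪nref g k X, e⟫ ≤ 1 / 5 → F k X = 0)) ∧
      (∀ k ∈ Finset.Icc k₀ k₁, ∀ Z X, Near 8 X Z → |F k X - F k Z| ≤ ω k Z ∧
        |F k X - itp (k + 1) (F (k + 1)) (pos k X)| ≤ ω k Z) ∧
      ∑ k ∈ Finset.Icc k₀ k₁, ∑' Z, ω k Z * ‖Gam g k Z‖ ≤ C * ∫ y, ‖g y‖ := by
  obtain ⟨C, hC, hrec⟩ := cor_rec
  obtain ⟨C', hC', hα⟩ := sum_alpha_le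
  refine ⟨4928 + C * C', by positivity, fun g e k₀ k₁ hg he => ?_⟩
  have hn : 0 ≤ ∫ y, ‖g y‖ := integral_nonneg fun _ => norm_nonneg _
  by_cases hk : k₀ ≤ k₁ + 1
  · obtain ⟨m, hm⟩ := Int.le.dest hk
    obtain ⟨F, ω, δ, h1, h2, h3, h4, h5, h6, h7⟩ := hrec g e k₁ hg he m
    rw [show k₁ + 1 - (m : ℤ) = k₀ by omega] at h4 h5 h6 h7
    refine ⟨F, ω, h1, h2, h3, h4, h5, ?_⟩
    have a1 := abs_le.1 (cor_w_le hg he k₀ h6.F01)
    have a2 := abs_le.1 (cor_w_le hg he (k₁ + 1) (F := 0) (by simp))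
    have a3 : 0 ≤ ∑' Z, δ Z * ‖Gam g k₀ Z‖ :=
      tsum_nonneg fun Z => mul_nonneg (h6.δ01 Z).1 (norm_nonneg _)
    have a4 : ∑' Z, (0 : ℤ × ℤ → ℝ) Z * ‖Gam g (k₁ + 1) Z‖ = 0 := by simp
    have a5 := aa_le hg k₀
    have a6 := aa_le hg (k₁ + 1)
    have a7 := aa_nonneg g (k₁ + 1)
    have a8 := mul_le_mul_of_nonneg_left (hα g hg k₀ k₁) hC.le
    unfold cor_Phi at h7
    rw [a4] at h7
    nlinarith [a1.1, a1.2, a2.1, a2.2]
  · have hE : Finset.Icc k₀ k₁ = ∅ := Finset.Icc_eq_empty (by omega)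
    rw [hE]
    refine ⟨0, 0, fun _ _ => ⟨le_rfl, zero_le_one⟩, fun _ => rfl,
      fun _ _ => ⟨le_rfl, zero_le_one⟩, by simp, by simp, ?_⟩
    rw [Finset.sum_empty]
    exact mul_nonneg (by positivity) hn

end Crest.Agent.R112
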