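import Mathlib
import Crest.Prelude.Def_MaximalSobolev

/-!
# Row 112 (S0147): `W^{1,1}` bound for the centred disc maximal function in the plane. Definitions.

Overview of the proof (owner: helper2).  `g = ∇ f`, `uu f x r` = disc average of `f`,
`GG g x r` = disc average of `g`; at a maximising radius `∇ (Mf) (x) = GG g x r`.

* **Hats.**  `hat j a` are the tensor tent functions of the lattice `2^j ℤ²` (partition of unity,
  refinable), `Gam g j a = ∫ hat • g`.  `aa g j = ∑ ‖Gam g j a‖` decreases in `j` and is `≤ ‖g‖₁`.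
  Nonnegative Lipschitz test functions are positive combinations of hats (`low`), which bounds
  `∫ h ⟪ξ, g⟫` from below by the "garbage" `garb n (Gam ..)` seen through the measure `nm`.
* **Key lemma** (`kl`): if `r` maximises `uu f x ·` on `[2^k, 2^(k+1)]` and `⟪n, e'⟫ ≥ 1/200`,
  `n = nref g k X`, then `⟪e', GG g x r⟫ ≥ -β x` with `∫ β ≲ V0 g k X`, and `∑ V0 ≲ ‖g‖₁`.
  (pointwise part: optimality windows `Win`, stream functions, potential `Psi`; measure part: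
  nesting lemma.)
* **Corona** (`corona`): states `F k X ∈ [0,1]` (hysteresis in the direction `nref`) whose weighted
  oscillation is summable.
* **Telescoping** (`dirE`): Lovász extension `Hbar` of the sum over runs of levels.
* **Sobolev part**: approximation by `C²_c` functions (`Apx`), uniform integrability, limits.
-/

set_option autoImplicit false

namespace Crest.Agent.R112

open MeasureTheory Metric
open scoped RealInnerProductSpace

abbrev E := EuclideanSpace ℝ (Fin 2)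

noncomputable section

/-! ## 1. Hats and node measures -/

def tent (t : ℝ) : ℝ := max 0 (1 - |t|)

/-- position of the node `a` of level `j` -/
def pos (j : ℤ) (a : ℤ × ℤ) : E := !₂[2 ^ j * (a.1 : ℝ), 2 ^ j * (a.2 : ℝ)]

def hat (j : ℤ) (a : ℤ × ℤ) (y : E) : ℝ := tent (y 0 / 2 ^ j - a.1) * tent (y 1 / 2 ^ j - a.2)

def Gam (g : E → E) (j : ℤ) (a : ℤ × ℤ) : E := ∫ y, hat j a y • g y

def aa (g : E → E) (j : ℤ) : ℝ := ∑' a : ℤ × ℤ, ‖Gam g j a‖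

/-- interpolation of node values -/
def itp (k : ℤ) (F : ℤ × ℤ → ℝ) (y : E) : ℝ := ∑' P : ℤ × ℤ, F P * hat k P y

/-- garbage of the vector `v` with respect to the unit vector `n` -/
def garb (n v : E) : ℝ := ‖v‖ - ⟪n, v⟫

/-- node measure at resolution `2^j`: the node `a` of level `j - i` has mass
`2^(-i) φ (Gam g (j - i) a)` -/
def nm (φ : E → ℝ) (g : E → E) (j : ℤ) : Measure E :=
  Measure.sum fun p : ℕ × (ℤ × ℤ) =>
    ENNReal.ofReal ((1 / 2) ^ p.1 * φ (Gam g (j - p.1) p.2)) • Measure.dirac (pos (j - p.1) p.2)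

def dir (v : E) : E := if v = 0 then !₂[1, 0] else ‖v‖⁻¹ • v

/-- the nearest node five levels up -/
def up (X : ℤ × ℤ) : ℤ × ℤ := ((X.1 + 16) / 32, (X.2 + 16) / 32)

/-- reference direction of the node `X` of level `k` -/
def nref (g : E → E) (k : ℤ) (X : ℤ × ℤ) : E := dir (Gam g (k + 5) (up X))

def Near (C : ℤ) (X Z : ℤ × ℤ) : Prop := |X.1 - Z.1| ≤ C ∧ |X.2 - Z.2| ≤ C

/-- sup-norm ball of radius `C 2^k` around the node `X` of level `k` -/
def box (C : ℝ) (k : ℤ) (X : ℤ × ℤ) : Set E :=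
  {y | |y 0 - 2 ^ k * (X.1 : ℝ)| ≤ C * 2 ^ k ∧ |y 1 - 2 ^ k * (X.2 : ℝ)| ≤ C * 2 ^ k}

open Classical in
/-- garbage of the level `i` nodes near the node `X` of level `k` -/
def loc (g : E → E) (k : ℤ) (X : ℤ × ℤ) (i : ℤ) : ℝ :=
  ∑' Y : ℤ × ℤ, if pos i Y ∈ box 8 k X then garb (nref g k X) (Gam g i Y) else 0

/-- `qq ^ 16 = 1 / 2` -/
def qq : ℝ := (2 : ℝ) ^ (-(1 / 16 : ℝ))

/-- garbage budget of a node -/
def V0 (g : E → E) (k : ℤ) (X : ℤ × ℤ) : ℝ := ∑' m : ℕ, qq ^ m * loc g k X (k - m)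

/-- loss budget of a level -/
def alpha (g : E → E) (k : ℤ) : ℝ := ∑' m : ℕ, qq ^ m * (aa g (k - m) - aa g (k + 5))

/-- bounded by `a`, Lipschitz with constant `b` -/
structure SL {F : Type*} [NormedAddCommGroup F] (κ : E → F) (a b : ℝ) : Prop where
  bd : ∀ y, ‖κ y‖ ≤ a
  lip : ∀ y z, ‖κ y - κ z‖ ≤ b * ‖y - z‖

/-- rotation by a right angle -/
def rot (v : E) : E := !₂[-v 1, v 0]

/-- `g` is curl free -/
def Curl (g : E → E) : Prop :=
  ∀ (ψ : E → ℝ) (ψ' : E → E), (∀ y, HasGradientAt ψ (ψ' y) y) → Continuous ψ' →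
    HasCompactSupport ψ → ∫ y, ⟪rot (ψ' y), g y⟫ = 0

/-! ## 2. The key lemma at scale one -/

/-- abstract data of the key lemma: `φ m` (garbage) and `μ m` (mass) at resolution `2^(-m)` -/
structure KD (g : E → E) (n : E) (φ μ : ℕ → Measure E) : Prop where
  gi : Integrable g
  n1 : ‖n‖ = 1
  finφ : ∀ m, IsFiniteMeasure (φ m)
  finμ : ∀ m, IsFiniteMeasure (μ m)
  low : ∀ (m : ℕ) (h : E → ℝ) (H c : ℝ) (S : Set E) (ξ : E), 0 ≤ c →
    (∀ v, -(c * garb n v) ≤ ⟪ξ, v⟫) → (∀ y, 0 ≤ h y) → SL h H (H * 2 ^ m) →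
    Bornology.IsBounded S → (∀ y, y ∉ S → h y = 0) →
    -(9 * c * H * (φ m).real S) ≤ ∫ y, h y * ⟪ξ, g y⟫
  mass : ∀ (m : ℕ) (h : E → ℝ) (H : ℝ) (S : Set E) (ξ : E), (∀ y, 0 ≤ h y) →
    SL h H (H * 2 ^ m) → Bornology.IsBounded S → (∀ y, y ∉ S → h y = 0) →
    -(9 * ‖ξ‖ * H * (μ m).real S) ≤ ∫ y, h y * ⟪ξ, g y⟫
  φle : ∀ m S, (φ m).real S ≤ 2 * (μ m).real S
  μle : ∀ m S, (μ (m + 1)).real S ≤ 2 * (μ m).real S
  curl : Curl g

def cl (t : ℝ) : ℝ := max 0 (min 1 t)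

/-- depth inside the disc `ball x r` -/
def dp (x : E) (r : ℝ) (y : E) : ℝ := r - ‖y - x‖

/-- inner cutoff: `1` at depth `≥ 2/2^m`, `0` at depth `≤ 1/2^m` -/
def Zc (x : E) (r : ℝ) (m : ℕ) (y : E) : ℝ := cl (2 ^ m * dp x r y - 1)

/-- outer cutoff: `1` at depth `≥ -1/2^m`, `0` at depth `≤ -2/2^m` -/
def Oc (x : E) (r : ℝ) (m : ℕ) (y : E) : ℝ := cl (2 ^ m * dp x r y + 2)

def Ann (x : E) (r : ℝ) (m : ℕ) : Set E := {y | |dp x r y| ≤ 4 / 2 ^ m}

def Phi (g : E → E) (x : E) (r : ℝ) (m : ℕ) : E := ∫ y, Zc x r m y • g y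

def rho (g : E → E) (x : E) (r : ℝ) (m : ℕ) : ℝ := ∫ y, Zc x r m y * ⟪y - x, g y⟫

/-- cumulative garbage seen down to the level `L` -/
def SS (φ : ℕ → Measure E) (x : E) (r : ℝ) (L : ℕ) : ℝ :=
  (φ 0).real (closedBall x 6) + ∑ l ∈ Finset.Icc 1 L, (φ l).real (Ann x r l)

/-- optimality windows of half width `δ` -/
def Win (g : E → E) (x : E) (r δ : ℝ) : Prop :=
  ∀ ς : ℝ, (ς = 1 ∨ ς = -1) → ∃ H : ℝ → ℝ, (∀ s, 0 ≤ H s ∧ H s ≤ 1) ∧
    (∀ s t, |H s - H t| ≤ 16 / δ * |s - t|) ∧ (∀ s, δ ≤ s → H s = 1) ∧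
    (∀ s, s ≤ -δ → H s = 0) ∧ ς * ∫ y, H (dp x r y) * ⟪y - x, g y⟫ ≤ 0

structure Ctx (g : E → E) (n : E) (φ μ : ℕ → Measure E) (V : ℝ) (x : E) (r : ℝ) : Prop where
  kd : KD g n φ μ
  V0 : 0 < V
  r1 : 1 ≤ r
  r2 : r ≤ 2
  tot : ∀ m, (φ m).real (closedBall x 6) ≤ V / qq ^ m

/-- `p` is a cluster point at level `σ`: the annulus has little mass away from `p` -/
structure Good (g : E → E) (μ : ℕ → Measure E) (V : ℝ) (x : E) (r : ℝ) (σ : ℕ) (p : E) :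
    Prop where
  near : |dp x r p| ≤ 2 / 2 ^ σ
  out : (μ σ).real (Ann x r σ \ ball p ((qq ^ σ) ^ 4)) ≤ qq ^ σ * V
  win : ∀ L : ℕ, σ ≤ L → Win g x r (1 / 2 ^ L)

/-- the levels `σ + 2, …, L` are insignificant -/
def Gap (φ : ℕ → Measure E) (V : ℝ) (x : E) (r : ℝ) (σ L : ℕ) : Prop :=
  σ ≤ L ∧ ∀ l, σ + 2 ≤ l → l ≤ L → (φ l).real (Ann x r l) ≤ qq ^ l * V

def nu (x p : E) : E := ‖p - x‖⁻¹ • (p - x)

/-- the almost conserved potential -/
def Psi (g : E → E) (x : E) (r : ℝ) (p : E) (L : ℕ) : E :=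
  Phi g x r L - (rho g x r L / r) • nu x p

/-- `C^{1,1}` cutoff around `p` at scale `D` -/
structure Cut (Ca : ℝ) (p : E) (D : ℝ) (a : E → ℝ) (a' : E → E) : Prop where
  grad : ∀ y, HasGradientAt a (a' y) y
  nn : ∀ y, 0 ≤ a y ∧ a y ≤ 1
  one : ∀ y, ‖y - p‖ ≤ D → a y = 1
  zero : ∀ y, 2 * D ≤ ‖y - p‖ → a y = 0
  lip : ∀ y z, |a y - a z| ≤ Ca / D * ‖y - z‖
  sl : SL a' (Ca / D) (Ca / D ^ 2)
  zero' : ∀ y, (‖y - p‖ < D ∨ 2 * D < ‖y - p‖) → a' y = 0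

/-! ## 3. Averages and truncated maximal functions -/

def uu (f : E → ℝ) (x : E) (r : ℝ) : ℝ := (Real.pi * r ^ 2)⁻¹ * ∫ y in ball x r, f y

def GG (g : E → E) (x : E) (r : ℝ) : E := (Real.pi * r ^ 2)⁻¹ • ∫ y in ball x r, g y

/-- `r` maximises the average over the radii in `[a, b]` -/
def IsMx (f : E → ℝ) (a b : ℝ) (x : E) (r : ℝ) : Prop :=
  r ∈ Set.Icc a b ∧ ∀ s ∈ Set.Icc a b, uu f x s ≤ uu f x r

def ww (f : E → ℝ) (a b : ℝ) (x : E) : ℝ := sSup (uu f x '' Set.Icc a b)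

/-- radial kernel: `π (uu s - uu r) = ∫ kk r s ‖y - x‖ ⟪y - x, g y⟫` -/
def kk (r s ρ : ℝ) : ℝ := max 0 ((((max ρ r) ^ 2)⁻¹ - (s ^ 2)⁻¹) / 2)

/-- reference value of the level `k`: a weighted average of `uu f x ·` over `[2^k, 2^(k+1)]` -/
def rf (f : E → ℝ) (k : ℤ) (x : E) : ℝ :=
  3 / (7 * ((2 : ℝ) ^ k) ^ 3) * ∫ r in ((2 : ℝ) ^ k)..(2 * 2 ^ k), r ^ 2 * uu f x r

structure Sm (f : E → ℝ) : Prop where
  cd : ContDiff ℝ 2 f
  cs : HasCompactSupport f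

/-- `(f, g)` is an `L¹ × L¹` limit of pairs `(f₁, ∇ f₁)`, `f₁ ∈ C²_c` -/
structure Apx (f : E → ℝ) (g : E → E) : Prop where
  fi : Integrable f
  gi : Integrable g
  ap : ∀ ε : ℝ, 0 < ε → ∃ f₁, Sm f₁ ∧ ∫ y, |f y - f₁ y| ≤ ε ∧ ∫ y, ‖g y - gradient f₁ y‖ ≤ ε

/-! ## 4. Runs of levels -/

/-- the part below `t` of the run of `S` containing `t` -/
def run (S : Finset ℤ) (t : ℤ) : Finset ℤ := S.filter fun j => j ≤ t ∧ Finset.Icc j t ⊆ S

def Hs (U ref : ℤ → ℝ) (S : Finset ℤ) : ℝ :=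
  ∑ t ∈ S.filter (fun t => t + 1 ∉ S), (sSup (U '' (run S t : Set ℤ)) - ref t)

open Classical in
/-- Lovász extension of `Hs` -/
def Hbar (K : Finset ℤ) (U ref p : ℤ → ℝ) : ℝ :=
  ∫ θ in (0 : ℝ)..1, Hs U ref (K.filter fun k => θ < p k)

end

theorem qq_pos : 0 < qq := Real.rpow_pos_of_pos two_pos _

theorem qq_lt_one : qq < 1 := Real.rpow_lt_one_of_one_lt_of_neg one_lt_two (by norm_num)

theorem qq_pow : qq ^ 16 = 1 / 2 := by
  rw [qq, ← Real.rpow_natCast, ← Real.rpow_mul two_pos.le]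
  norm_num [Real.rpow_neg_one]

theorem qq_pow_pow (m : ℕ) : (qq ^ m) ^ 16 = 1 / 2 ^ m := by
  rw [← pow_mul, mul_comm, pow_mul, qq_pow, one_div_pow]

theorem half_lt_qq : 1 / 2 < qq := by
  rw [← qq_pow]
  calc qq ^ 16 < qq ^ 1 := pow_lt_pow_right_of_lt_one₀ qq_pos qq_lt_one (by norm_num)
    _ = qq := pow_one _

theorem norm_sq_E (v : E) : ‖v‖ ^ 2 = v 0 ^ 2 + v 1 ^ 2 := by
  rw [EuclideanSpace.norm_sq_eq]
  simp [Fin.sum_univ_two]

theorem inner_E (v w : E) : ⟪v, w⟫ = v 0 * w 0 + v 1 * w 1 := by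
  simp [PiLp.inner_apply, Fin.sum_univ_two, mul_comm]

theorem abs_apply_le (v : E) (i : Fin 2) : |v i| ≤ ‖v‖ := by
  simpa using PiLp.norm_apply_le v i

theorem norm_le_E (v : E) : ‖v‖ ≤ |v 0| + |v 1| := by
  have h := norm_sq_E v
  have h0 := abs_nonneg (v 0)
  have h1 := abs_nonneg (v 1)
  rw [← sq_abs (v 0), ← sq_abs (v 1)] at h
  nlinarith [norm_nonneg v, mul_nonneg h0 h1]

@[simp] theorem rot_zero_apply (v : E) : rot v 0 = -v 1 := rfl
@[simp] theorem rot_one_apply (v : E) : rot v 1 = v 0 := rfl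
@[simp] theorem pos_zero_apply (j : ℤ) (a : ℤ × ℤ) : pos j a 0 = 2 ^ j * (a.1 : ℝ) := rfl
@[simp] theorem pos_one_apply (j : ℤ) (a : ℤ × ℤ) : pos j a 1 = 2 ^ j * (a.2 : ℝ) := rfl

theorem norm_rot (v : E) : ‖rot v‖ = ‖v‖ := by
  have h1 := norm_sq_E (rot v)
  have h2 := norm_sq_E v
  simp only [rot_zero_apply, rot_one_apply] at h1
  have : ‖rot v‖ ^ 2 = ‖v‖ ^ 2 := by rw [h1, h2]; ring
  exact (sq_eq_sq₀ (norm_nonneg _) (norm_nonneg _)).1 this

theorem rot_sub (v w : E) : rot (v - w) = rot v - rot w := by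
  ext i; fin_cases i <;> simp; ring

theorem rot_add (v w : E) : rot (v + w) = rot v + rot w := by
  ext i; fin_cases i <;> simp; ring

theorem rot_smul (c : ℝ) (v : E) : rot (c • v) = c • rot v := by
  ext i; fin_cases i <;> simp

/-- orthonormal expansion in the frame `(ν, rot ν)` -/
theorem expand_rot {ν : E} (hν : ‖ν‖ = 1) (v : E) : v = ⟪v, ν⟫ • ν + ⟪v, rot ν⟫ • rot ν := by
  have h := norm_sq_E ν
  rw [hν] at h
  ext i
  fin_cases i
  · simp only [inner_E, Fin.zero_eta, PiLp.add_apply, PiLp.smul_apply, rot_zero_apply,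
      rot_one_apply, smul_eq_mul]
    linear_combination (v 0) * h
  · simp only [inner_E, Fin.mk_one, PiLp.add_apply, PiLp.smul_apply, rot_zero_apply,
      rot_one_apply, smul_eq_mul]
    linear_combination (v 1) * h

theorem norm_dir (v : E) : ‖dir v‖ = 1 := by
  unfold dir
  split_ifs with h
  · have := norm_sq_E (!₂[1, 0] : E)
    simp only [Matrix.cons_val_zero, Matrix.cons_val_one, Matrix.cons_val_fin_one] at this
    have h2 : ‖(!₂[1, 0] : E)‖ ^ 2 = 1 ^ 2 := by rw [this]; norm_num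
    exact (sq_eq_sq₀ (norm_nonneg _) zero_le_one).1 h2
  · rw [norm_smul, norm_inv, norm_norm, inv_mul_cancel₀ (norm_ne_zero_iff.2 h)]

theorem inner_dir (v : E) : ⟪dir v, v⟫ = ‖v‖ := by
  unfold dir
  split_ifs with h
  · simp [h]
  · rw [real_inner_smul_left, real_inner_self_eq_norm_sq]
    field_simp

theorem norm_nref (g : E → E) (k : ℤ) (X : ℤ × ℤ) : ‖nref g k X‖ = 1 := norm_dir _

theorem garb_nonneg {n : E} (hn : ‖n‖ = 1) (v : E) : 0 ≤ garb n v := by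
  have := real_inner_le_norm n v
  rw [hn, one_mul] at this
  unfold garb
  linarith

theorem garb_le {n : E} (hn : ‖n‖ = 1) (v : E) : garb n v ≤ 2 * ‖v‖ := by
  have := abs_real_inner_le_norm n v
  rw [hn, one_mul] at this
  unfold garb
  linarith [neg_abs_le ⟪n, v⟫]

end Crest.Agent.R112
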