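import Crest.Agent.R112.Main
import Crest.Agent.R112.Abs

/-! # Row 112: the main estimate for approximable pairs (task EA) -/

set_option autoImplicit false

namespace Crest.Agent.R112

open MeasureTheory Metric
open scoped RealInnerProductSpace

/-- Stability of the gradient at maximisers.  Every subsequence of `r n ∈ Icc a b` has a further
subsequence converging to some `r*` (`IsCompact.tendsto_subseq`), which maximises `uu f x` (uniform
convergence `uu_sub`, `abs_uu_le`; `continuousOn_uu`), and `GG (gn n) x (r n) → GG g x r* = G`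
(`GG_sub`, `norm_GG_le`, `continuousOn_GG`); `Filter.tendsto_of_subseq_tendsto`. -/
theorem tendsto_GG {f : E → ℝ} {g : E → E} {u : ℕ → E → ℝ} {gn : ℕ → E → E} (hf : Integrable f)
    (hg : Integrable g) (hu : ∀ n, Integrable (u n)) (hgn : ∀ n, Integrable (gn n))
    (h1 : Filter.Tendsto (fun n => ∫ y, |f y - u n y|) Filter.atTop (nhds 0))
    (h2 : Filter.Tendsto (fun n => ∫ y, ‖g y - gn n y‖) Filter.atTop (nhds 0))
    {a b : ℝ} (ha : 0 < a) {x G : E} (hG : ∀ r, IsMx f a b x r → G = GG g x r) {r : ℕ → ℝ}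
    (hr : ∀ n, IsMx (u n) a b x (r n)) :
    Filter.Tendsto (fun n => GG (gn n) x (r n)) Filter.atTop (nhds G) := by
  set K : ℝ := (Real.pi * a ^ 2)⁻¹ with hKdef
  have hK : ∀ s ∈ Set.Icc a b, (Real.pi * s ^ 2)⁻¹ ≤ K := fun s hs =>
    inv_anti₀ (by positivity) (mul_le_mul_of_nonneg_left
      (pow_le_pow_left₀ ha.le hs.1 2) Real.pi_pos.le)
  have hU : ∀ n, ∀ s ∈ Set.Icc a b, |uu f x s - uu (u n) x s| ≤ K * ∫ y, |f y - u n y| :=
    fun n s hs => by
      rw [← uu_sub hf (hu n)]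
      have hi : Integrable fun y => f y - u n y := hf.sub (hu n)
      exact (abs_uu_le hi x (ha.trans_le hs.1)).trans
        (mul_le_mul_of_nonneg_right (hK s hs) (integral_nonneg fun y => abs_nonneg _))
  have hV : ∀ n, ∀ s ∈ Set.Icc a b, ‖GG g x s - GG (gn n) x s‖ ≤ K * ∫ y, ‖g y - gn n y‖ :=
    fun n s hs => by
      rw [← GG_sub hg (hgn n)]
      have hi : Integrable fun y => g y - gn n y := hg.sub (hgn n)
      exact (norm_GG_le hi x (ha.trans_le hs.1)).trans
        (mul_le_mul_of_nonneg_right (hK s hs) (integral_nonneg fun y => norm_nonneg _))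
  refine Filter.tendsto_of_subseq_tendsto fun ns hns => ?_
  obtain ⟨rs, hrs, ms, hms, hlim⟩ := isCompact_Icc.tendsto_subseq (fun n => (hr (ns n)).1)
  refine ⟨ms, ?_⟩
  have hnm : Filter.Tendsto (fun n => ns (ms n)) Filter.atTop Filter.atTop :=
    hns.comp hms.tendsto_atTop
  have hop : {z : E × ℝ | 0 < z.2} ∈ nhds (x, rs) :=
    (isOpen_lt continuous_const continuous_snd).mem_nhds (ha.trans_le hrs.1)
  have hz : Filter.Tendsto (fun n => (x, r (ns (ms n)))) Filter.atTop (nhds (x, rs)) :=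
    tendsto_const_nhds.prodMk_nhds hlim
  have cu : Filter.Tendsto (fun n => uu f x (r (ns (ms n)))) Filter.atTop (nhds (uu f x rs)) := by
    have := ((continuousOn_uu hf).continuousAt hop).tendsto.comp hz
    simpa only [Function.comp_def] using this
  have cG : Filter.Tendsto (fun n => GG g x (r (ns (ms n)))) Filter.atTop (nhds (GG g x rs)) := by
    have := ((continuousOn_GG hg).continuousAt hop).tendsto.comp hz
    simpa only [Function.comp_def] using this
  have hmx : IsMx f a b x rs := ⟨hrs, fun s hs => by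
    have l1 := cu.add ((h1.comp hnm).const_mul (2 * K))
    rw [mul_zero, add_zero] at l1
    refine ge_of_tendsto' l1 fun n => ?_
    have e1 := abs_le.1 (hU (ns (ms n)) s hs)
    have e2 := abs_le.1 (hU (ns (ms n)) _ (hr (ns (ms n))).1)
    have e3 := (hr (ns (ms n))).2 s hs
    simp only [Function.comp]
    linarith [e1.2, e2.1]⟩
  rw [hG rs hmx]
  have l2 : Filter.Tendsto (fun n => GG g x (r (ns (ms n))) - GG (gn (ns (ms n))) x (r (ns (ms n))))
      Filter.atTop (nhds 0) := by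
    have l3 := (h2.comp hnm).const_mul K
    rw [mul_zero] at l3
    exact squeeze_zero_norm (fun n => hV _ _ (hr (ns (ms n))).1) l3
  simpa using cG.sub l2

/-- `u n` from `Apx.exists_seq`, `B n` from `mainE` with `η = 1/(n+1)`; a.e.
`‖∇ww x‖ = lim ‖GG (∇u n) x (r n)‖ ≤ liminf B n x` (`Apx.ae_gradient_ww`, `exists_isMx`,
`tendsto_GG`); Fatou (`lintegral_liminf_le'`), `measurable_gradient`. -/
theorem EA : ∃ C : ℝ, 0 < C ∧ ∀ (f : E → ℝ) (g : E → E) (k₀ k₁ : ℤ), Apx f g → k₀ ≤ k₁ →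
    Integrable (gradient (ww f (2 ^ k₀) (2 * 2 ^ k₁))) ∧
    ∫ x, ‖gradient (ww f (2 ^ k₀) (2 * 2 ^ k₁)) x‖ ≤ C * ∫ y, ‖g y‖ := by
  obtain ⟨C, hC, hmain⟩ := mainE
  refine ⟨C, hC, fun f g k₀ k₁ h hk => ?_⟩
  have ha : (0 : ℝ) < 2 ^ k₀ := zpow_pos two_pos _
  have hab : (2 : ℝ) ^ k₀ ≤ 2 * 2 ^ k₁ := by
    have h1 : (2 : ℝ) ^ k₀ ≤ 2 ^ k₁ := zpow_le_zpow_right₀ one_le_two hk
    linarith
  obtain ⟨u, hu, h1, h2, -⟩ := h.exists_seq
  choose B hBi hB0 hBle hB using fun n : ℕ =>
    hmain (u n) k₀ k₁ (1 / ((n : ℝ) + 1)) (hu n) hk Nat.one_div_pos_of_nat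
  choose r hr using fun (n : ℕ) (x : E) => exists_isMx (hu n).integrable ha hab x
  set G := gradient (ww f (2 ^ k₀) (2 * 2 ^ k₁)) with hG
  have hpt : ∀ᵐ x, ‖G x‖ₑ ≤ Filter.liminf (fun n => ENNReal.ofReal (B n x)) Filter.atTop := by
    filter_upwards [ae_all_iff.2 hB, h.ae_gradient_ww ha hab] with x hx hx'
    have l1 := tendsto_GG h.fi h.gi (fun n => (hu n).integrable)
      (fun n => (hu n).integrable_grad) h1 h2 ha hx' (fun n => hr n x)
    have l2 := (ENNReal.continuous_ofReal.tendsto _).comp l1.norm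
    rw [← ofReal_norm, ← l2.liminf_eq]
    exact Filter.liminf_le_liminf (Filter.Eventually.of_forall fun n =>
      ENNReal.ofReal_le_ofReal (hx n _ (hr n x)))
  have hlim : Filter.Tendsto (fun n : ℕ => ENNReal.ofReal (C * ((∫ y, ‖g y‖) +
      ∫ y, ‖g y - gradient (u n) y‖) + 1 / ((n : ℝ) + 1))) Filter.atTop
      (nhds (ENNReal.ofReal (C * ∫ y, ‖g y‖))) := by
    refine (ENNReal.continuous_ofReal.tendsto _).comp ?_
    have := ((h2.const_add (∫ y, ‖g y‖)).const_mul C).add
      (tendsto_one_div_add_atTop_nhds_zero_nat (𝕜 := ℝ))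
    simpa using this
  have hfin : ∫⁻ x, ‖G x‖ₑ ≤ ENNReal.ofReal (C * ∫ y, ‖g y‖) := by
    refine (lintegral_mono_ae hpt).trans ((lintegral_liminf_le' fun n =>
      (hBi n).aemeasurable.ennreal_ofReal).trans ?_)
    rw [← hlim.liminf_eq]
    refine Filter.liminf_le_liminf (Filter.Eventually.of_forall fun n => ?_)
    rw [← ofReal_integral_eq_lintegral_ofReal (hBi n) (hB0 n)]
    refine ENNReal.ofReal_le_ofReal ((hBle n).trans ?_)
    have h3 : ∫ y, ‖gradient (u n) y‖ ≤ (∫ y, ‖g y‖) + ∫ y, ‖g y - gradient (u n) y‖ := by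
      have hi : Integrable fun y => ‖g y - gradient (u n) y‖ :=
        (h.gi.sub (hu n).integrable_grad).norm
      rw [← integral_add h.gi.norm hi]
      refine integral_mono (hu n).integrable_grad.norm (h.gi.norm.add hi) fun y => ?_
      have := norm_sub_le (g y) (g y - gradient (u n) y)
      rwa [sub_sub_cancel] at this
    have := mul_le_mul_of_nonneg_left h3 hC.le
    linarith
  have hGi : Integrable G :=
    ⟨(measurable_gradient _).aestronglyMeasurable, hfin.trans_lt ENNReal.ofReal_lt_top⟩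
  refine ⟨hGi, ?_⟩
  rw [integral_norm_eq_lintegral_enorm hGi.1]
  exact ENNReal.toReal_le_of_le_ofReal
    (mul_nonneg hC.le (integral_nonneg fun y => norm_nonneg _)) hfin

end Crest.Agent.R112
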