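import Crest.Agent.R112.Avg

/-! # Row 112: the maximal function as a limit (task FINA) -/

set_option autoImplicit false

namespace Crest.Agent.R112

open MeasureTheory Metric
open scoped RealInnerProductSpace

/-- truncated maximal functions -/
noncomputable def mm (f : E → ℝ) (n : ℕ) : E → ℝ := ww f (2 ^ (-(n : ℤ))) (2 * 2 ^ (n : ℤ))

theorem fa_pos (n : ℕ) : (0 : ℝ) < 2 ^ (-(n : ℤ)) := by positivity

theorem fa_anti {n m : ℕ} (h : n ≤ m) : (2 : ℝ) ^ (-(m : ℤ)) ≤ 2 ^ (-(n : ℤ)) :=
  zpow_le_zpow_right₀ one_le_two (by omega)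

theorem fa_mono {n m : ℕ} (h : n ≤ m) : 2 * (2 : ℝ) ^ (n : ℤ) ≤ 2 * 2 ^ (m : ℤ) :=
  mul_le_mul_of_nonneg_left (zpow_le_zpow_right₀ one_le_two (by omega)) two_pos.le

theorem fa_le (n : ℕ) : (2 : ℝ) ^ (-(n : ℤ)) ≤ 2 * 2 ^ (n : ℤ) := by
  have h1 : (2 : ℝ) ^ (-(n : ℤ)) ≤ 2 ^ (n : ℤ) := zpow_le_zpow_right₀ one_le_two (by omega)
  have h2 : (0 : ℝ) < 2 ^ (n : ℤ) := by positivity
  linarith

theorem fa_exists {r : ℝ} (hr : 0 < r) :
    ∃ n : ℕ, r ∈ Set.Icc ((2 : ℝ) ^ (-(n : ℤ))) (2 * 2 ^ (n : ℤ)) := by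
  obtain ⟨n, hn⟩ := pow_unbounded_of_one_lt (max r r⁻¹) (one_lt_two (α := ℝ))
  have h1 := (le_max_left _ _).trans_lt hn
  have h2 := (le_max_right _ _).trans_lt hn
  have h3 : (0 : ℝ) < 2 ^ n := by positivity
  refine ⟨n, ?_, ?_⟩
  · rw [zpow_neg, zpow_natCast]
    exact inv_le_of_inv_le₀ hr h2.le
  · rw [zpow_natCast]; linarith

theorem fa_uu_nonneg {f : E → ℝ} (h0 : ∀ y, 0 ≤ f y) (x : E) (r : ℝ) : 0 ≤ uu f x r :=
  mul_nonneg (by positivity) (integral_nonneg h0)

theorem mm_mono {f : E → ℝ} (hf : Integrable f) (x : E) : Monotone fun n => mm f n x := by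
  intro n m h
  obtain ⟨r, hr⟩ := exists_isMx hf (fa_pos n) (fa_le n) x
  show ww f _ _ x ≤ ww f _ _ x
  rw [hr.ww_eq]
  exact uu_le_ww hf (fa_pos m) x ⟨(fa_anti h).trans hr.1.1, hr.1.2.trans (fa_mono h)⟩

theorem mm_nonneg {f : E → ℝ} (hf : Integrable f) (h0 : ∀ y, 0 ≤ f y) (n : ℕ) (x : E) :
    0 ≤ mm f n x :=
  (fa_uu_nonneg h0 x _).trans (uu_le_ww hf (fa_pos n) x ⟨le_rfl, fa_le n⟩)

theorem fa_avg {f : E → ℝ} (hf : Integrable f) (x : E) {r : ℝ} (hr : 0 < r) :
    (∫⁻ y in ball x r, ‖f y‖ₑ) / volume (ball x r) = ENNReal.ofReal (uu (fun y => |f y|) x r) := by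
  rw [← ofReal_integral_norm_eq_lintegral_enorm hf.integrableOn,
    ← ofReal_measureReal (μ := volume) (s := ball x r) measure_ball_lt_top.ne,
    volume_real_ball x hr.le, ← ENNReal.ofReal_div_of_pos (by positivity), uu, div_eq_inv_mul]
  rfl

/-- `(∫⁻ ball ‖f‖ₑ) / vol ball = ofReal (uu |f| x r)` (`ofReal_integral_norm_eq_lintegral_enorm`,
`volume_real_ball`); every `r > 0` lies in some `[2^(-n), 2 * 2^n]`; `exists_isMx`. -/
theorem centred_eq {f : E → ℝ} (hf : Integrable f) (x : E) :
    Crest.AnalysisR.centredMaximalFunction f x =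
      ⨆ n : ℕ, ENNReal.ofReal (mm (fun y => |f y|) n x) := by
  unfold Crest.AnalysisR.centredMaximalFunction
  refine le_antisymm (iSup₂_le fun r hr => ?_) (iSup_le fun n => ?_)
  · obtain ⟨n, hn⟩ := fa_exists hr
    rw [fa_avg hf x hr]
    exact le_iSup_of_le n (ENNReal.ofReal_le_ofReal (uu_le_ww hf.abs (fa_pos n) x hn))
  · obtain ⟨r, hr⟩ := exists_isMx hf.abs (fa_pos n) (fa_le n) x
    have h0 : 0 < r := (fa_pos n).trans_le hr.1.1
    refine le_iSup₂_of_le r h0 ?_
    rw [fa_avg hf x h0, mm, hr.ww_eq]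

/-- the disc integral is a convolution -/
theorem fa_ball {h : E → ℝ} (hh : Integrable h) {σ : ℝ} (hσ : 0 < σ) :
    Integrable (fun x => uu h x σ) ∧ ∫ x, uu h x σ = ∫ y, h y := by
  have hi : Integrable ((ball (0 : E) σ).indicator fun _ => (1 : ℝ)) :=
    (integrable_indicator_iff measurableSet_ball).2 (integrableOn_const measure_ball_lt_top.ne)
  have key : convolution h ((ball (0 : E) σ).indicator fun _ => (1 : ℝ))
      (ContinuousLinearMap.mul ℝ ℝ) volume = fun x => ∫ y in ball x σ, h y := by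
    funext x
    rw [convolution_def, ← integral_indicator measurableSet_ball]
    refine integral_congr_ae (ae_of_all _ fun t => ?_)
    have : x - t ∈ ball (0 : E) σ ↔ t ∈ ball x σ := by
      rw [mem_ball_zero_iff, mem_ball', dist_eq_norm]
    by_cases ht : t ∈ ball x σ
    · simp [Set.indicator_of_mem ht, Set.indicator_of_mem (this.2 ht)]
    · simp [Set.indicator_of_notMem ht, Set.indicator_of_notMem (fun h1 => ht (this.1 h1))]
  have h1 := hh.integrable_convolution (ContinuousLinearMap.mul ℝ ℝ) hi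
  have h2 := integral_convolution (ContinuousLinearMap.mul ℝ ℝ) hh hi
  rw [key] at h1 h2
  refine ⟨h1.const_mul _, ?_⟩
  unfold uu
  rw [integral_const_mul, h2, integral_indicator measurableSet_ball, setIntegral_const,
    volume_real_ball _ hσ.le]
  simp only [ContinuousLinearMap.mul_apply', smul_eq_mul, mul_one]
  have := Real.pi_pos
  field_simp

/-- Tonelli: `∫_x ∫_{ball x σ} h = π σ² ∫ h`.  E.g. `D x = (∫⁻ σ in Ioc 0 1, ofReal (uu h x σ)).toReal`
with `h = ‖g‖`; measurability from `continuousOn_uu`. -/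
theorem exists_radial_dom {h : E → ℝ} (hh : Integrable h) (h0 : ∀ y, 0 ≤ h y) :
    ∃ D : E → ℝ, Integrable D ∧ (∀ x, 0 ≤ D x) ∧
      ∀ᵐ x, ∀ r, 0 < r → r ≤ 1 → ∫ σ in r..1, uu h x σ ≤ D x := by
  have hm : Measurable fun z : E × ℝ => uu h z.1 z.2 :=
    ((measurable_const.mul (measurable_snd.pow_const 2)).inv).mul
      (continuousOn_setIntegral_ball hh).measurable
  have hi : Integrable (fun z : E × ℝ => uu h z.1 z.2)
      ((volume : Measure E).prod (volume.restrict (Set.Ioc (0 : ℝ) 1))) := by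
    refine (integrable_prod_iff' hm.aestronglyMeasurable).2 ⟨?_, ?_⟩
    · filter_upwards [ae_restrict_mem measurableSet_Ioc] with σ hσ
      exact (fa_ball hh hσ.1).1
    · refine (integrable_const (∫ y, h y)).congr ?_
      filter_upwards [ae_restrict_mem measurableSet_Ioc] with σ hσ
      rw [← (fa_ball hh hσ.1).2]
      exact integral_congr_ae (ae_of_all _ fun x => (Real.norm_of_nonneg (fa_uu_nonneg h0 x σ)).symm)
  refine ⟨fun x => ∫ σ in Set.Ioc (0 : ℝ) 1, uu h x σ, hi.integral_prod_left,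
    fun x => integral_nonneg fun σ => fa_uu_nonneg h0 x σ, ?_⟩
  filter_upwards [hi.prod_right_ae] with x hx r hr0 hr1
  rw [intervalIntegral.integral_of_le hr1]
  exact setIntegral_mono_set hx (ae_of_all _ fun σ => fa_uu_nonneg h0 x σ)
    (Set.Ioc_subset_Ioc_left hr0.le).eventuallyLE

/-- for `r ≥ 1` use `abs_uu_le`; for `r ≤ 1` `Apx.radial_le` and `exists_radial_dom` -/
theorem mm_dom {f : E → ℝ} {g : E → E} (h : Apx f g) : ∃ (c : ℝ) (D : E → ℝ), Integrable D ∧
    ∀ᵐ x, ∀ n, mm f n x ≤ c + D x := by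
  obtain ⟨D, hD, hD0, hDa⟩ := exists_radial_dom h.gi.norm (fun y => norm_nonneg _)
  refine ⟨Real.pi⁻¹ * ∫ y, |f y|, D, hD, ?_⟩
  have hI : 0 ≤ ∫ y, |f y| := integral_nonneg fun y => abs_nonneg _
  have big : ∀ x r, 1 ≤ r → uu f x r ≤ Real.pi⁻¹ * ∫ y, |f y| := by
    intro x r hr
    refine (le_abs_self _).trans ((abs_uu_le h.fi x (by linarith)).trans ?_)
    refine mul_le_mul_of_nonneg_right (inv_anti₀ Real.pi_pos ?_) hI
    exact le_mul_of_one_le_right Real.pi_pos.le (one_le_pow₀ hr)
  filter_upwards [hDa] with x hx n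
  obtain ⟨r, hr⟩ := exists_isMx h.fi (fa_pos n) (fa_le n) x
  have h0 : 0 < r := (fa_pos n).trans_le hr.1.1
  rw [mm, hr.ww_eq]
  rcases le_total 1 r with h1 | h1
  · linarith [big x r h1, hD0 x]
  · have h2 := (abs_le.1 (h.radial_le x h0 h1)).1
    linarith [big x 1 le_rfl, hx r h0 h1]

/-- monotone bounded sequences (`tendsto_atTop_ciSup`, `ENNReal.ofReal_iSup`-type argument or
`ENNReal.tendsto_toReal`), `Apx.ww_lip` for measurability, dominated convergence on balls -/
theorem centred_lim {f : E → ℝ} {g' : E → E} (hf : Integrable f) (h : Apx (fun y => |f y|) g') :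
    (∀ᵐ x, Crest.AnalysisR.centredMaximalFunction f x < ⊤) ∧
    LocallyIntegrable (fun x => (Crest.AnalysisR.centredMaximalFunction f x).toReal) ∧
    ∀ R : ℝ, Filter.Tendsto (fun n => ∫ x in closedBall (0 : E) R,
      |mm (fun y => |f y|) n x - (Crest.AnalysisR.centredMaximalFunction f x).toReal|)
      Filter.atTop (nhds 0) := by
  obtain ⟨c, D, hD, hb⟩ := mm_dom h
  have h0 : ∀ n x, 0 ≤ mm (fun y => |f y|) n x := mm_nonneg hf.abs fun y => abs_nonneg _
  have hfin : ∀ᵐ x, Crest.AnalysisR.centredMaximalFunction f x < ⊤ := by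
    filter_upwards [hb] with x hx
    rw [centred_eq hf]
    exact (iSup_le fun n => ENNReal.ofReal_le_ofReal (hx n)).trans_lt ENNReal.ofReal_lt_top
  have hlim : ∀ᵐ x, Filter.Tendsto (fun n => mm (fun y => |f y|) n x) Filter.atTop
      (nhds (Crest.AnalysisR.centredMaximalFunction f x).toReal) := by
    filter_upwards [hfin] with x hx
    have h1 : Filter.Tendsto (fun n => ENNReal.ofReal (mm (fun y => |f y|) n x)) Filter.atTop
        (nhds (Crest.AnalysisR.centredMaximalFunction f x)) := by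
      rw [centred_eq hf]
      exact tendsto_atTop_iSup fun n m hnm => ENNReal.ofReal_le_ofReal (mm_mono hf.abs x hnm)
    exact ((ENNReal.tendsto_toReal hx.ne).comp h1).congr fun n => ENNReal.toReal_ofReal (h0 n x)
  have hc : ∀ n, Continuous (mm (fun y => |f y|) n) := fun n =>
    let ⟨_, hL⟩ := h.ww_lip (fa_pos n) (fa_le n); hL.continuous
  have hms : AEStronglyMeasurable (fun x => (Crest.AnalysisR.centredMaximalFunction f x).toReal) :=
    aestronglyMeasurable_of_tendsto_ae Filter.atTop (fun n => (hc n).aestronglyMeasurable) hlim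
  have hbd : ∀ᵐ x, (Crest.AnalysisR.centredMaximalFunction f x).toReal ≤ c + D x := by
    filter_upwards [hb, hlim] with x hx hx'
    exact le_of_tendsto' hx' hx
  have hloc : LocallyIntegrable fun x => c + D x :=
    (locallyIntegrable_const c).add hD.locallyIntegrable
  refine ⟨hfin, hloc.mono hms ?_, fun R => ?_⟩
  · filter_upwards [hbd] with x hx
    rw [Real.norm_of_nonneg ENNReal.toReal_nonneg]
    exact hx.trans (le_abs_self _)
  · have h1 := tendsto_integral_of_dominated_convergence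
      (μ := volume.restrict (closedBall (0 : E) R))
      (F := fun n x => |mm (fun y => |f y|) n x -
        (Crest.AnalysisR.centredMaximalFunction f x).toReal|) (f := fun _ => 0)
      (fun x => c + D x)
      (fun n => continuous_abs.comp_aestronglyMeasurable
        ((hc n).aestronglyMeasurable.sub hms).restrict)
      (hloc.integrableOn_isCompact (isCompact_closedBall _ _)) (fun n => ?_) ?_
    · simpa using h1
    · refine ae_restrict_of_ae ?_
      filter_upwards [hb, hbd] with x hx hx'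
      rw [Real.norm_eq_abs, abs_abs, abs_le]
      have := h0 n x
      have := hx n
      have := ENNReal.toReal_nonneg (a := Crest.AnalysisR.centredMaximalFunction f x)
      constructor <;> linarith
    · refine ae_restrict_of_ae ?_
      filter_upwards [hlim] with x hx
      simpa using (hx.sub_const (Crest.AnalysisR.centredMaximalFunction f x).toReal).abs

/-- local `L¹` convergence tested against a compactly supported continuous function -/
theorem fa_lim {u : ℕ → E → ℝ} {U : E → ℝ} (hu : ∀ n, LocallyIntegrable (u n))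
    (hU : LocallyIntegrable U)
    (h : ∀ R : ℝ, Filter.Tendsto (fun n => ∫ x in closedBall (0 : E) R, |u n x - U x|)
      Filter.atTop (nhds 0)) {ψ : E → ℝ} (hψ : Continuous ψ) (hc : HasCompactSupport ψ) :
    Filter.Tendsto (fun n => ∫ x, u n x * ψ x) Filter.atTop (nhds (∫ x, U x * ψ x)) := by
  obtain ⟨C, hC⟩ := hc.exists_bound_of_continuous hψ
  obtain ⟨R, hR⟩ := hc.isCompact.isBounded.subset_closedBall (0 : E)
  rw [tendsto_iff_norm_sub_tendsto_zero]
  refine squeeze_zero (fun _ => norm_nonneg _) (fun n => ?_)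
    (by simpa using (h R).const_mul C)
  have i1 : Integrable fun x => u n x * ψ x :=
    (hu n).integrable_smul_right_of_hasCompactSupport hψ hc
  have i2 : Integrable fun x => U x * ψ x := hU.integrable_smul_right_of_hasCompactSupport hψ hc
  have i3 : IntegrableOn (fun x => |u n x - U x|) (closedBall (0 : E) R) :=
    (((hu n).sub hU).integrableOn_isCompact (isCompact_closedBall _ _)).abs
  rw [← integral_sub i1 i2, ← setIntegral_eq_integral_of_forall_compl_eq_zero
    (s := closedBall (0 : E) R) fun x hx => by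
      rw [image_eq_zero_of_notMem_tsupport fun h1 => hx (hR h1)]; simp, ← integral_const_mul]
  refine norm_integral_le_of_norm_le (i3.const_mul C) (ae_of_all _ fun x => ?_)
  rw [← sub_mul, norm_mul, mul_comm]
  exact mul_le_mul_of_nonneg_right (hC x) (abs_nonneg _)

/-- `LipschitzWith.integral_lineDeriv_mul_eq` for `m n` and the test function `φ` (Lipschitz by
`ContDiff.lipschitzWith_of_hasCompactSupport`); `lineDeriv = ⟪gradient, v⟫` a.e.
(`LipschitzWith.ae_differentiableAt`, `DifferentiableAt.lineDeriv_eq_fderiv`); `φ` and `fderiv φ`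
are bounded and vanish off some `closedBall 0 R`; pass to the limit. -/
theorem weak_of_lim {m : ℕ → E → ℝ} {M : E → ℝ} {G : E → E} (hm : ∀ n, ∃ L, LipschitzWith L (m n))
    (hM : LocallyIntegrable M) (hG : Integrable G) (hg : ∀ n, Integrable (gradient (m n)))
    (h1 : ∀ R : ℝ, Filter.Tendsto (fun n => ∫ x in closedBall (0 : E) R, |m n x - M x|)
      Filter.atTop (nhds 0))
    (h2 : ∀ R : ℝ, Filter.Tendsto (fun n => ∫ x in closedBall (0 : E) R, ‖gradient (m n) x - G x‖)
      Filter.atTop (nhds 0)) : Crest.AnalysisR.IsWeakGradient M G := by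
  refine ⟨hM, hG.locallyIntegrable, fun φ hφ hφc v => ?_⟩
  obtain ⟨K, hK⟩ : ∃ K, LipschitzWith K φ :=
    ContDiff.lipschitzWith_of_hasCompactSupport hφc hφ (by simp)
  have hd : Differentiable ℝ φ := hφ.differentiable (by simp)
  have e : ∀ n, ∫ x, m n x * fderiv ℝ φ x v = -∫ x, ⟪gradient (m n) x, v⟫ * φ x := by
    intro n
    obtain ⟨L, hL⟩ := hm n
    have h3 := hL.integral_lineDeriv_mul_eq (μ := volume) hK hφc v
    have h4 : ∫ x, lineDeriv ℝ (m n) x v * φ x = ∫ x, ⟪gradient (m n) x, v⟫ * φ x := by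
      refine integral_congr_ae ?_
      filter_upwards [hL.ae_differentiableAt (μ := volume)] with x hx
      rw [hx.lineDeriv_eq_fderiv, SM_inner_grad]
    rw [← h4, h3, ← integral_neg]
    refine integral_congr_ae (ae_of_all _ fun x => ?_)
    beta_reduce
    rw [(hd x).lineDeriv_eq_fderiv, map_neg]
    ring
  have l1 := fa_lim (fun n => let ⟨_, hL⟩ := hm n; hL.continuous.locallyIntegrable) hM h1
    (ψ := fun x => fderiv ℝ φ x v)
    ((hφ.continuous_fderiv (by simp)).clm_apply continuous_const) (hφc.fderiv_apply ℝ v)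
  have l2 := fa_lim (u := fun n x => ⟪gradient (m n) x, v⟫) (U := fun x => ⟪G x, v⟫)
    (fun n => ((hg n).inner_const v).locallyIntegrable) (hG.inner_const v).locallyIntegrable
    (fun R => squeeze_zero (fun n => integral_nonneg fun x => abs_nonneg _) (fun n => ?_)
      (by simpa using (h2 R).mul_const ‖v‖)) hφ.continuous hφc
  · exact tendsto_nhds_unique l1 (l2.neg.congr fun n => (e n).symm)
  · rw [← integral_mul_const]
    refine integral_mono_of_nonneg (ae_of_all _ fun x => abs_nonneg _)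
      (((hg n).sub hG).norm.mul_const _).integrableOn (ae_of_all _ fun x => ?_)
    beta_reduce
    rw [← inner_sub_left]
    exact abs_real_inner_le_norm _ _

end Crest.Agent.R112
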