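import Crest.Agent.R112.UI
import Crest.Agent.R112.FinA

/-! # Row 112: convergence of the gradients (task FINB) -/

set_option autoImplicit false

namespace Crest.Agent.R112

open MeasureTheory Metric
open scoped RealInnerProductSpace

/-- points where the supremum is attained by a radius in `[2^(-n), 2 * 2^n]` -/
def att (f : E → ℝ) (n : ℕ) : Set E := {x | ∀ j, mm f j x ≤ mm f n x}

/-- If `x ∉ att 0` then `c = mm j x > mm 0 x ≥ 0` for some `j`; take `N ≥ j` with
`‖f‖₁ / (π 4^N) < c`, `2^(-N) ≤ η`, and `j'` with `mm j' x > mm N x`.  For `n ≥ j'` a maximiser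
`r` has `uu x r > mm N x ≥ c`, so `r ∉ [2^(-N), 2 * 2^N]` (`uu_le_ww`) and `r ≤ 2 * 2^N`
(`abs_uu_le`). -/
theorem eventually_small {f : E → ℝ} (hf : Integrable f) (h0 : ∀ y, 0 ≤ f y) {x : E}
    (hx : ∀ n, x ∉ att f n) {η : ℝ} (hη : 0 < η) :
    ∀ᶠ n : ℕ in Filter.atTop, ∀ r, IsMx f (2 ^ (-(n : ℤ))) (2 * 2 ^ (n : ℤ)) x r → r ≤ η := by
  have hx' : ∀ n, ∃ j, mm f n x < mm f j x := fun n => by simpa [att] using hx n
  obtain ⟨j₀, hj₀⟩ := hx' 0
  have hc : 0 < mm f j₀ x := (mm_nonneg hf h0 0 x).trans_lt hj₀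
  have hI : 0 ≤ ∫ y, |f y| := integral_nonneg fun y => abs_nonneg _
  obtain ⟨N₁, hN₁⟩ := pow_unbounded_of_one_lt
    (1 / η + (∫ y, |f y|) / (Real.pi * mm f j₀ x) + 1) (one_lt_two (α := ℝ))
  have hN : 1 / η + (∫ y, |f y|) / (Real.pi * mm f j₀ x) + 1 < 2 ^ (N₁ + j₀) :=
    hN₁.trans_le (pow_le_pow_right₀ one_le_two (Nat.le_add_right _ _))
  obtain ⟨j', hj'⟩ := hx' (N₁ + j₀)
  have h1 : mm f j₀ x ≤ mm f (N₁ + j₀) x := mm_mono hf x (Nat.le_add_left _ _)
  generalize N₁ + j₀ = N at hN hj' h1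
  refine Filter.eventually_atTop.2 ⟨j', fun n hn r hr => ?_⟩
  have h2 : mm f N x < uu f x r := (hj'.trans_le (mm_mono hf x hn)).trans_eq hr.ww_eq
  have hpi := Real.pi_pos
  have h3 : 0 ≤ (∫ y, |f y|) / (Real.pi * mm f j₀ x) := by positivity
  have h4 : 0 < 1 / η := by positivity
  have ht : (0 : ℝ) < 2 ^ N := by positivity
  by_contra h5
  rw [not_le] at h5
  rcases le_or_gt r (2 * 2 ^ (N : ℤ)) with h6 | h6
  · refine absurd (uu_le_ww hf (a := 2 ^ (-(N : ℤ))) (by positivity) x ⟨?_, h6⟩) (not_le.2 h2)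
    rw [zpow_neg, zpow_natCast]
    refine le_trans ?_ h5.le
    rw [inv_le_comm₀ ht hη, ← one_div]
    linarith
  · rw [zpow_natCast] at h6
    have h7 := (le_abs_self _).trans (abs_uu_le hf x (hη.trans h5))
    have h8 : (∫ y, |f y|) / (Real.pi * mm f j₀ x) ≤ r ^ 2 := by nlinarith
    rw [div_le_iff₀ (by positivity)] at h8
    rw [inv_mul_eq_div, le_div_iff₀ (by have := hη.trans h5; positivity)] at h7
    have h9 := mul_lt_mul_of_pos_right (h1.trans_lt h2)
      (show 0 < Real.pi * r ^ 2 by have := hη.trans h5; positivity)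
    linarith

theorem finb_le (n : ℕ) : (2 : ℝ) ^ (-(n : ℤ)) ≤ 2 * 2 ^ (n : ℤ) := by
  have h1 : (2 : ℝ) ^ (-(n : ℤ)) ≤ 2 ^ (n : ℤ) := zpow_le_zpow_right₀ one_le_two (by omega)
  have h2 : (0 : ℝ) < 2 ^ (n : ℤ) := by positivity
  linarith

theorem finb_att_mono {f : E → ℝ} (hf : Integrable f) {j n : ℕ} (h : j ≤ n) :
    att f j ⊆ att f n := fun x hx i => (hx i).trans (mm_mono hf x h)

theorem finb_att_meas {f : E → ℝ} {g : E → E} (h : Apx f g) (n : ℕ) : MeasurableSet (att f n) := by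
  have hc : ∀ j, Continuous (mm f j) := fun j =>
    (h.ww_lip (by positivity) (finb_le j)).choose_spec.continuous
  rw [att, Set.ofPred_forall]
  exact MeasurableSet.iInter fun j => (isClosed_le (hc j) (hc n)).measurableSet

theorem finb_grad {f : E → ℝ} {g : E → E} (h : Apx f g) :
    ∀ᵐ x, ∀ j n, x ∈ att f j → x ∈ att f n → gradient (mm f j) x = gradient (mm f n) x := by
  filter_upwards [ae_all_iff.2 fun n : ℕ => h.ae_gradient_ww (by positivity) (finb_le n)] with x hx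
  have key : ∀ j n, j ≤ n → x ∈ att f j → gradient (mm f j) x = gradient (mm f n) x := by
    intro j n hjn hj
    obtain ⟨r, hr⟩ := exists_isMx h.fi (by positivity) (finb_le j) x
    refine (hx j r hr).trans (hx n r ⟨⟨?_, ?_⟩, fun s hs => ?_⟩).symm
    · exact (zpow_le_zpow_right₀ one_le_two (by omega)).trans hr.1.1
    · exact hr.1.2.trans (mul_le_mul_of_nonneg_left
        (zpow_le_zpow_right₀ one_le_two (by omega)) two_pos.le)
    · exact (uu_le_ww h.fi (by positivity) x hs).trans ((hj n).trans_eq hr.ww_eq)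
  intro j n hj hn
  rcases le_total j n with h1 | h1
  exacts [key j n h1 hj, (key n j h1 hn).symm]

/-- `G x = gradient (mm f (Nat.find _)) x` on `⋃ att n`, `G x = g x` otherwise (measurable:
`Measurable.find`, or `G = lim` of `indicator (att n) (gradient (mm n)) + indicator (⋃ att)ᶜ g`).
* a.e. `x ∈ att n → G x = gradient (mm f n) x` (a maximiser of a level `j` with `x ∈ att j`
  maximises every higher level; `Apx.ae_gradient_ww`, `ae_all_iff`), `att` is monotone and closed;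
* `∫⁻ ‖G‖ ≤ ∫⁻ ‖g‖ + sup_n ∫⁻_{att n} ‖∇ mm n‖ ≤ (C + 1) ‖g‖₁` (`EA`, `lintegral_iSup` /
  `setLIntegral_iUnion_of_directed`);
* given `ε`, `k₁` from `UI`, `k = min k₁ 0`, `η = 2 * 2^k`,
  `Ex n = {x | x ∉ att n ∧ ww f (2^(-n)) η x < mm n x}`.  For `-n ≤ k`, a.e.
  `‖∇mm n - G‖ ≤ ‖∇ww (2^(-n)) η - g‖ + 1_{(att n)ᶜ} ‖g - G‖ + 1_{Ex n} (‖g‖₁/(π η²) + ‖G‖)`
  (`norm_GG_le`), and the last two terms tend to `0` pointwise (`eventually_small`), dominated
  on the ball. -/
theorem exists_G : ∃ C : ℝ, 0 < C ∧ ∀ (f : E → ℝ) (g : E → E), Apx f g → (∀ y, 0 ≤ f y) →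
    ∃ G : E → E, Integrable G ∧ ∫ x, ‖G x‖ ≤ C * (∫ y, ‖g y‖) ∧
      ∀ R : ℝ, Filter.Tendsto (fun n => ∫ x in closedBall (0 : E) R, ‖gradient (mm f n) x - G x‖)
        Filter.atTop (nhds 0) := by
  obtain ⟨C, hC, hE⟩ := EA
  refine ⟨C + 1, by positivity, fun f g h h0 => ?_⟩
  classical
  have hI : 0 ≤ ∫ y, ‖g y‖ := integral_nonneg fun y => norm_nonneg _
  obtain ⟨G, hG1, hG2⟩ : ∃ G : E → E, (∀ᵐ x, ∀ n, x ∈ att f n → G x = gradient (mm f n) x) ∧
      ∀ x, (∀ n, x ∉ att f n) → G x = g x := by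
    refine ⟨fun x => if hx : ∃ n, x ∈ att f n then gradient (mm f hx.choose) x else g x, ?_,
      fun x hx => dif_neg (not_exists.2 hx)⟩
    filter_upwards [finb_grad h] with x hx n hn
    rw [dif_pos ⟨n, hn⟩]
    exact hx _ _ (Exists.choose_spec (⟨n, hn⟩ : ∃ n, x ∈ att f n)) hn
  have hE' : ∀ n : ℕ, Integrable (gradient (mm f n)) ∧
      ∫ x, ‖gradient (mm f n) x‖ ≤ C * ∫ y, ‖g y‖ := fun n => hE f g _ _ h (by omega)
  have hA : MeasurableSet (⋃ n, att f n)ᶜ := (MeasurableSet.iUnion (finb_att_meas h)).compl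
  let Gn : ℕ → E → E := fun n x =>
    (att f n).indicator (gradient (mm f n)) x + (⋃ n, att f n)ᶜ.indicator g x
  have hGn : ∀ n, Integrable (Gn n) := fun n =>
    ((hE' n).1.indicator (finb_att_meas h n)).add (h.gi.indicator hA)
  have hGn' : ∀ n, ∫ x, ‖Gn n x‖ ≤ (C + 1) * ∫ y, ‖g y‖ := fun n => by
    have h1 := integral_mono (hGn n).norm ((hE' n).1.norm.add h.gi.norm) (fun x =>
      (norm_add_le _ _).trans (add_le_add (norm_indicator_le_norm_self _ _)
        (norm_indicator_le_norm_self _ _)))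
    rw [integral_add' (hE' n).1.norm h.gi.norm] at h1
    linarith [(hE' n).2]
  have hlim : ∀ᵐ x, Filter.Tendsto (fun n => Gn n x) Filter.atTop (nhds (G x)) := by
    filter_upwards [hG1] with x hx
    by_cases h1 : ∃ j, x ∈ att f j
    · obtain ⟨j, hj⟩ := h1
      refine tendsto_atTop_of_eventually_const (i₀ := j) fun n hn => ?_
      have h2 := finb_att_mono h.fi hn hj
      simp only [Gn]
      rw [Set.indicator_of_mem h2, Set.indicator_of_notMem
        (Set.notMem_compl_iff.2 (Set.mem_iUnion.2 ⟨j, hj⟩)), add_zero, hx n h2]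
    · rw [not_exists] at h1
      refine tendsto_atTop_of_eventually_const (i₀ := 0) fun n _ => ?_
      simp only [Gn]
      rw [Set.indicator_of_notMem (h1 n), Set.indicator_of_mem (by simpa using h1), zero_add,
        hG2 x h1]
  have hGm : AEStronglyMeasurable G volume :=
    aestronglyMeasurable_of_tendsto_ae _ (fun n => (hGn n).1) hlim
  have hGl : ∫⁻ x, ‖G x‖ₑ ≤ ENNReal.ofReal ((C + 1) * ∫ y, ‖g y‖) := by
    rw [← lintegral_congr_ae (hlim.mono fun x hx => hx.enorm.liminf_eq)]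
    refine (lintegral_liminf_le' fun n => (hGn n).1.enorm).trans
      (Filter.liminf_le_of_frequently_le' (Filter.Frequently.of_forall fun n => ?_))
    rw [← ofReal_integral_norm_eq_lintegral_enorm (hGn n)]
    exact ENNReal.ofReal_le_ofReal (hGn' n)
  have hG : Integrable G := ⟨hGm, hGl.trans_lt ENNReal.ofReal_lt_top⟩
  refine ⟨G, hG, ?_, fun R => ?_⟩
  · rwa [← ofReal_integral_norm_eq_lintegral_enorm hG,
      ENNReal.ofReal_le_ofReal_iff (by positivity)] at hGl
  refine Metric.tendsto_nhds.2 fun ε hε => ?_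
  obtain ⟨k₁, hk₁⟩ := UI h R (half_pos hε)
  obtain ⟨k, hk, hk0⟩ : ∃ k : ℤ, k ≤ k₁ ∧ k ≤ 0 := ⟨min k₁ 0, min_le_left _ _, min_le_right _ _⟩
  have hη : (0 : ℝ) < 2 * 2 ^ k := by positivity
  have hev : ∀ᶠ n : ℕ in Filter.atTop, -(n : ℤ) ≤ k :=
    Filter.eventually_atTop.2 ⟨(-k).toNat, fun n hn => by omega⟩
  let D : ℕ → E → ℝ := fun n x => max 0 (‖gradient (mm f n) x - G x‖ -
    ‖gradient (ww f (2 ^ (-(n : ℤ))) (2 * 2 ^ k)) x - g x‖)
  have hDm : ∀ n, AEStronglyMeasurable (D n) volume := fun n =>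
    (aemeasurable_const.max (((hE' n).1.1.sub hGm).norm.sub
      ((measurable_gradient _).aestronglyMeasurable.sub h.gi.1).norm).aemeasurable).aestronglyMeasurable
  have hae : ∀ᵐ x, ∀ n : ℕ, -(n : ℤ) ≤ k → ∃ r,
      IsMx f (2 ^ (-(n : ℤ))) (2 * 2 ^ (n : ℤ)) x r ∧ gradient (mm f n) x = GG g x r ∧
      (r ≤ 2 * 2 ^ k → gradient (ww f (2 ^ (-(n : ℤ))) (2 * 2 ^ k)) x = GG g x r) := by
    refine ae_all_iff.2 fun n => ?_
    by_cases hn : -(n : ℤ) ≤ k
    · have h1 : (2 : ℝ) ^ (-(n : ℤ)) ≤ 2 * 2 ^ k := by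
        have h1 : (2 : ℝ) ^ (-(n : ℤ)) ≤ 2 ^ k := zpow_le_zpow_right₀ one_le_two hn
        linarith
      filter_upwards [h.ae_gradient_ww (by positivity) (finb_le n),
        h.ae_gradient_ww (by positivity) h1] with x hx hx' _
      obtain ⟨r, hr⟩ := exists_isMx h.fi (by positivity) (finb_le n) x
      exact ⟨r, hr, hx r hr, fun h2 => hx' r (hr.mono le_rfl (mul_le_mul_of_nonneg_left
        (zpow_le_zpow_right₀ one_le_two (by omega)) two_pos.le) ⟨hr.1.1, h2⟩)⟩
    · exact Filter.Eventually.of_forall fun x h1 => absurd h1 hn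
  have hfin : IsFiniteMeasure (volume.restrict (closedBall (0 : E) R)) :=
    isFiniteMeasure_restrict.2 measure_closedBall_lt_top.ne
  have hbi : Integrable (fun x => (Real.pi * (2 * 2 ^ k) ^ 2)⁻¹ * (∫ y, ‖g y‖) + (‖g x‖ + ‖G x‖))
      (volume.restrict (closedBall (0 : E) R)) :=
    (integrable_const _).add (h.gi.norm.add hG.norm).integrableOn
  have hbd : ∀ᶠ n : ℕ in Filter.atTop, ∀ᵐ x ∂(volume.restrict (closedBall (0 : E) R)),
      ‖D n x‖ ≤ (Real.pi * (2 * 2 ^ k) ^ 2)⁻¹ * (∫ y, ‖g y‖) + (‖g x‖ + ‖G x‖) := by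
    filter_upwards [hev] with n hn
    refine ae_restrict_of_ae ?_
    filter_upwards [hae] with x hx
    obtain ⟨r, -, h1, h2⟩ := hx n hn
    have h3 : 0 ≤ (Real.pi * (2 * 2 ^ k) ^ 2)⁻¹ * (∫ y, ‖g y‖) := by positivity
    rw [Real.norm_of_nonneg (le_max_left _ _)]
    refine max_le (by positivity) ?_
    rcases le_or_gt r (2 * 2 ^ k) with h4 | h4
    · rw [h1, h2 h4]
      linarith [norm_sub_le_norm_sub_add_norm_sub (GG g x r) (g x) (G x), norm_sub_le (g x) (G x)]
    · have h5 := (norm_GG_le h.gi x (hη.trans h4)).trans (mul_le_mul_of_nonneg_right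
        (inv_anti₀ (by positivity) (mul_le_mul_of_nonneg_left (pow_le_pow_left₀ hη.le h4.le 2)
          Real.pi_pos.le)) hI)
      rw [h1]
      linarith [norm_sub_le (GG g x r) (G x), norm_nonneg (g x),
        norm_nonneg (gradient (ww f (2 ^ (-(n : ℤ))) (2 * 2 ^ k)) x - g x)]
  have hD := tendsto_integral_filter_of_dominated_convergence (f := fun _ => (0 : ℝ)) _
    (Filter.Eventually.of_forall fun n => (hDm n).restrict) hbd hbi (by
      refine ae_restrict_of_ae ?_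
      filter_upwards [hae, hG1] with x hx hx'
      refine tendsto_const_nhds.congr' ?_
      by_cases h1 : ∃ j, x ∈ att f j
      · obtain ⟨j, hj⟩ := h1
        filter_upwards [Filter.eventually_ge_atTop j] with n hn
        simp only [D]
        rw [hx' n (finb_att_mono h.fi hn hj), sub_self, norm_zero, max_eq_left (by simp)]
      · rw [not_exists] at h1
        filter_upwards [hev, eventually_small h.fi h0 h1 hη] with n hn hn'
        obtain ⟨r, h2, h3, h4⟩ := hx n hn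
        simp only [D]
        rw [h3, h4 (hn' r h2), hG2 x h1, sub_self, max_self])
  rw [integral_zero] at hD
  filter_upwards [hev, hbd, hD.eventually (gt_mem_nhds (half_pos hε))] with n hn h1 h2
  have h3 : Integrable (fun x => ‖gradient (ww f (2 ^ (-(n : ℤ))) (2 * 2 ^ k)) x - g x‖)
      (volume.restrict (closedBall (0 : E) R)) :=
    ((hE f g _ _ h hn).1.sub h.gi).norm.integrableOn
  have h4 : Integrable (D n) (volume.restrict (closedBall (0 : E) R)) :=
    hbi.mono' (hDm n).restrict h1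
  have h5 := integral_mono_of_nonneg (f := fun x => ‖gradient (mm f n) x - G x‖)
    (Filter.Eventually.of_forall fun x => norm_nonneg _) (h3.add h4)
    (Filter.Eventually.of_forall fun x => sub_le_iff_le_add'.1 (le_max_right _ _))
  rw [integral_add' h3 h4] at h5
  rw [Real.dist_0_eq_abs, abs_of_nonneg (integral_nonneg fun x => norm_nonneg _)]
  linarith [hk₁ _ _ hn hk]

end Crest.Agent.R112
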