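import Crest.Agent.R112.Hat

/-! # Row 112: node vectors and losses (task GAM) -/

set_option autoImplicit false

namespace Crest.Agent.R112

open MeasureTheory Metric
open scoped RealInnerProductSpace

variable {g : E → E}

theorem integrable_hat_smul (hg : Integrable g) (j : ℤ) (a : ℤ × ℤ) :
    Integrable fun y => hat j a y • g y := by
  refine Integrable.bdd_smul hg 1 (continuous_hat j a).aestronglyMeasurable
    (Filter.Eventually.of_forall fun y => ?_)
  rw [Real.norm_eq_abs, abs_of_nonneg (hat_nonneg j a y)]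
  exact hat_le_one j a y

theorem inner_Gam (hg : Integrable g) (ξ : E) (j : ℤ) (a : ℤ × ℤ) :
    ⟪ξ, Gam g j a⟫ = ∫ y, hat j a y * ⟪ξ, g y⟫ := by
  unfold Gam
  rw [← integral_inner (integrable_hat_smul hg j a)]
  simp only [real_inner_smul_right]

theorem gam_hasSum_hat (j : ℤ) (y : E) : HasSum (fun a => hat j a y) 1 := by
  rw [← sum_quad_hat j y]
  refine hasSum_sum_of_ne_finset_zero fun a ha => ?_
  by_contra h
  exact ha (mem_quad_of_hat h)

theorem gam_sum_le (hg : Integrable g) (j : ℤ) (s : Finset (ℤ × ℤ)) :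
    ∑ a ∈ s, ‖Gam g j a‖ ≤ ∫ y, ‖g y‖ := by
  calc ∑ a ∈ s, ‖Gam g j a‖ ≤ ∑ a ∈ s, ∫ y, ‖hat j a y • g y‖ :=
        Finset.sum_le_sum fun a _ => norm_integral_le_integral_norm _
    _ = ∫ y, ∑ a ∈ s, ‖hat j a y • g y‖ :=
        (integral_finsetSum _ fun a _ => (integrable_hat_smul hg j a).norm).symm
    _ ≤ ∫ y, ‖g y‖ := by
        refine integral_mono (integrable_finsetSum _ fun a _ => (integrable_hat_smul hg j a).norm)
          hg.norm fun y => ?_
        simp only [norm_smul, Real.norm_eq_abs, abs_of_nonneg (hat_nonneg j _ y),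
          ← Finset.sum_mul]
        exact mul_le_of_le_one_left (norm_nonneg _)
          (sum_le_hasSum s (fun a _ => hat_nonneg j a y) (gam_hasSum_hat j y))

/-- finite sums: `∑_{a ∈ s} ‖Gam a‖ ≤ ∫ (∑_{a ∈ s} hat a) ‖g‖ ≤ ∫ ‖g‖` -/
theorem summable_Gam (hg : Integrable g) (j : ℤ) : Summable fun a => ‖Gam g j a‖ := by
  exact summable_of_sum_le (fun _ => norm_nonneg _) (gam_sum_le hg j)

theorem aa_nonneg (g : E → E) (j : ℤ) : 0 ≤ aa g j := by
  exact tsum_nonneg fun _ => norm_nonneg _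

theorem aa_le (hg : Integrable g) (j : ℤ) : aa g j ≤ ∫ y, ‖g y‖ := by
  exact (summable_Gam hg j).tsum_le_of_sum_le (gam_sum_le hg j)

theorem gam_not_mem {i k : ℤ} {P Y : ℤ × ℤ}
    (h : Y ∉ (finite_hat_pos (i := i) (k := k) P).toFinset) : hat k P (pos i Y) = 0 := by
  simpa using h

theorem gam_tsum_eq (i k : ℤ) (P : ℤ × ℤ) (t : ℤ × ℤ → ℝ) :
    ∑' Y, hat k P (pos i Y) * t Y =
      ∑ Y ∈ (finite_hat_pos (i := i) (k := k) P).toFinset, hat k P (pos i Y) * t Y :=
  tsum_eq_sum fun Y hY => by rw [gam_not_mem hY, zero_mul]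

theorem gam_summable (i k : ℤ) (P : ℤ × ℤ) (t : ℤ × ℤ → ℝ) :
    Summable fun Y => hat k P (pos i Y) * t Y :=
  summable_of_ne_finset_zero (s := (finite_hat_pos (i := i) (k := k) P).toFinset)
    fun Y hY => by rw [gam_not_mem hY, zero_mul]

theorem gam_refine_sum (hg : Integrable g) {i k : ℤ} (hik : i ≤ k) (P : ℤ × ℤ) :
    Gam g k P = ∑ Y ∈ (finite_hat_pos (i := i) (k := k) P).toFinset,
      hat k P (pos i Y) • Gam g i Y := by
  unfold Gam
  simp_rw [← integral_smul]
  rw [← integral_finsetSum (f := fun Y y => hat k P (pos i Y) • hat i Y y • g y) _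
    fun Y _ => (integrable_hat_smul hg i Y).smul (hat k P (pos i Y))]
  refine integral_congr_ae (Filter.Eventually.of_forall fun y => ?_)
  simp only [smul_smul, ← Finset.sum_smul]
  rw [hat_refine hik P y, itp, gam_tsum_eq]

/-- `hat_refine`, `finite_hat_pos` (the sum is finite) -/
theorem Gam_refine (hg : Integrable g) {i k : ℤ} (hik : i ≤ k) (P : ℤ × ℤ) :
    Gam g k P = ∑' Y : ℤ × ℤ, hat k P (pos i Y) • Gam g i Y := by
  rw [gam_refine_sum hg hik P]
  exact (tsum_eq_sum fun Y hY => by rw [gam_not_mem hY, zero_smul]).symm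

theorem gam_inner_refine (hg : Integrable g) {i k : ℤ} (hik : i ≤ k) (e : E) (P : ℤ × ℤ) :
    ⟪e, Gam g k P⟫ = ∑' Y : ℤ × ℤ, hat k P (pos i Y) * ⟪e, Gam g i Y⟫ := by
  rw [gam_tsum_eq, gam_refine_sum hg hik P, inner_sum]
  simp only [real_inner_smul_right]

/-- Exchange of the sums over children and parents (the double family is summable:
`summable_prod_of_nonneg` with `∑_P hat k P (pos i Z) = 1`). -/
theorem exch (i k : ℤ) {t F : ℤ × ℤ → ℝ} (ht : Summable t) {B : ℝ} (hF : ∀ P, |F P| ≤ B) :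
    Summable (fun Z => itp k F (pos i Z) * t Z) ∧
    Summable (fun P => F P * ∑' Z, hat k P (pos i Z) * t Z) ∧
    ∑' Z, itp k F (pos i Z) * t Z = ∑' P, F P * ∑' Z, hat k P (pos i Z) * t Z := by
  have hB : 0 ≤ B := (abs_nonneg _).trans (hF 0)
  have h0 : Summable fun q : (ℤ × ℤ) × (ℤ × ℤ) => hat k q.2 (pos i q.1) * (B * |t q.1|) := by
    rw [summable_prod_of_nonneg fun q => mul_nonneg (hat_nonneg _ _ _) (by positivity)]
    refine ⟨fun Z => ((gam_hasSum_hat k (pos i Z)).mul_right (B * |t Z|)).summable, ?_⟩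
    simp only [tsum_mul_right, tsum_hat, one_mul]
    exact ht.abs.mul_left B
  have h1 : Summable fun q : (ℤ × ℤ) × (ℤ × ℤ) => F q.2 * hat k q.2 (pos i q.1) * t q.1 := by
    refine Summable.of_norm_bounded h0 fun q => ?_
    rw [Real.norm_eq_abs, abs_mul, abs_mul, abs_of_nonneg (hat_nonneg _ _ _)]
    have := mul_le_mul_of_nonneg_right (hF q.2)
      (mul_nonneg (hat_nonneg k q.2 (pos i q.1)) (abs_nonneg (t q.1)))
    linarith
  have e1 : ∀ Z, ∑' P, F P * hat k P (pos i Z) * t Z = itp k F (pos i Z) * t Z := fun Z => by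
    rw [tsum_mul_right]; rfl
  have e2 : ∀ P, ∑' Z, F P * hat k P (pos i Z) * t Z = F P * ∑' Z, hat k P (pos i Z) * t Z :=
    fun P => by simp only [mul_assoc, tsum_mul_left]
  refine ⟨?_, ?_, ?_⟩
  · simpa only [e1] using h1.prod
  · simpa only [Prod.fst_swap, Prod.snd_swap, e2] using h1.prod_symm.prod
  · have := Summable.tsum_comm (f := fun Z P => F P * hat k P (pos i Z) * t Z) h1
    simp only [e1, e2] at this
    exact this.symm

/-- cumulative loss of the node `P` of level `k` at resolution `i` -/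
noncomputable def CL (g : E → E) (k : ℤ) (P : ℤ × ℤ) (i : ℤ) : ℝ :=
  ∑' Y : ℤ × ℤ, hat k P (pos i Y) * ‖Gam g i Y‖ - ‖Gam g k P‖

theorem CL_eq (hg : Integrable g) {i k : ℤ} (hik : i ≤ k) (P : ℤ × ℤ) :
    CL g k P i = ∑' Y : ℤ × ℤ, hat k P (pos i Y) * garb (dir (Gam g k P)) (Gam g i Y) := by
  unfold CL garb
  simp only [mul_sub]
  rw [(gam_summable i k P _).tsum_sub (gam_summable i k P _), ← gam_inner_refine hg hik, inner_dir]

theorem CL_nonneg (hg : Integrable g) {i k : ℤ} (hik : i ≤ k) (P : ℤ × ℤ) : 0 ≤ CL g k P i := by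
  rw [CL_eq hg hik]
  exact tsum_nonneg fun Y => mul_nonneg (hat_nonneg _ _ _) (garb_nonneg (norm_dir _) _)

/-- `exch` with `F = 1` -/
theorem hasSum_CL (hg : Integrable g) {i k : ℤ} (hik : i ≤ k) :
    HasSum (fun P => CL g k P i) (aa g i - aa g k) := by
  obtain ⟨-, h2, h3⟩ := exch i k (F := fun _ => 1) (B := 1) (summable_Gam hg i) (by simp)
  have e : ∀ y, itp k (fun _ => 1) y = 1 := fun y => by simp [itp, tsum_hat]
  simp only [e, one_mul] at h2 h3
  unfold CL aa
  rw [h3]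
  exact h2.hasSum.sub (summable_Gam hg k).hasSum

theorem aa_anti (hg : Integrable g) {i k : ℤ} (hik : i ≤ k) : aa g k ≤ aa g i := by
  have := (hasSum_CL hg hik).nonneg fun P => CL_nonneg hg hik P
  linarith

/-- `inner_Gam`/`Gam_refine` + `exch`: linear functionals are conserved -/
theorem tsum_itp_inner (hg : Integrable g) {i k : ℤ} (hik : i ≤ k) (e : E) {F : ℤ × ℤ → ℝ} {B : ℝ}
    (hF : ∀ P, |F P| ≤ B) :
    ∑' Z, itp k F (pos i Z) * ⟪e, Gam g i Z⟫ = ∑' P, F P * ⟪e, Gam g k P⟫ := by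
  have hs : Summable fun Z => ⟪e, Gam g i Z⟫ :=
    Summable.of_norm_bounded ((summable_Gam hg i).mul_left ‖e‖) fun Z =>
      abs_real_inner_le_norm e (Gam g i Z)
  rw [(exch i k hs hF).2.2]
  simp only [← gam_inner_refine hg hik]

/-- `exch`: `∑_Z itp F (Z) ‖Γ Z‖ = ∑_P F P (‖Γ P‖ + CL P)` -/
theorem tsum_itp_norm (hg : Integrable g) {i k : ℤ} (hik : i ≤ k) {F : ℤ × ℤ → ℝ}
    (hF : ∀ P, 0 ≤ F P ∧ F P ≤ 1) :
    ∑' P, F P * ‖Gam g k P‖ ≤ ∑' Z, itp k F (pos i Z) * ‖Gam g i Z‖ ∧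
    ∑' Z, itp k F (pos i Z) * ‖Gam g i Z‖ ≤ ∑' P, F P * ‖Gam g k P‖ + (aa g i - aa g k) := by
  obtain ⟨-, h2, h3⟩ := exch i k (F := F) (B := 1) (summable_Gam hg i) fun P => by
    rw [abs_of_nonneg (hF P).1]; exact (hF P).2
  have hs : Summable fun P => F P * ‖Gam g k P‖ :=
    Summable.of_nonneg_of_le (fun P => mul_nonneg (hF P).1 (norm_nonneg _))
      (fun P => mul_le_of_le_one_left (norm_nonneg _) (hF P).2) (summable_Gam hg k)
  have e : ∀ P, ∑' Z, hat k P (pos i Z) * ‖Gam g i Z‖ = ‖Gam g k P‖ + CL g k P i := fun P => by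
    unfold CL; ring
  rw [h3]
  simp only [e] at h2 ⊢
  constructor
  · refine hs.tsum_le_tsum (fun P => ?_) h2
    exact mul_le_mul_of_nonneg_left (le_add_of_nonneg_right (CL_nonneg hg hik P)) (hF P).1
  · refine hasSum_le (fun P => ?_) h2.hasSum (hs.hasSum.add (hasSum_CL hg hik))
    have := mul_le_of_le_one_left (CL_nonneg hg hik P) (hF P).2
    linarith

theorem loc_nonneg (g : E → E) (k : ℤ) (X : ℤ × ℤ) (i : ℤ) : 0 ≤ loc g k X i := by
  unfold loc
  refine tsum_nonneg fun Y => ?_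
  split_ifs
  · exact garb_nonneg (norm_nref g k X) _
  · exact le_rfl

/-- `hat_up_ge`, `CL_eq` -/
theorem loc_le (hg : Integrable g) {i k : ℤ} (hik : i ≤ k) (X : ℤ × ℤ) :
    loc g k X i ≤ 16 * CL g (k + 5) (up X) i := by
  rw [CL_eq hg (show i ≤ k + 5 by omega), ← tsum_mul_left]
  unfold loc
  have hs := (gam_summable i (k + 5) (up X)
    fun Y => garb (dir (Gam g (k + 5) (up X))) (Gam g i Y)).mul_left 16
  have hle : ∀ Y, (@ite _ (pos i Y ∈ box 8 k X) (Classical.propDecidable _)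
      (garb (nref g k X) (Gam g i Y)) 0) ≤
      16 * (hat (k + 5) (up X) (pos i Y) * garb (dir (Gam g (k + 5) (up X))) (Gam g i Y)) := by
    intro Y
    have h0 := garb_nonneg (norm_nref g k X) (Gam g i Y)
    split_ifs with h
    · have := hat_up_ge h
      change _ ≤ 16 * (_ * garb (nref g k X) (Gam g i Y))
      nlinarith
    · exact mul_nonneg (by norm_num) (mul_nonneg (hat_nonneg _ _ _) h0)
  refine Summable.tsum_le_tsum hle (Summable.of_nonneg_of_le (fun Y => ?_) hle hs) hs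
  split_ifs
  · exact garb_nonneg (norm_nref g k X) _
  · exact le_rfl

/-- the fibres of `up` have `32 * 32` elements (`Finset.sum_fiberwise_of_maps_to`,
`Finset.card_le_card_of_injOn` into `Icc ×ˢ Icc`) -/
theorem sum_loc_le (hg : Integrable g) {i k : ℤ} (hik : i ≤ k) (s : Finset (ℤ × ℤ)) :
    ∑ X ∈ s, loc g k X i ≤ 16384 * (aa g i - aa g (k + 5)) := by
  have hik' : i ≤ k + 5 := by omega
  have hcard : ∀ P : ℤ × ℤ, (s.filter fun X => up X = P).card ≤ 1024 := by
    intro P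
    have : (s.filter fun X => up X = P) ⊆
        Finset.Icc (32 * P.1 - 16) (32 * P.1 + 15) ×ˢ Finset.Icc (32 * P.2 - 16) (32 * P.2 + 15) := by
      intro X hX
      obtain ⟨-, hX⟩ := Finset.mem_filter.1 hX
      rw [← hX]
      simp only [up, Finset.mem_product, Finset.mem_Icc]
      omega
    refine (Finset.card_le_card this).trans ?_
    rw [Finset.card_product, Int.card_Icc, Int.card_Icc,
      show 32 * P.1 + 15 + 1 - (32 * P.1 - 16) = 32 by ring,
      show 32 * P.2 + 15 + 1 - (32 * P.2 - 16) = 32 by ring]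
    decide
  calc ∑ X ∈ s, loc g k X i ≤ ∑ X ∈ s, 16 * CL g (k + 5) (up X) i :=
        Finset.sum_le_sum fun X _ => loc_le hg hik X
    _ = ∑ P ∈ s.image up, (s.filter fun X => up X = P).card • (16 * CL g (k + 5) P i) :=
        Finset.sum_comp (fun P => 16 * CL g (k + 5) P i) up
    _ ≤ ∑ P ∈ s.image up, 16384 * CL g (k + 5) P i := by
        refine Finset.sum_le_sum fun P _ => ?_
        have h1 : ((s.filter fun X => up X = P).card : ℝ) ≤ 1024 := by exact_mod_cast hcard P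
        rw [nsmul_eq_mul]
        nlinarith [CL_nonneg hg hik' P]
    _ ≤ 16384 * (aa g i - aa g (k + 5)) := by
        rw [← Finset.mul_sum]
        exact mul_le_mul_of_nonneg_left
          (sum_le_hasSum _ (fun P _ => CL_nonneg hg hik' P) (hasSum_CL hg hik')) (by norm_num)

end Crest.Agent.R112
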