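import Crest.Agent.R112.Defs

/-! # Row 112: hat functions (task HAT) -/

set_option autoImplicit false

namespace Crest.Agent.R112

open MeasureTheory Metric
open scoped RealInnerProductSpace

theorem hat_tent_nonneg (t : ℝ) : 0 ≤ tent t := le_max_left _ _

theorem hat_tent_le_one (t : ℝ) : tent t ≤ 1 :=
  max_le zero_le_one (by linarith [abs_nonneg t])

theorem hat_tent_lip (s t : ℝ) : |tent s - tent t| ≤ |s - t| := by
  unfold tent
  rw [max_comm 0, max_comm 0]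
  refine (abs_max_sub_max_le_abs _ _ _).trans ?_
  rw [show 1 - |s| - (1 - |t|) = -(|s| - |t|) by ring, abs_neg]
  exact abs_abs_sub_abs_le_abs_sub s t

theorem hat_tent_ne {t : ℝ} : tent t ≠ 0 ↔ |t| < 1 := by
  unfold tent
  constructor
  · intro h
    by_contra h'
    exact h (max_eq_left (by linarith [not_lt.1 h']))
  · intro h
    rw [max_eq_right (by linarith)]
    linarith

theorem hat_tent_zero {t : ℝ} (h : t ≤ -1 ∨ 1 ≤ t) : tent t = 0 := by
  by_contra h'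
  have := abs_lt.1 (hat_tent_ne.1 h')
  rcases h with h | h <;> linarith

theorem hat_tent_neg {t : ℝ} (h1 : -1 ≤ t) (h2 : t ≤ 0) : tent t = 1 + t := by
  unfold tent
  rw [abs_of_nonpos h2, max_eq_right (by linarith)]
  ring

theorem hat_tent_pos {t : ℝ} (h1 : 0 ≤ t) (h2 : t ≤ 1) : tent t = 1 - t := by
  unfold tent
  rw [abs_of_nonneg h1, max_eq_right (by linarith)]

theorem hat_tent_floor (t : ℝ) : tent (t - ⌊t⌋) = 1 - (t - ⌊t⌋) :=
  hat_tent_pos (by linarith [Int.floor_le t]) (by linarith [Int.lt_floor_add_one t])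

theorem hat_tent_floor1 (t : ℝ) : tent (t - (⌊t⌋ + 1)) = t - ⌊t⌋ := by
  rw [hat_tent_neg (by linarith [Int.floor_le t]) (by linarith [Int.lt_floor_add_one t])]
  ring

theorem hat_tent_refine (M b : ℤ) (hM : 0 < M) (t : ℝ) :
    tent (t / M - b) = tent (⌊t⌋ / M - b) * (1 - (t - ⌊t⌋)) +
      tent ((⌊t⌋ + 1) / M - b) * (t - ⌊t⌋) := by
  have hM' : (0 : ℝ) < M := by exact_mod_cast hM
  have h1 := Int.floor_le t
  have h2 := (Int.lt_floor_add_one t).le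
  have lo : ∀ (s : ℝ) (c : ℤ), ((M * (b + c) : ℤ) : ℝ) ≤ s → (c : ℝ) ≤ s / M - b := fun s c h => by
    rw [le_sub_iff_add_le, le_div_iff₀ hM']; push_cast at h; linarith
  have hi : ∀ (s : ℝ) (c : ℤ), s ≤ ((M * (b + c) : ℤ) : ℝ) → s / M - b ≤ (c : ℝ) := fun s c h => by
    rw [sub_le_iff_le_add, div_le_iff₀ hM']; push_cast at h; linarith
  have up : ∀ c : ℤ, ⌊t⌋ < c → (⌊t⌋ : ℝ) + 1 ≤ c := fun c h => by exact_mod_cast h
  have dn : ∀ c : ℤ, c ≤ ⌊t⌋ → (c : ℝ) ≤ ⌊t⌋ := fun c h => by exact_mod_cast h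
  rcases lt_or_ge ⌊t⌋ (M * (b + -1)) with a1 | a1
  · have := up _ a1
    rw [hat_tent_zero (Or.inl (by simpa using hi t (-1) (by linarith))),
      hat_tent_zero (Or.inl (by simpa using hi ⌊t⌋ (-1) (by linarith))),
      hat_tent_zero (Or.inl (by simpa using hi (⌊t⌋ + 1) (-1) (by linarith)))]
    ring
  have b1 := dn _ a1
  rcases lt_or_ge ⌊t⌋ (M * (b + 0)) with a2 | a2
  · have := up _ a2
    rw [hat_tent_neg (by simpa using lo t (-1) (by linarith))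
        (by simpa using hi t 0 (by linarith)),
      hat_tent_neg (by simpa using lo ⌊t⌋ (-1) (by linarith))
        (by simpa using hi ⌊t⌋ 0 (by linarith)),
      hat_tent_neg (by simpa using lo (⌊t⌋ + 1) (-1) (by linarith))
        (by simpa using hi (⌊t⌋ + 1) 0 (by linarith))]
    ring
  have b2 := dn _ a2
  rcases lt_or_ge ⌊t⌋ (M * (b + 1)) with a3 | a3
  · have := up _ a3
    rw [hat_tent_pos (by simpa using lo t 0 (by linarith))
        (by simpa using hi t 1 (by linarith)),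
      hat_tent_pos (by simpa using lo ⌊t⌋ 0 (by linarith))
        (by simpa using hi ⌊t⌋ 1 (by linarith)),
      hat_tent_pos (by simpa using lo (⌊t⌋ + 1) 0 (by linarith))
        (by simpa using hi (⌊t⌋ + 1) 1 (by linarith))]
    ring
  have b3 := dn _ a3
  rw [hat_tent_zero (Or.inr (by simpa using lo t 1 (by linarith))),
    hat_tent_zero (Or.inr (by simpa using lo ⌊t⌋ 1 (by linarith))),
    hat_tent_zero (Or.inr (by simpa using lo (⌊t⌋ + 1) 1 (by linarith)))]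
  ring

theorem hat_two_pos (j : ℤ) : (0 : ℝ) < 2 ^ j := zpow_pos two_pos j

theorem hat_nonneg (j : ℤ) (a : ℤ × ℤ) (y : E) : 0 ≤ hat j a y := by
  exact mul_nonneg (hat_tent_nonneg _) (hat_tent_nonneg _)

theorem hat_le_one (j : ℤ) (a : ℤ × ℤ) (y : E) : hat j a y ≤ 1 := by
  exact mul_le_one₀ (hat_tent_le_one _) (hat_tent_nonneg _) (hat_tent_le_one _)

theorem continuous_hat (j : ℤ) (a : ℤ × ℤ) : Continuous (hat j a) := by
  unfold hat tent
  fun_prop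

/-- `tent` is `1`-Lipschitz with values in `[0,1]`; `|y i - z i| ≤ ‖y - z‖`. -/
theorem hat_lip (j : ℤ) (a : ℤ × ℤ) (y z : E) :
    |hat j a y - hat j a z| ≤ 2 / 2 ^ j * ‖y - z‖ := by
  have h2 := hat_two_pos j
  have k : ∀ (i : Fin 2) (c : ℝ), |tent (y i / 2 ^ j - c) - tent (z i / 2 ^ j - c)| ≤
      1 / 2 ^ j * ‖y - z‖ := fun i c => by
    refine (hat_tent_lip _ _).trans ?_
    rw [sub_sub_sub_cancel_right, ← sub_div, abs_div, abs_of_pos h2, one_div_mul_eq_div]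
    exact div_le_div_of_nonneg_right (abs_apply_le (y - z) i) h2.le
  have e : hat j a y - hat j a z =
      (tent (y 0 / 2 ^ j - a.1) - tent (z 0 / 2 ^ j - a.1)) * tent (y 1 / 2 ^ j - a.2) +
      tent (z 0 / 2 ^ j - a.1) * (tent (y 1 / 2 ^ j - a.2) - tent (z 1 / 2 ^ j - a.2)) := by
    unfold hat; ring
  rw [e]
  refine (abs_add_le _ _).trans ?_
  rw [abs_mul, abs_mul, abs_of_nonneg (hat_tent_nonneg _), abs_of_nonneg (hat_tent_nonneg _)]
  have a1 := mul_le_mul (k 0 a.1) (hat_tent_le_one (y 1 / 2 ^ j - a.2)) (hat_tent_nonneg _)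
    (by positivity)
  have a2 := mul_le_mul (hat_tent_le_one (z 0 / 2 ^ j - a.1)) (k 1 a.2) (abs_nonneg _) zero_le_one
  have : 2 / 2 ^ j * ‖y - z‖ = 1 / 2 ^ j * ‖y - z‖ * 1 + 1 * (1 / 2 ^ j * ‖y - z‖) := by ring
  linarith

theorem hat_ne_zero_iff {j : ℤ} {a : ℤ × ℤ} {y : E} :
    hat j a y ≠ 0 ↔ |y 0 / 2 ^ j - a.1| < 1 ∧ |y 1 / 2 ^ j - a.2| < 1 := by
  unfold hat
  rw [mul_ne_zero_iff, hat_tent_ne, hat_tent_ne]

theorem mem_box_of_hat {j : ℤ} {a : ℤ × ℤ} {y : E} (h : hat j a y ≠ 0) : y ∈ box 1 j a := by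
  have h2 := hat_two_pos j
  have k : ∀ t c : ℝ, |t / 2 ^ j - c| < 1 → |t - 2 ^ j * c| ≤ 1 * 2 ^ j := fun t c h => by
    have e : t - 2 ^ j * c = (t / 2 ^ j - c) * 2 ^ j := by field_simp
    rw [e, abs_mul, abs_of_pos h2]
    exact mul_le_mul_of_nonneg_right h.le h2.le
  obtain ⟨h0, h1⟩ := hat_ne_zero_iff.1 h
  exact ⟨k _ _ h0, k _ _ h1⟩

theorem norm_sub_pos_le {j : ℤ} {a : ℤ × ℤ} {y : E} (h : hat j a y ≠ 0) :
    ‖y - pos j a‖ ≤ 2 * 2 ^ j := by
  obtain ⟨h0, h1⟩ := mem_box_of_hat h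
  refine (norm_le_E _).trans ?_
  simp only [PiLp.sub_apply, pos_zero_apply, pos_one_apply]
  linarith

/-- the four nodes around `y` -/
noncomputable def quad (j : ℤ) (y : E) : Finset (ℤ × ℤ) :=
  Finset.Icc ⌊y 0 / 2 ^ j⌋ (⌊y 0 / 2 ^ j⌋ + 1) ×ˢ Finset.Icc ⌊y 1 / 2 ^ j⌋ (⌊y 1 / 2 ^ j⌋ + 1)

theorem card_quad (j : ℤ) (y : E) : (quad j y).card = 4 := by
  simp only [quad, Finset.card_product, Int.card_Icc]
  have : ∀ n : ℤ, (n + 1 + 1 - n).toNat = 2 := fun n => by omega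
  rw [this, this]

theorem mem_quad_of_hat {j : ℤ} {a : ℤ × ℤ} {y : E} (h : hat j a y ≠ 0) : a ∈ quad j y := by
  have k : ∀ (t : ℝ) (c : ℤ), |t - c| < 1 → c ∈ Finset.Icc ⌊t⌋ (⌊t⌋ + 1) := fun t c h => by
    have := abs_lt.1 h
    have h1 : ⌊t⌋ < c + 1 := Int.floor_lt.2 (by push_cast; linarith)
    have h2 : c - 1 ≤ ⌊t⌋ := Int.le_floor.2 (by push_cast; linarith)
    rw [Finset.mem_Icc]
    omega
  obtain ⟨h0, h1⟩ := hat_ne_zero_iff.1 h
  exact Finset.mem_product.2 ⟨k _ _ h0, k _ _ h1⟩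

theorem hat_sum_quad (j : ℤ) (y : E) (F : ℤ × ℤ → ℝ) :
    ∑ a ∈ quad j y, F a * hat j a y =
      F (⌊y 0 / 2 ^ j⌋, ⌊y 1 / 2 ^ j⌋) *
        ((1 - (y 0 / 2 ^ j - ⌊y 0 / 2 ^ j⌋)) * (1 - (y 1 / 2 ^ j - ⌊y 1 / 2 ^ j⌋))) +
      F (⌊y 0 / 2 ^ j⌋, ⌊y 1 / 2 ^ j⌋ + 1) *
        ((1 - (y 0 / 2 ^ j - ⌊y 0 / 2 ^ j⌋)) * (y 1 / 2 ^ j - ⌊y 1 / 2 ^ j⌋)) +
      (F (⌊y 0 / 2 ^ j⌋ + 1, ⌊y 1 / 2 ^ j⌋) *
        ((y 0 / 2 ^ j - ⌊y 0 / 2 ^ j⌋) * (1 - (y 1 / 2 ^ j - ⌊y 1 / 2 ^ j⌋))) +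
      F (⌊y 0 / 2 ^ j⌋ + 1, ⌊y 1 / 2 ^ j⌋ + 1) *
        ((y 0 / 2 ^ j - ⌊y 0 / 2 ^ j⌋) * (y 1 / 2 ^ j - ⌊y 1 / 2 ^ j⌋))) := by
  have e : ∀ n : ℤ, Finset.Icc n (n + 1) = {n, n + 1} := fun n => by
    ext c; simp only [Finset.mem_Icc, Finset.mem_insert, Finset.mem_singleton]; omega
  have ne : ∀ n : ℤ, n ≠ n + 1 := fun n => by omega
  rw [quad, e, e, Finset.sum_product, Finset.sum_pair (ne _), Finset.sum_pair (ne _),
    Finset.sum_pair (ne _)]
  simp only [hat, Int.cast_add, Int.cast_one, hat_tent_floor, hat_tent_floor1]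

theorem hat_zero_of_notMem {j : ℤ} {a : ℤ × ℤ} {y : E} (h : a ∉ quad j y) : hat j a y = 0 := by
  by_contra h'
  exact h (mem_quad_of_hat h')

theorem hat_summable (k : ℤ) (F : ℤ × ℤ → ℝ) (y : E) : Summable fun P => F P * hat k P y :=
  summable_of_ne_finset_zero (s := quad k y) fun P hP => by rw [hat_zero_of_notMem hP, mul_zero]

/-- partition of unity (1D: `tent (t - ⌊t⌋) + tent (t - ⌊t⌋ - 1) = 1`) -/
theorem sum_quad_hat (j : ℤ) (y : E) : ∑ a ∈ quad j y, hat j a y = 1 := by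
  have := hat_sum_quad j y (fun _ => 1)
  simp only [one_mul] at this
  rw [this]
  ring

theorem tsum_hat (j : ℤ) (y : E) : ∑' a : ℤ × ℤ, hat j a y = 1 := by
  rw [tsum_eq_sum (s := quad j y) fun P hP => hat_zero_of_notMem hP, sum_quad_hat]

theorem itp_eq_sum (k : ℤ) (F : ℤ × ℤ → ℝ) (y : E) :
    itp k F y = ∑ a ∈ quad k y, F a * hat k a y := by
  exact tsum_eq_sum fun P hP => by rw [hat_zero_of_notMem hP, mul_zero]

/-- Refinement: a hat is the interpolation of its values on any finer lattice.  1D: `t ↦ tent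
(t / M - b)` (`M = 2^(k-i)` a positive integer) is affine on each `[c, c + 1]`, `c ∈ ℤ`; or use the
one-step identity `tent (t/2) = tent (t+1)/2 + tent t + tent (t-1)/2` and induction. -/
theorem hat_refine {i k : ℤ} (hik : i ≤ k) (P : ℤ × ℤ) (y : E) :
    hat k P y = itp i (fun Y => hat k P (pos i Y)) y := by
  obtain ⟨m, rfl⟩ : ∃ m : ℕ, k = i + m := ⟨(k - i).toNat, by omega⟩
  have h2 := hat_two_pos i
  have e1 : ∀ t : ℝ, t / 2 ^ (i + m) = t / 2 ^ i / ((2 ^ m : ℤ) : ℝ) := fun t => by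
    rw [zpow_add₀ two_ne_zero, zpow_natCast, div_div]; push_cast; rfl
  have e2 : ∀ t : ℝ, 2 ^ i * t / 2 ^ i = t := fun t => by field_simp
  rw [itp_eq_sum, hat_sum_quad]
  simp only [hat, pos_zero_apply, pos_one_apply, e1, e2, Int.cast_add, Int.cast_one]
  rw [hat_tent_refine (2 ^ m) P.1 (by positivity) (y 0 / 2 ^ i),
    hat_tent_refine (2 ^ m) P.2 (by positivity) (y 1 / 2 ^ i)]
  ring

theorem itp_refine {i k : ℤ} (hik : i ≤ k) (F : ℤ × ℤ → ℝ) (y : E) :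
    itp k F y = itp i (fun Y => itp k F (pos i Y)) y := by
  rw [itp_eq_sum i]
  have e : ∀ P, F P * hat k P y =
      ∑ Y ∈ quad i y, F P * hat k P (pos i Y) * hat i Y y := fun P => by
    rw [hat_refine hik P y, itp_eq_sum, Finset.mul_sum]
    exact Finset.sum_congr rfl fun Y _ => by ring
  unfold itp
  simp only [e]
  rw [Summable.tsum_finsetSum fun Y _ => (hat_summable k F (pos i Y)).mul_right _]
  exact Finset.sum_congr rfl fun Y _ => tsum_mul_right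

/-- `itp` is a convex combination of the values at the nodes with `hat ≠ 0`. -/
theorem itp_mem {k : ℤ} {F : ℤ × ℤ → ℝ} {y : E} {lo hi : ℝ}
    (h : ∀ X, hat k X y ≠ 0 → lo ≤ F X ∧ F X ≤ hi) : lo ≤ itp k F y ∧ itp k F y ≤ hi := by
  rw [itp_eq_sum]
  have e : ∀ c : ℝ, c = ∑ a ∈ quad k y, c * hat k a y := fun c => by
    rw [← Finset.mul_sum, sum_quad_hat, mul_one]
  constructor
  · refine (e lo).le.trans (Finset.sum_le_sum fun a _ => ?_)
    by_cases ha : hat k a y = 0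
    · simp [ha]
    · exact mul_le_mul_of_nonneg_right (h a ha).1 (hat_nonneg _ _ _)
  · refine (Finset.sum_le_sum fun a _ => ?_).trans (e hi).ge
    by_cases ha : hat k a y = 0
    · simp [ha]
    · exact mul_le_mul_of_nonneg_right (h a ha).2 (hat_nonneg _ _ _)

theorem exists_lt_of_itp_lt {k : ℤ} {F : ℤ × ℤ → ℝ} {y : E} {c : ℝ} (h : itp k F y < c) :
    ∃ X, hat k X y ≠ 0 ∧ F X < c := by
  by_contra hc
  push Not at hc
  have := (itp_mem (hi := ∑ a ∈ quad k y, |F a|) fun X hX => ⟨hc X hX, (le_abs_self _).trans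
    (Finset.single_le_sum (f := fun a => |F a|) (fun _ _ => abs_nonneg _)
      (mem_quad_of_hat hX))⟩).1
  linarith

theorem exists_gt_of_lt_itp {k : ℤ} {F : ℤ × ℤ → ℝ} {y : E} {c : ℝ} (h : c < itp k F y) :
    ∃ X, hat k X y ≠ 0 ∧ c < F X := by
  by_contra hc
  push Not at hc
  have := (itp_mem (lo := -∑ a ∈ quad k y, |F a|) fun X hX => ⟨neg_le_of_abs_le
    (Finset.single_le_sum (f := fun a => |F a|) (fun _ _ => abs_nonneg _)
      (mem_quad_of_hat hX)), hc X hX⟩).2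
  linarith

theorem itp_sub_le {k : ℤ} {F F' : ℤ × ℤ → ℝ} {y : E} {w : ℝ}
    (h : ∀ X, hat k X y ≠ 0 → |F X - F' X| ≤ w) : |itp k F y - itp k F' y| ≤ w := by
  have e : itp k F y - itp k F' y = itp k (fun X => F X - F' X) y := by
    simp only [itp_eq_sum, sub_mul, Finset.sum_sub_distrib]
  rw [e]
  exact abs_le.2 (itp_mem fun X hX => abs_le.1 (h X hX))

/-- `itp y - itp z = ∑ (F X - c) (hat X y - hat X z)` over `quad y ∪ quad z` (at most 8 nodes). -/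
theorem itp_lip {k : ℤ} {F : ℤ × ℤ → ℝ} {y z : E} {c w : ℝ} (hw : 0 ≤ w)
    (h : ∀ X, (hat k X y ≠ 0 ∨ hat k X z ≠ 0) → |F X - c| ≤ w) :
    |itp k F y - itp k F z| ≤ 16 * w / 2 ^ k * ‖y - z‖ := by
  have h2 := hat_two_pos k
  have e : ∀ (G : ℤ × ℤ → ℝ) (x : E) (S : Finset (ℤ × ℤ)), quad k x ⊆ S →
      ∑ a ∈ S, G a * hat k a x = itp k G x := fun G x S hS => by
    rw [itp_eq_sum]
    exact (Finset.sum_subset hS fun a _ ha => by rw [hat_zero_of_notMem ha, mul_zero]).symm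
  have e1 : ∀ x, itp k (fun X => F X - c) x = itp k F x - c := fun x => by
    simp only [itp_eq_sum, sub_mul, Finset.sum_sub_distrib, ← Finset.mul_sum, sum_quad_hat, mul_one]
  have e2 : itp k F y - itp k F z =
      ∑ a ∈ quad k y ∪ quad k z, (F a - c) * (hat k a y - hat k a z) := by
    simp only [mul_sub (F _ - c), Finset.sum_sub_distrib]
    rw [e (fun X => F X - c) y _ Finset.subset_union_left,
      e (fun X => F X - c) z _ Finset.subset_union_right, e1, e1]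
    ring
  rw [e2]
  have hb : ∀ a ∈ quad k y ∪ quad k z,
      |(F a - c) * (hat k a y - hat k a z)| ≤ w * (2 / 2 ^ k * ‖y - z‖) := fun a _ => by
    by_cases ha : hat k a y ≠ 0 ∨ hat k a z ≠ 0
    · rw [abs_mul]
      exact mul_le_mul (h a ha) (hat_lip _ _ _ _) (abs_nonneg _) hw
    · push Not at ha
      rw [ha.1, ha.2, sub_zero, mul_zero, abs_zero]
      positivity
  refine (Finset.abs_sum_le_sum_abs _ _).trans ((Finset.sum_le_card_nsmul _ _ _ hb).trans ?_)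
  have hc : ((quad k y ∪ quad k z).card : ℝ) ≤ 8 := by
    have := Finset.card_union_le (quad k y) (quad k z)
    rw [card_quad, card_quad] at this
    exact_mod_cast this
  rw [nsmul_eq_mul]
  calc _ ≤ 8 * (w * (2 / 2 ^ k * ‖y - z‖)) := by gcongr
    _ = _ := by ring

theorem continuous_itp (k : ℤ) {F : ℤ × ℤ → ℝ} {B : ℝ} (hF : ∀ X, |F X| ≤ B) :
    Continuous (itp k F) := by
  have hB : 0 ≤ B := (abs_nonneg _).trans (hF 0)
  have h2 := hat_two_pos k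
  refine (LipschitzWith.of_dist_le_mul (K := ⟨16 * B / 2 ^ k, by positivity⟩) fun y z => ?_).continuous
  rw [Real.dist_eq, dist_eq_norm]
  exact itp_lip (c := 0) hB fun X _ => by simpa using hF X

/-- `|X.i - 32 (up X).i| ≤ 16`, so each coordinate of `y / 2^(k+5) - up X` is at most `3/4`. -/
theorem hat_up_ge {k : ℤ} {X : ℤ × ℤ} {y : E} (h : y ∈ box 8 k X) :
    1 / 16 ≤ hat (k + 5) (up X) y := by
  have h2 := hat_two_pos k
  have key : ∀ (t : ℝ) (c : ℤ), |t - 2 ^ k * (c : ℝ)| ≤ 8 * 2 ^ k →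
      1 / 4 ≤ tent (t / 2 ^ (k + 5) - ((c + 16) / 32 : ℤ)) := fun t c hc => by
    have a1 : (32 : ℝ) * ((c + 16) / 32 : ℤ) ≤ c + 16 := by
      exact_mod_cast (by omega : 32 * ((c + 16) / 32) ≤ c + 16)
    have a2 : (c : ℝ) - 16 ≤ 32 * ((c + 16) / 32 : ℤ) := by
      exact_mod_cast (by omega : c - 16 ≤ 32 * ((c + 16) / 32))
    have e : t / 2 ^ (k + 5) = t / 2 ^ k / 32 := by
      rw [zpow_add₀ two_ne_zero, div_div]; norm_num
    have b := abs_le.1 hc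
    have b1 : t / 2 ^ k ≤ c + 8 := by rw [div_le_iff₀ h2]; linarith
    have b2 : (c : ℝ) - 8 ≤ t / 2 ^ k := by rw [le_div_iff₀ h2]; linarith
    have : |t / 2 ^ k / 32 - ((c + 16) / 32 : ℤ)| ≤ 3 / 4 := by
      rw [abs_le]; constructor <;> linarith
    rw [e]
    exact le_max_of_le_right (by linarith)
  have := mul_le_mul (key _ _ h.1) (key _ _ h.2) (by norm_num) (hat_tent_nonneg _)
  unfold hat up
  linarith

theorem pos_mem_box {C : ℤ} {k : ℤ} {X Z : ℤ × ℤ} : pos k Z ∈ box C k X ↔ Near C Z X := by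
  have h2 := hat_two_pos k
  have key : ∀ a b : ℤ, |2 ^ k * (a : ℝ) - 2 ^ k * (b : ℝ)| ≤ C * 2 ^ k ↔ |a - b| ≤ C := fun a b => by
    rw [← mul_sub, abs_mul, abs_of_pos h2, mul_comm, mul_le_mul_iff_left₀ h2]
    exact_mod_cast Iff.rfl
  exact and_congr (key _ _) (key _ _)

theorem closedBall_subset_box (C : ℝ) (k : ℤ) (X : ℤ × ℤ) :
    closedBall (pos k X) (C * 2 ^ k) ⊆ box C k X := by
  intro y hy
  rw [mem_closedBall, dist_eq_norm] at hy
  exact ⟨(abs_apply_le (y - pos k X) 0).trans hy, (abs_apply_le (y - pos k X) 1).trans hy⟩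

/-- only finitely many nodes of a level lie in a bounded set -/
theorem finite_pos_mem (j : ℤ) {S : Set E} (hS : Bornology.IsBounded S) :
    {a : ℤ × ℤ | pos j a ∈ S}.Finite := by
  have h2 := hat_two_pos j
  obtain ⟨R, hR⟩ := hS.exists_norm_le
  have key : ∀ a : ℤ, |2 ^ j * (a : ℝ)| ≤ R → a ∈ Set.Icc (-⌈R / 2 ^ j⌉) ⌈R / 2 ^ j⌉ := fun a h => by
    rw [abs_mul, abs_of_pos h2, mul_comm, ← le_div_iff₀ h2] at h
    have : ((|a| : ℤ) : ℝ) ≤ (⌈R / 2 ^ j⌉ : ℤ) := by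
      push_cast; exact h.trans (Int.le_ceil _)
    exact abs_le.1 (by exact_mod_cast this)
  refine ((Set.finite_Icc (-⌈R / 2 ^ j⌉) ⌈R / 2 ^ j⌉).prod
    (Set.finite_Icc (-⌈R / 2 ^ j⌉) ⌈R / 2 ^ j⌉)).subset fun a ha => ?_
  exact ⟨key _ ((abs_apply_le (pos j a) 0).trans (hR _ ha)),
    key _ ((abs_apply_le (pos j a) 1).trans (hR _ ha))⟩

theorem finite_hat_pos {i k : ℤ} (P : ℤ × ℤ) : {Y : ℤ × ℤ | hat k P (pos i Y) ≠ 0}.Finite := by
  refine (finite_pos_mem i (isBounded_closedBall (x := pos k P) (r := 2 * 2 ^ k))).subset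
    fun Y hY => ?_
  exact mem_closedBall_iff_norm.2 (norm_sub_pos_le hY)

end Crest.Agent.R112
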