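import Crest.Agent.R112.Trans

/-! # Row 112: the pointwise key lemma (task IND) -/

set_option autoImplicit false

namespace Crest.Agent.R112

open MeasureTheory Metric
open scoped RealInnerProductSpace

theorem ind_low {g : E → E} {n : E} {φ μ : ℕ → Measure E} {V : ℝ} {x : E} {r : ℝ} {e' : E}
    (h : Ctx g n φ μ V x r) (he : ‖e'‖ ≤ 2) (hn : 1 / 200 ≤ ⟪n, e'⟫) (L : ℕ) :
    max ⟪n, Phi g x r L⟫ 0 / 400 - 65000 * SS φ x r L ≤ ⟪e', Phi g x r L⟫ := by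
  have n1 := h.kd.n1
  have nn : ⟪n, n⟫ = 1 := by rw [real_inner_self_eq_norm_sq, n1]; norm_num
  have h1 := (h.lowZ (ξ := e' - (1 / 400 : ℝ) • n) (c := 1 / 400) (B := 3) (by norm_num)
    (by rw [inner_sub_right, real_inner_smul_right, nn]; linarith)
    ((norm_sub_le _ _).trans (by rw [norm_smul, n1]; norm_num; linarith)) (le_refl L)).2
  have h2 := (h.lowZ (ξ := n) (c := 1) (B := 1) one_pos nn.ge n1.le (le_refl L)).2
  rw [inner_sub_left, real_inner_smul_left] at h1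
  have h3 := SS_nonneg φ x r L
  rcases le_total ⟪n, Phi g x r L⟫ 0 with h4 | h4
  · rw [max_eq_right h4]; linarith
  · rw [max_eq_left h4]; linarith

theorem ind_pow_le {a b : ℕ} (h : a ≤ b) : qq ^ b ≤ qq ^ a :=
  pow_le_pow_of_le_one qq_pos.le qq_lt_one.le h

theorem ind_inc {s V M P : ℝ} (hs : 0 < s) (hs1 : s ≤ 1) (hV : 0 < V) (hM : 0 ≤ M)
    (hP : P ≤ M * V / s ^ 2) : s * V + s ^ 4 * (P + V / s) ≤ (M + 2) * (s * V) := by
  have h1 : s ^ 4 * P ≤ s * (M * (s * V)) :=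
    (mul_le_mul_of_nonneg_left hP (by positivity)).trans (le_of_eq (by field_simp))
  have h2 : s ^ 4 * (V / s) = s ^ 2 * (s * V) := by field_simp
  have h3 : 0 < s * V := by positivity
  have h4 : s ^ 2 ≤ 1 := pow_le_one₀ hs.le hs1
  have h5 : 0 ≤ M * (s * V) := by positivity
  rw [mul_add, h2]
  nlinarith

/-- Replace `σ*` by `σ' = max σ* σ₀`.  For every `L`:
`⟪e', Phi L⟫ ≥ (1/400) T_L - C SS L` (`lowZ` for `e' - n/400`) and `T_L ≥ -36 SS L`.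
* If no `l ≥ σ'` is *active* (`b_{l+1} > qq^(l+1) V` and `T_l ≤ V/(qq^l)^2`), `pre_le` with small `η`
  gives `⟪e', Phi L⟫ ≥ -C V/qq^σ'`; let `L → ∞` (`tendsto_Phi`).
* Otherwise let `σ₁` be the first active level, `p₁` good; `pre_le` at `L = σ₁`; `win_le` with
  `L = σ = σ₁`, `ς ⟪e', ν⟫ ≥ 0`, `v = e' + (ς/400) ν`, `b_{σ₁} ≤ SS σ₁` give
  `⟪e', Psi p₁ σ₁⟫ ≥ -C V/qq^σ'`; `‖Psi p₁ σ₁‖ ≤ C V/(qq^σ₁)^2` (`bdZ`, `SS_le`).
  Induction on `L ≥ σ₁ + 1`: there are `σ₁ ≤ σ < L`, `p` with `Good σ p`, `Gap σ L` and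
  `‖Psi p σ - Psi p₁ σ₁‖ ≤ V ∑_{σ₁ ≤ l < σ} C' qq^l` (step: if `b_{L+1}` is significant then
  `T_L ≤ V/(qq^L)^3` by `bnd_le`, so a good `p'` exists at level `L`; `trans_le`).  Finally
  `⟪e', Phi L⟫ = ⟪e', Psi p L⟫ + (ρ_L/r) ⟪e', ν⟫`, `bnd_le`, `tendsto_rho`. -/
theorem kl_pt : ∃ C : ℝ, 0 < C ∧ ∀ {g : E → E} {n : E} {φ μ : ℕ → Measure E} {V : ℝ} {x : E}
    {r : ℝ} {e' : E} {σs : ℕ}, Ctx g n φ μ V x r → ‖e'‖ ≤ 2 → 1 / 200 ≤ ⟪n, e'⟫ →
    (∀ σ, σs ≤ σ → qq ^ (σ + 1) * V < (φ (σ + 1)).real (Ann x r (σ + 1)) →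
      ⟪n, Phi g x r σ⟫ ≤ V / (qq ^ σ) ^ 3 → ∃ p, Good g μ V x r σ p) →
    -(C * V / qq ^ σs) ≤ ⟪e', ∫ y in ball x r, g y⟫ := by
  obtain ⟨Cb, hCb, σb, hb⟩ := bnd_le
  obtain ⟨Ct, hCt, σt, ht⟩ := trans_le
  obtain ⟨Cw, hCw, σw, hw⟩ := win_le
  obtain ⟨Cz, hCz, hz⟩ := bdZ
  obtain ⟨Cs, hCs, hs⟩ := SS_le
  obtain ⟨Cp, hCp, hp⟩ := pre_le
  obtain ⟨η, hη⟩ : ∃ η : ℝ, η = 1 / (800 * (65000 + 2 * Cw)) := ⟨_, rfl⟩
  have hη0 : 0 < η := by rw [hη]; positivity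
  have hη1 : (65000 + 2 * Cw) * η = 1 / 800 := by rw [hη]; field_simp
  obtain ⟨σp, hp⟩ := hp η hη0
  obtain ⟨M, hM⟩ : ∃ M : ℝ, M = Cz * (1 + Cs) + 1 := ⟨_, rfl⟩
  have hM0 : 0 < M := by rw [hM]; positivity
  have hq1 : 0 < 1 - qq := sub_pos.2 qq_lt_one
  obtain ⟨K, hK⟩ : ∃ K : ℝ, K = Ct * (M + 2) / (1 - qq) := ⟨_, rfl⟩
  have hK0 : 0 < K := by rw [hK]; positivity
  have hK1 : K * (1 - qq) = Ct * (M + 2) := by rw [hK]; field_simp
  obtain ⟨N, hN⟩ := exists_pow_lt_of_lt_one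
    (show 0 < 1 / (K + Cb * (M + 1) + 1600 * Cw) by positivity) qq_lt_one
  rw [lt_div_iff₀ (by positivity)] at hN
  obtain ⟨σ₀, hσ₀⟩ : ∃ σ₀, σ₀ = N + σb + σt + σw + σp + 3 := ⟨_, rfl⟩
  have hq := qq_pos
  refine ⟨((65000 + 2 * Cw) * Cp + 4 * Cw + 2 * Cb * (M + 2) + 2) / qq ^ σ₀, by positivity, ?_⟩
  intro g n φ μ V x r e' σs h he hn hG
  have hV := h.V0
  obtain ⟨W, hW⟩ : ∃ W, W = V / qq ^ (σs + σ₀) := ⟨_, rfl⟩
  have hVW : V ≤ W := by
    rw [hW, le_div_iff₀ (by positivity)]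
    exact mul_le_of_le_one_right hV.le (pow_le_one₀ hq.le qq_lt_one.le)
  have e0 : ((65000 + 2 * Cw) * Cp + 4 * Cw + 2 * Cb * (M + 2) + 2) / qq ^ σ₀ * V / qq ^ σs =
      ((65000 + 2 * Cw) * Cp + 4 * Cw + 2 * Cb * (M + 2) + 2) * W := by
    rw [hW, pow_add]; field_simp
  rw [e0]
  have hW0 : 0 < W := hV.trans_le hVW
  have hlim : Filter.Tendsto (fun L => ⟪e', Phi g x r L⟫) Filter.atTop
      (nhds ⟪e', ∫ y in ball x r, g y⟫) := tendsto_const_nhds.inner (tendsto_Phi h.kd.gi x r)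
  have hpre : ∀ L, (∀ l, σs + σ₀ ≤ l → l < L →
      (φ (l + 1)).real (Ann x r (l + 1)) ≤ qq ^ (l + 1) * V ∨ V / (qq ^ l) ^ 2 < ⟪n, Phi g x r l⟫) →
      SS φ x r L ≤ Cp * W + η * max ⟪n, Phi g x r L⟫ 0 := fun L hL => by
    rw [hW, ← mul_div_assoc]
    exact hp h (by omega) hL
  by_cases hact : ∃ l, σs + σ₀ ≤ l ∧ ¬ ((φ (l + 1)).real (Ann x r (l + 1)) ≤ qq ^ (l + 1) * V ∨
      V / (qq ^ l) ^ 2 < ⟪n, Phi g x r l⟫)
  swap
  · refine ge_of_tendsto' hlim (fun L => ?_)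
    have h1 := hpre L (fun l hl _ => by
      by_contra h2
      exact hact ⟨l, hl, h2⟩)
    have h2 := ind_low h he hn L
    have h3 : 0 ≤ max ⟪n, Phi g x r L⟫ 0 := le_max_right _ _
    generalize max ⟪n, Phi g x r L⟫ 0 = T at h1 h2 h3
    have h4 : 0 ≤ Cw * η * T := by positivity
    have h5 : 0 ≤ (2 * Cw * Cp + 4 * Cw + 2 * Cb * (M + 2) + 2) * W := by positivity
    have h6 : (65000 + 2 * Cw) * η * T = 1 / 800 * T := by rw [hη1]
    linarith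
  classical
  obtain ⟨σ₁, hσ₁⟩ : ∃ σ₁, σ₁ = Nat.find hact := ⟨_, rfl⟩
  obtain ⟨a1, a2⟩ := hσ₁ ▸ Nat.find_spec hact
  rw [not_or, not_le, not_lt] at a2
  have a3 := hpre σ₁ (fun l hl hl' => by
    by_contra h2
    exact Nat.find_min hact (hσ₁ ▸ hl') ⟨hl, h2⟩)
  have hsm : ∀ σ, σ₁ ≤ σ → K * qq ^ σ ≤ 1 ∧ Cb * (M + 1) * qq ^ σ ≤ 1 ∧ 1600 * Cw * qq ^ σ ≤ 1 := by
    intro σ hσ
    have h1 : qq ^ σ ≤ qq ^ N := ind_pow_le (by omega)
    have h2 : 0 < qq ^ σ := by positivity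
    have h3 : (K + Cb * (M + 1) + 1600 * Cw) * qq ^ σ ≤ 1 :=
      (mul_le_mul_of_nonneg_left h1 (by positivity)).trans (by linarith)
    have h4 : 0 ≤ K * qq ^ σ := by positivity
    have h5 : 0 ≤ Cb * (M + 1) * qq ^ σ := by positivity
    have h6 : 0 ≤ 1600 * Cw * qq ^ σ := by positivity
    refine ⟨?_, ?_, ?_⟩ <;> linarith
  have hle1 : ∀ σ : ℕ, qq ^ σ ≤ 1 := fun σ => pow_le_one₀ hq.le qq_lt_one.le
  have hs1 : 0 < qq ^ σ₁ := by positivity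
  obtain ⟨p₁, hp₁⟩ := hG σ₁ (by omega) a2.1 (a2.2.trans (div_le_div_of_nonneg_left hV.le
    (by positivity) (pow_le_pow_of_le_one hs1.le (hle1 _) (by norm_num))))
  have hr0 : 0 < r := one_pos.trans_le h.r1
  have hρ : ∀ (σ L : ℕ) (p : E), Good g μ V x r σ p → 3 ≤ σ →
      ‖(rho g x r L / r) • nu x p‖ ≤ |rho g x r L| := by
    intro σ L p hp hσ
    rw [norm_smul, (hp.geom h.r1 hσ).2.1, mul_one, Real.norm_eq_abs, abs_div, abs_of_pos hr0]
    exact div_le_self (abs_nonneg _) h.r1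
  -- the initial value of the potential
  have b1 : -(((65000 + 2 * Cw) * Cp + 4 * Cw) * W) ≤ ⟪e', Psi g x r p₁ σ₁⟫ := by
    have hν := (hp₁.geom h.r1 (by omega)).2.1
    have νν : ⟪nu x p₁, nu x p₁⟫ = 1 := by rw [real_inner_self_eq_norm_sq, hν]; norm_num
    obtain ⟨ς, hς, hς'⟩ : ∃ ς : ℝ, (ς = 1 ∨ ς = -1) ∧ 0 ≤ ς * ⟪e', nu x p₁⟫ := by
      rcases le_total 0 ⟪e', nu x p₁⟫ with h1 | h1
      · exact ⟨1, Or.inl rfl, by linarith⟩
      · exact ⟨-1, Or.inr rfl, by linarith⟩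
    have ςς : ς * ς = 1 := by rcases hς with rfl | rfl <;> norm_num
    have ςa : |ς| = 1 := by rcases hς with rfl | rfl <;> norm_num
    have c1 : |⟪n, nu x p₁⟫| ≤ 1 := by
      simpa [h.kd.n1, hν] using abs_real_inner_le_norm n (nu x p₁)
    have c2 : |⟪e', nu x p₁⟫| ≤ 2 := by
      have := abs_real_inner_le_norm e' (nu x p₁)
      rw [hν] at this; linarith
    have c3 := hw (v := e' + (ς / 400) • nu x p₁) (L := σ₁) h hp₁ ⟨le_rfl, fun l _ _ => by omega⟩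
      (by omega) hς
      ((norm_add_le _ _).trans (by
        rw [norm_smul, hν, Real.norm_eq_abs, abs_div, ςa]; norm_num; linarith))
      (by
        rw [inner_add_right, real_inner_smul_right]
        have := abs_le.1 c1
        rcases hς with rfl | rfl <;> linarith)
      (by rw [inner_add_left, real_inner_smul_left, νν]; linarith)
    have c4 := ind_low h he hn σ₁
    have c5 := h.le_SS σ₁
    have c6 : ς * ⟪e', nu x p₁⟫ / r ≤ 2 := by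
      refine (div_le_self hς' h.r1).trans ((le_abs_self _).trans ?_)
      rw [abs_mul, ςa, one_mul]; exact c2
    have c7 : 0 ≤ ς * ⟪e', nu x p₁⟫ / r := div_nonneg hς' hr0.le
    have c8 : rho g x r σ₁ / r * ⟪e', nu x p₁⟫ = ς * rho g x r σ₁ * (ς * ⟪e', nu x p₁⟫ / r) := by
      linear_combination (-(rho g x r σ₁ * ⟪e', nu x p₁⟫ / r)) * ςς
    rw [Psi, inner_sub_right, real_inner_smul_right, c8]
    have c9 : 0 ≤ max ⟪n, Phi g x r σ₁⟫ 0 := le_max_right _ _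
    have c10 : 0 ≤ (φ σ₁).real (Ann x r σ₁) := measureReal_nonneg
    have c11 := (hsm σ₁ le_rfl).2.2
    have c12 := hle1 σ₁
    generalize max ⟪n, Phi g x r σ₁⟫ 0 = T at a3 c3 c4 c9
    generalize qq ^ σ₁ = s at c3 c11 c12 hs1
    have d1 : s ^ 4 * (T + V / s) ≤ s * T + V := by
      have e1 : s ^ 4 * (T + V / s) = s ^ 3 * (s * T + V) := by field_simp
      rw [e1]
      exact mul_le_of_le_one_left (by positivity) (pow_le_one₀ hs1.le c12)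
    have d2 : s * V ≤ V := mul_le_of_le_one_left hV.le c12
    have d3 : ς * rho g x r σ₁ ≤ Cw * (SS φ x r σ₁ + 2 * W + s * T) :=
      c3.trans (mul_le_mul_of_nonneg_left (by linarith) hCw.le)
    have d4 : 0 ≤ Cw * (SS φ x r σ₁ + 2 * W + s * T) := by
      have := SS_nonneg φ x r σ₁
      positivity
    have d5 := (mul_le_mul_of_nonneg_right d3 c7).trans (mul_le_mul_of_nonneg_left c6 d4)
    have d6 := mul_le_mul_of_nonneg_left a3 (show 0 ≤ 65000 + 2 * Cw by positivity)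
    have d7 : (65000 + 2 * Cw) * η * T = 1 / 800 * T := by rw [hη1]
    have d8 := mul_le_mul_of_nonneg_right c11 c9
    linarith
  have b2 : ‖Psi g x r p₁ σ₁‖ ≤ Cz * (1 + Cs) * V / (qq ^ σ₁) ^ 2 := by
    have c1 := (norm_sub_le _ _).trans (add_le_add (le_refl ‖Phi g x r σ₁‖)
      (hρ σ₁ σ₁ p₁ hp₁ (by omega)))
    have c2 : max ⟪n, Phi g x r σ₁⟫ 0 ≤ V / (qq ^ σ₁) ^ 2 := max_le a2.2 (by positivity)
    have c3 : Cs * V / qq ^ σ₁ ≤ Cs * V / (qq ^ σ₁) ^ 2 :=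
      div_le_div_of_nonneg_left (by positivity) (by positivity)
        (pow_le_of_le_one hs1.le (hle1 _) (by norm_num))
    refine (c1.trans (hz h σ₁)).trans ((mul_le_mul_of_nonneg_left
      (add_le_add c2 (((hs h).1 σ₁).trans c3)) hCz.le).trans (le_of_eq (by ring)))
  have b3 : ∀ σ p, σ₁ ≤ σ → ‖Psi g x r p σ - Psi g x r p₁ σ₁‖ ≤ K * V * (qq ^ σ₁ - qq ^ σ) →
      ‖Psi g x r p σ - Psi g x r p₁ σ₁‖ ≤ V ∧ ‖Psi g x r p σ‖ ≤ M * V / (qq ^ σ) ^ 2 := by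
    intro σ p hσ h1
    have h2 : 0 < qq ^ σ := by positivity
    have h3 : ‖Psi g x r p σ - Psi g x r p₁ σ₁‖ ≤ V := by
      have h4 := mul_le_mul_of_nonneg_right (hsm σ₁ le_rfl).1 hV.le
      have h5 : 0 ≤ K * V * qq ^ σ := by positivity
      linarith
    refine ⟨h3, ?_⟩
    have h4 := norm_le_norm_add_norm_sub' (Psi g x r p σ) (Psi g x r p₁ σ₁)
    have h5 : Cz * (1 + Cs) * V / (qq ^ σ₁) ^ 2 ≤ Cz * (1 + Cs) * V / (qq ^ σ) ^ 2 :=
      div_le_div_of_nonneg_left (by positivity) (by positivity)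
        (pow_le_pow_left₀ h2.le (ind_pow_le hσ) 2)
    have h6 : V ≤ V / (qq ^ σ) ^ 2 := le_div_self hV.le (by positivity) (pow_le_one₀ h2.le (hle1 _))
    have h7 : M * V / (qq ^ σ) ^ 2 = Cz * (1 + Cs) * V / (qq ^ σ) ^ 2 + V / (qq ^ σ) ^ 2 := by
      rw [hM]; ring
    linarith
  have key : ∀ L, σ₁ + 1 ≤ L → ∃ σ p, σ₁ ≤ σ ∧ σ < L ∧ Good g μ V x r σ p ∧ Gap φ V x r σ L ∧
      ‖Psi g x r p σ - Psi g x r p₁ σ₁‖ ≤ K * V * (qq ^ σ₁ - qq ^ σ) := by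
    intro L hL
    induction L, hL using Nat.le_induction with
    | base => exact ⟨σ₁, p₁, le_rfl, by omega, hp₁, ⟨by omega, fun l _ _ => by omega⟩, by simp⟩
    | succ L hL ih =>
      obtain ⟨σ, p, h1, h2, h3, h4, h5⟩ := ih
      rcases le_or_gt ((φ (L + 1)).real (Ann x r (L + 1))) (qq ^ (L + 1) * V) with h6 | h6
      · refine ⟨σ, p, h1, by omega, h3, ⟨by omega, fun l hl hl' => ?_⟩, h5⟩
        rcases Nat.lt_or_ge L l with h7 | h7
        · obtain rfl : l = L + 1 := by omega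
          exact h6
        · exact h4.2 l hl h7
      · have h7 := (b3 σ p h1 h5).2
        have h8 : 0 < qq ^ σ := by positivity
        have h9 : 0 < qq ^ L := by positivity
        have h10 : ⟪n, Phi g x r L⟫ ≤ V / (qq ^ L) ^ 3 := by
          have c1 := (hb h h3 h4 (by omega)).1
          have c2 := le_max_left ⟪n, Phi g x r L⟫ 0
          have c3 := abs_nonneg (rho g x r L)
          have c4 : V / qq ^ σ ≤ V / (qq ^ σ) ^ 2 :=
            div_le_div_of_nonneg_left hV.le (by positivity)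
              (pow_le_of_le_one h8.le (hle1 _) (by norm_num))
          have c5 : V / (qq ^ σ) ^ 2 ≤ V / (qq ^ L) ^ 2 :=
            div_le_div_of_nonneg_left hV.le (by positivity)
              (pow_le_pow_left₀ h9.le (ind_pow_le h2.le) 2)
          have c6 : Cb * (M + 1) ≤ 1 / qq ^ L := (le_div_iff₀ h9).2 (hsm L (by omega)).2.1
          calc ⟪n, Phi g x r L⟫ ≤ Cb * (‖Psi g x r p σ‖ + V / qq ^ σ) := by linarith
            _ ≤ Cb * (M * V / (qq ^ σ) ^ 2 + V / (qq ^ σ) ^ 2) := by gcongr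
            _ = Cb * (M + 1) * (V / (qq ^ σ) ^ 2) := by ring
            _ ≤ 1 / qq ^ L * (V / (qq ^ L) ^ 2) := by gcongr
            _ = V / (qq ^ L) ^ 3 := by field_simp
        obtain ⟨p', hp'⟩ := hG L (by omega) h6 h10
        refine ⟨L, p', by omega, by omega, hp', ⟨by omega, fun l _ _ => by omega⟩, ?_⟩
        have c1 := (ht h h3 h4 hp' (by omega)).trans (mul_le_mul_of_nonneg_left
          (ind_inc h8 (hle1 _) hV hM0.le h7) hCt.le)
        have c2 := norm_sub_le_norm_sub_add_norm_sub (Psi g x r p' L) (Psi g x r p σ)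
          (Psi g x r p₁ σ₁)
        have c3 : qq ^ L ≤ qq ^ σ * qq := by rw [← pow_succ]; exact ind_pow_le h2
        have c4 := mul_le_mul_of_nonneg_left c3 (show 0 ≤ K * V by positivity)
        have c5 : K * (1 - qq) * (qq ^ σ * V) = Ct * (M + 2) * (qq ^ σ * V) := by rw [hK1]
        linarith
  have hlim2 := hlim.add (((tendsto_rho h.kd.gi hp₁.win).abs).const_mul 2)
  rw [abs_zero, mul_zero, add_zero] at hlim2
  refine ge_of_tendsto hlim2 (Filter.eventually_atTop.2 ⟨σ₁ + 1, fun L hL => ?_⟩)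
  obtain ⟨σ, p, h1, h2, h3, h4, h5⟩ := key L hL
  obtain ⟨h6, h7⟩ := b3 σ p h1 h5
  have h8 : 0 < qq ^ σ := by positivity
  have c1 := (hb h h3 h4 (by omega)).2.trans (mul_le_mul_of_nonneg_left
    (ind_inc h8 (hle1 _) hV hM0.le h7) hCb.le)
  have c2 : qq ^ σ * V ≤ W := (mul_le_of_le_one_left hV.le (hle1 _)).trans hVW
  have c3 := mul_le_mul_of_nonneg_left c2 (show 0 ≤ Cb * (M + 2) by positivity)
  have c4 : Phi g x r L = Psi g x r p₁ σ₁ + ((Psi g x r p σ - Psi g x r p₁ σ₁) +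
      (Psi g x r p L - Psi g x r p σ) + (rho g x r L / r) • nu x p) := by
    rw [Psi.eq_1 g x r p L]; abel
  have c5 := hρ σ L p h3 (by omega)
  have c6 := norm_add₃_le (a := Psi g x r p σ - Psi g x r p₁ σ₁)
    (b := Psi g x r p L - Psi g x r p σ) (c := (rho g x r L / r) • nu x p)
  rw [c4, inner_add_right]
  generalize (Psi g x r p σ - Psi g x r p₁ σ₁) + (Psi g x r p L - Psi g x r p σ) +
    (rho g x r L / r) • nu x p = w at c6
  have c7 := (abs_le.1 ((abs_real_inner_le_norm e' w).trans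
    (mul_le_mul_of_nonneg_right he (norm_nonneg w)))).1
  linarith

end Crest.Agent.R112
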