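import Crest.Agent.R112.Bud

/-! # Row 112: positive multilevel decomposition (task LOW) -/

set_option autoImplicit false

namespace Crest.Agent.R112

open MeasureTheory Metric
open scoped RealInnerProductSpace

theorem low_int_hat {g : E → E} (hg : Integrable g) (ξ : E) (i : ℤ) (Y : ℤ × ℤ) :
    Integrable fun y => hat i Y y * ⟪ξ, g y⟫ := by
  have := (integrable_hat_smul hg i Y).const_inner (𝕜 := ℝ) ξ
  simpa [real_inner_smul_right] using this

theorem low_itp_fin {i : ℤ} {F : ℤ × ℤ → ℝ} {s : Finset (ℤ × ℤ)} (hF : ∀ Y, Y ∉ s → F Y = 0)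
    (y : E) : itp i F y = ∑ Y ∈ s, F Y * hat i Y y := by
  unfold itp
  exact tsum_eq_sum fun Y hY => by rw [hF Y hY, zero_mul]

theorem low_int_itp {g : E → E} (hg : Integrable g) (ξ : E) {i : ℤ} {F : ℤ × ℤ → ℝ}
    {s : Finset (ℤ × ℤ)} (hF : ∀ Y, Y ∉ s → F Y = 0) :
    Integrable (fun y => itp i F y * ⟪ξ, g y⟫) ∧
      ∫ y, itp i F y * ⟪ξ, g y⟫ = ∑ Y ∈ s, F Y * ⟪ξ, Gam g i Y⟫ := by
  have e : (fun y => itp i F y * ⟪ξ, g y⟫) =
      fun y => ∑ Y ∈ s, F Y * (hat i Y y * ⟪ξ, g y⟫) := by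
    funext y
    rw [low_itp_fin hF, Finset.sum_mul]
    exact Finset.sum_congr rfl fun Y _ => by ring
  rw [e]
  refine ⟨integrable_finsetSum _ fun Y _ => (low_int_hat hg ξ i Y).const_mul _, ?_⟩
  rw [integral_finsetSum _ fun Y _ => (low_int_hat hg ξ i Y).const_mul _]
  exact Finset.sum_congr rfl fun Y _ => by rw [integral_const_mul, inner_Gam hg]

theorem low_hasSum {g : E → E} (hg : Integrable g) {φ : E → ℝ} {c₀ : ℝ}
    (hφ : ∀ v, 0 ≤ φ v ∧ φ v ≤ c₀ * ‖v‖) (j : ℤ) {S : Set E} (hS : Bornology.IsBounded S) :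
    HasSum (fun m : ℕ => (1 / 2 : ℝ) ^ m *
      ∑ Y ∈ (finite_pos_mem (j - m) hS).toFinset, φ (Gam g (j - m) Y)) ((nm φ g j).real S) := by
  classical
  refine (hasSum_nm hg hφ j S).prod_fiberwise fun m => ?_
  rw [Finset.mul_sum]
  have h1 := hasSum_sum_of_ne_finset_zero (L := SummationFilter.unconditional _)
    (f := fun Y : ℤ × ℤ => if pos (j - m) Y ∈ S then (1 / 2 : ℝ) ^ m * φ (Gam g (j - m) Y) else 0)
    (s := (finite_pos_mem (j - m) hS).toFinset) (fun Y hY => by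
      rw [if_neg]
      simpa using hY)
  have e : ∑ Y ∈ (finite_pos_mem (j - m) hS).toFinset,
      (if pos (j - m) Y ∈ S then (1 / 2 : ℝ) ^ m * φ (Gam g (j - m) Y) else 0) =
      ∑ Y ∈ (finite_pos_mem (j - m) hS).toFinset, (1 / 2 : ℝ) ^ m * φ (Gam g (j - m) Y) :=
    Finset.sum_congr rfl fun Y hY => by
      rw [if_pos]
      simpa using hY
  rw [e] at h1
  convert h1 using 2

theorem low_SL_cont {h : E → ℝ} {a b : ℝ} (hh : SL h a b) : Continuous h := by
  have : LipschitzWith (Real.toNNReal b) h := by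
    refine LipschitzWith.of_dist_le_mul fun y z => ?_
    rw [dist_eq_norm, dist_eq_norm]
    exact (hh.lip y z).trans
      (mul_le_mul_of_nonneg_right (Real.le_coe_toNNReal b) (norm_nonneg _))
  exact this.continuous

theorem low_SL_int {g : E → E} (hg : Integrable g) (ξ : E) {h : E → ℝ} {a b : ℝ}
    (hh : SL h a b) : Integrable fun y => h y * ⟪ξ, g y⟫ :=
  (hg.const_inner (𝕜 := ℝ) ξ).bdd_mul (low_SL_cont hh).aestronglyMeasurable
    (Filter.Eventually.of_forall hh.bd)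

theorem low_near {h : E → ℝ} {H : ℝ} {j : ℤ} (hh : SL h H (H / 2 ^ j)) (n : ℕ) {X : ℤ × ℤ}
    {y : E} (hX : hat (j - n) X y ≠ 0) : |h y - h (pos (j - n) X)| ≤ 2 * (H / 2 ^ n) := by
  have hH : 0 ≤ H := (norm_nonneg _).trans (hh.bd 0)
  have h1 := hh.lip y (pos (j - n) X)
  have h2 := norm_sub_pos_le hX
  have h3 : (0 : ℝ) < 2 ^ j := zpow_pos two_pos _
  rw [Real.norm_eq_abs] at h1
  refine h1.trans ((mul_le_mul_of_nonneg_left h2 (div_nonneg hH h3.le)).trans (le_of_eq ?_))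
  rw [zpow_sub₀ two_ne_zero, zpow_natCast]
  field_simp

/-- Let `L = H / 2^j`, `m i Y = max 0 (h (pos i Y) - 4 L 2^i)` for `i < j` and `i = j`, and
`A i = itp i (m i)` (finite sums: `m i Y ≠ 0 → pos i Y ∈ S`, `finite_pos_mem`).
* `A j = ∑ m j Y hat`, `0 ≤ m j Y ≤ H`;
* `A i - A (i+1) = itp i c` with `c Y = m i Y - A (i+1) (pos i Y)` (`itp_refine`), and
  `0 ≤ c Y ≤ 8 L 2^i`, `c Y ≤ h (pos i Y)` (`itp_mem`: if `hat (i+1) P (pos i Y) ≠ 0` then
  `‖pos i Y - pos (i+1) P‖ ≤ 4 2^i`, so `h P - 8 L 2^i ≤ h Y - 4 L 2^i` and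
  `h Y - 4 L 2^i ≤ h P - 8 L 2^i + 8 L 2^i`);
* `∫ itp i c ⟪ξ, g⟫ = ∑ c Y ⟪ξ, Gam i Y⟫ ≥ - ∑ c Y φ (Gam i Y)` (`inner_Gam`);
* `|A i - h| ≤ 6 L 2^i → 0`, so `∫ A i ⟪ξ,g⟫ → ∫ h ⟪ξ,g⟫`; finite partial sums are bounded by
  `hasSum_nm` (`sum_le_hasSum`). -/
theorem low {g : E → E} (hg : Integrable g) {φ : E → ℝ} {c₀ : ℝ}
    (hφ : ∀ v, 0 ≤ φ v ∧ φ v ≤ c₀ * ‖v‖) (j : ℤ) (h : E → ℝ) (H c : ℝ) (S : Set E) (ξ : E)
    (hc : 0 ≤ c) (hξ : ∀ v, -(c * φ v) ≤ ⟪ξ, v⟫) (h0 : ∀ y, 0 ≤ h y) (hh : SL h H (H / 2 ^ j))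
    (hS : Bornology.IsBounded S) (hs : ∀ y, y ∉ S → h y = 0) :
    -(9 * c * H * (nm φ g j).real S) ≤ ∫ y, h y * ⟪ξ, g y⟫ := by
  have hH : 0 ≤ H := (norm_nonneg _).trans (hh.bd 0)
  have hδ : ∀ n : ℕ, 0 ≤ H / 2 ^ n := fun n => by positivity
  set mm : ℕ → ℤ × ℤ → ℝ := fun n Y => max 0 (h (pos (j - n) Y) - 4 * (H / 2 ^ n)) with hmm
  set s : ℕ → Finset (ℤ × ℤ) := fun n => (finite_pos_mem (j - n) hS).toFinset with hsdef
  set t : ℕ → ℝ := fun n => ∑ Y ∈ s n, φ (Gam g (j - n) Y) with ht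
  have hmem : ∀ n Y, Y ∉ s n → pos (j - n) Y ∉ S := fun n Y hY => by simpa [hsdef] using hY
  have hmm0 : ∀ n Y, Y ∉ s n → mm n Y = 0 := fun n Y hY => by
    simp only [hmm, hs _ (hmem n Y hY)]
    exact max_eq_left (by linarith [hδ n])
  have hA0 : ∀ (n : ℕ) y, 0 ≤ itp (j - n) (mm n) y := fun n y =>
    (itp_mem (lo := 0) (hi := H) fun X _ => ⟨le_max_left _ _, max_le hH (by
      have := hh.bd (pos (j - n) X)
      rw [Real.norm_eq_abs] at this
      linarith [le_abs_self (h (pos (j - n) X)), hδ n])⟩).1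
  have key : ∀ n : ℕ, -(8 * c * H * ∑ m ∈ Finset.range (n + 1), (1 / 2 : ℝ) ^ m * t m) ≤
      ∫ y, itp (j - n) (mm n) y * ⟪ξ, g y⟫ := by
    have ht0 : ∀ n, 0 ≤ t n := fun n => Finset.sum_nonneg fun Y _ => (hφ _).1
    intro n
    induction n with
    | zero =>
      have hz : ∀ Y, Y ∉ (∅ : Finset (ℤ × ℤ)) → mm 0 Y = 0 := fun Y _ => by
        have := hh.bd (pos (j - (0 : ℕ)) Y)
        rw [Real.norm_eq_abs] at this
        simp only [hmm]
        refine max_eq_left ?_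
        have h2 := le_abs_self (h (pos (j - (0 : ℕ)) Y))
        simp only [pow_zero, div_one]
        linarith
      rw [(low_int_itp hg ξ hz).2, Finset.sum_empty]
      have := ht0 0
      simp only [zero_add, Finset.range_one, Finset.sum_singleton, pow_zero, one_mul]
      have : 0 ≤ 8 * c * H * t 0 := by positivity
      linarith
    | succ n ih =>
      set cc : ℤ × ℤ → ℝ := fun Y => mm (n + 1) Y -
        itp (j - n) (mm n) (pos (j - (n + 1 : ℕ)) Y) with hcc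
      have hd : H / 2 ^ n = 2 * (H / 2 ^ (n + 1)) := by rw [pow_succ]; field_simp
      have hb : ∀ Y, 0 ≤ cc Y ∧ cc Y ≤ 8 * (H / 2 ^ (n + 1)) := fun Y => by
        have := itp_mem (k := j - n) (F := mm n) (y := pos (j - (n + 1 : ℕ)) Y)
          (lo := mm (n + 1) Y - 8 * (H / 2 ^ (n + 1))) (hi := mm (n + 1) Y) fun X hX => by
            have h1 := abs_le.1 (low_near hh n hX)
            have h2 := hδ (n + 1)
            simp only [hmm]
            rw [hd] at h1 ⊢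
            constructor
            · rw [sub_le_iff_le_add]
              refine max_le (by positivity) ?_
              linarith [le_max_right 0 (h (pos (j - n) X) - 4 * (2 * (H / 2 ^ (n + 1)))), h1.2]
            · exact max_le_max le_rfl (by linarith [h1.1])
        simp only [hcc]
        constructor <;> linarith [this.1, this.2]
      have hc0 : ∀ Y, Y ∉ s (n + 1) → cc Y = 0 := fun Y hY => by
        refine le_antisymm ?_ (hb Y).1
        simp only [hcc, hmm0 _ _ hY]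
        linarith [hA0 n (pos (j - (n + 1 : ℕ)) Y)]
      have hsplit : ∀ y, itp (j - (n + 1 : ℕ)) (mm (n + 1)) y =
          itp (j - n) (mm n) y + itp (j - (n + 1 : ℕ)) cc y := fun y => by
        rw [itp_refine (i := j - (n + 1 : ℕ)) (k := j - n) (by push_cast; omega) (mm n) y]
        simp only [itp_eq_sum (j - (n + 1 : ℕ)), ← Finset.sum_add_distrib, hcc]
        exact Finset.sum_congr rfl fun Y _ => by ring
      simp only [hsplit, add_mul]
      rw [integral_add (low_int_itp hg ξ (hmm0 n)).1 (low_int_itp hg ξ hc0).1,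
        (low_int_itp hg ξ hc0).2, Finset.sum_range_succ, mul_add, neg_add]
      refine add_le_add ih ?_
      simp only [ht, Finset.mul_sum, ← Finset.sum_neg_distrib]
      refine Finset.sum_le_sum fun Y _ => ?_
      have h1 := hξ (Gam g (j - (n + 1 : ℕ)) Y)
      have h2 := mul_le_mul_of_nonneg_left h1 (hb Y).1
      have h3 := mul_le_mul_of_nonneg_right (hb Y).2
        (mul_nonneg hc (hφ (Gam g (j - (n + 1 : ℕ)) Y)).1)
      have e : 8 * c * H * ((1 / 2 : ℝ) ^ (n + 1) * φ (Gam g (j - (n + 1 : ℕ)) Y)) =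
          8 * (H / 2 ^ (n + 1)) * (c * φ (Gam g (j - (n + 1 : ℕ)) Y)) := by
        rw [one_div_pow]; ring
      rw [e]
      linarith
  have hK : Integrable fun y => |⟪ξ, g y⟫| := (hg.const_inner (𝕜 := ℝ) ξ).abs
  have hN : 0 ≤ (nm φ g j).real S := measureReal_nonneg
  have step : ∀ n : ℕ, -(8 * c * H * (nm φ g j).real S) -
      (6 * H * ∫ y, |⟪ξ, g y⟫|) * (1 / 2 : ℝ) ^ n ≤ ∫ y, h y * ⟪ξ, g y⟫ := fun n => by
    have h1 : ∑ m ∈ Finset.range (n + 1), (1 / 2 : ℝ) ^ m * t m ≤ (nm φ g j).real S :=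
      sum_le_hasSum _ (fun m _ => mul_nonneg (by positivity)
        (Finset.sum_nonneg fun Y _ => (hφ _).1)) (low_hasSum hg hφ j hS)
    have h2 := mul_le_mul_of_nonneg_left h1 (by positivity : 0 ≤ 8 * c * H)
    have h3 : ∫ y, (itp (j - n) (mm n) y * ⟪ξ, g y⟫ - 6 * (H / 2 ^ n) * |⟪ξ, g y⟫|) ≤
        ∫ y, h y * ⟪ξ, g y⟫ := by
      refine integral_mono ((low_int_itp hg ξ (hmm0 n)).1.sub (hK.const_mul _))
        (low_SL_int hg ξ hh) fun y => ?_
      have h4 := itp_mem (k := j - n) (F := mm n) (y := y)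
        (lo := h y - 6 * (H / 2 ^ n)) (hi := h y + 6 * (H / 2 ^ n)) fun X hX => by
          have h1 := abs_le.1 (low_near hh n hX)
          have h2 := hδ n
          simp only [hmm]
          constructor
          · exact le_max_of_le_right (by linarith [h1.2])
          · exact max_le (by linarith [h0 y]) (by linarith [h1.1])
      have h5 : |itp (j - n) (mm n) y - h y| ≤ 6 * (H / 2 ^ n) :=
        abs_le.2 ⟨by linarith [h4.1], by linarith [h4.2]⟩
      have h6 : (itp (j - n) (mm n) y - h y) * ⟪ξ, g y⟫ ≤ 6 * (H / 2 ^ n) * |⟪ξ, g y⟫| :=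
        (le_abs_self _).trans (by
          rw [abs_mul]
          exact mul_le_mul_of_nonneg_right h5 (abs_nonneg _))
      show _ - _ ≤ h y * _
      linarith
    rw [integral_sub (low_int_itp hg ξ (hmm0 n)).1 (hK.const_mul _), integral_const_mul] at h3
    have e : (6 * H * ∫ y, |⟪ξ, g y⟫|) * (1 / 2 : ℝ) ^ n =
        6 * (H / 2 ^ n) * ∫ y, |⟪ξ, g y⟫| := by rw [one_div_pow]; ring
    rw [e]
    linarith [key n]
  have lim : Filter.Tendsto (fun n : ℕ => -(8 * c * H * (nm φ g j).real S) -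
      (6 * H * ∫ y, |⟪ξ, g y⟫|) * (1 / 2 : ℝ) ^ n) Filter.atTop
      (nhds (-(8 * c * H * (nm φ g j).real S) - (6 * H * ∫ y, |⟪ξ, g y⟫|) * 0)) :=
    tendsto_const_nhds.sub ((tendsto_pow_atTop_nhds_zero_of_lt_one (by norm_num)
      (by norm_num)).const_mul _)
  have := le_of_tendsto' lim step
  have h9 : 0 ≤ c * H * (nm φ g j).real S := by positivity
  linarith

/-- `low`, `nm_finite`, `nm_garb_le`, `nm_pred_le` -/
theorem kd_nm {g : E → E} (hg : Integrable g) (hc : Curl g) {n : E} (hn : ‖n‖ = 1) :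
    KD g n (fun m => nm (garb n) g (-(m : ℤ))) (fun m => nm (fun v => ‖v‖) g (-(m : ℤ))) := by
  have h1 : ∀ v, 0 ≤ garb n v ∧ garb n v ≤ 2 * ‖v‖ := fun v => ⟨garb_nonneg hn v, garb_le hn v⟩
  have h2 : ∀ v : E, 0 ≤ ‖v‖ ∧ ‖v‖ ≤ 1 * ‖v‖ := fun v => ⟨norm_nonneg v, (one_mul _).ge⟩
  have e : ∀ (m : ℕ) (H : ℝ), H * 2 ^ m = H / 2 ^ (-(m : ℤ)) := fun m H => by
    rw [zpow_neg, zpow_natCast, div_inv_eq_mul]
  refine ⟨hg, hn, fun m => nm_finite hg h1 _, fun m => nm_finite hg h2 _, ?_, ?_,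
    fun m S => nm_garb_le hg hn _ S, fun m S => ?_, hc⟩
  · intro m h H c S ξ hc hξ h0 hh hS hs
    rw [e] at hh
    exact low hg h1 _ h H c S ξ hc hξ h0 hh hS hs
  · intro m h H S ξ h0 hh hS hs
    rw [e] at hh
    exact low hg h2 _ h H ‖ξ‖ S ξ (norm_nonneg _)
      (fun v => (abs_le.1 (abs_real_inner_le_norm ξ v)).1) h0 hh hS hs
  · have := nm_pred_le hg (-(m : ℤ)) S
    rwa [show -(m : ℤ) - 1 = -((m + 1 : ℕ) : ℤ) by push_cast; ring] at this

theorem low_abs_pos {g : E → E} (hg : Integrable g) (j : ℤ) (k : E → ℝ) (H : ℝ) (S : Set E)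
    (ξ : E) (hξ : ‖ξ‖ ≤ 1) (hk : SL k H (H / 2 ^ j)) (hS : Bornology.IsBounded S)
    (hs : ∀ y, y ∉ S → k y = 0) :
    Integrable (fun y => max (k y) 0 * ⟪ξ, g y⟫) ∧
      |∫ y, max (k y) 0 * ⟪ξ, g y⟫| ≤ 9 * H * (nm (fun v => ‖v‖) g j).real S := by
  have h2 : ∀ v : E, 0 ≤ ‖v‖ ∧ ‖v‖ ≤ 1 * ‖v‖ := fun v => ⟨norm_nonneg v, (one_mul _).ge⟩
  have hH : 0 ≤ H := (norm_nonneg _).trans (hk.bd 0)
  have hp : SL (fun y => max (k y) 0) H (H / 2 ^ j) := by
    refine ⟨fun y => ?_, fun y z => ?_⟩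
    · have := hk.bd y
      rw [Real.norm_eq_abs] at this ⊢
      rw [abs_of_nonneg (le_max_right _ _)]
      exact max_le ((le_abs_self _).trans this) hH
    · exact (abs_max_sub_max_le_abs _ _ _).trans (hk.lip y z)
  have hz : ∀ y, y ∉ S → max (k y) 0 = 0 := fun y hy => by rw [hs y hy, max_self]
  have hb : ∀ η : E, ‖η‖ ≤ 1 → ∀ v, -(1 * ‖v‖) ≤ ⟪η, v⟫ := fun η hη v =>
    le_trans (neg_le_neg (mul_le_mul_of_nonneg_right hη (norm_nonneg v)))
      (abs_le.1 (abs_real_inner_le_norm η v)).1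
  have a1 := low hg h2 j _ H 1 S ξ zero_le_one (hb ξ hξ) (fun y => le_max_right _ _) hp hS hz
  have a2 := low hg h2 j _ H 1 S (-ξ) zero_le_one (hb _ (by rwa [norm_neg]))
    (fun y => le_max_right _ _) hp hS hz
  simp only [inner_neg_left, mul_neg, integral_neg] at a2
  exact ⟨low_SL_int hg ξ hp, abs_le.2 ⟨by linarith, by linarith⟩⟩

theorem low_abs {g : E → E} (hg : Integrable g) (j : ℤ) (k : E → ℝ) (H : ℝ) (S : Set E)
    (ξ : E) (hξ : ‖ξ‖ ≤ 1) (hk : SL k H (H / 2 ^ j)) (hS : Bornology.IsBounded S)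
    (hs : ∀ y, y ∉ S → k y = 0) :
    |∫ y, k y * ⟪ξ, g y⟫| ≤ 18 * H * (nm (fun v => ‖v‖) g j).real S := by
  have hk' : SL (fun y => -k y) H (H / 2 ^ j) :=
    ⟨fun y => by rw [norm_neg]; exact hk.bd y, fun y z => by
      rw [← norm_neg, show -(-k y - -k z) = k y - k z by ring]; exact hk.lip y z⟩
  obtain ⟨i1, b1⟩ := low_abs_pos hg j k H S ξ hξ hk hS hs
  obtain ⟨i2, b2⟩ := low_abs_pos hg j _ H S ξ hξ hk' hS fun y hy => by rw [hs y hy, neg_zero]
  have e : ∫ y, k y * ⟪ξ, g y⟫ =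
      (∫ y, max (k y) 0 * ⟪ξ, g y⟫) - ∫ y, max (-k y) 0 * ⟪ξ, g y⟫ := by
    rw [← integral_sub i1 i2]
    refine integral_congr_ae (Filter.Eventually.of_forall fun y => ?_)
    show _ = max (k y) 0 * _ - max (-k y) 0 * _
    rw [← sub_mul, max_zero_sub_max_neg_zero_eq_self]
  rw [e]
  have := abs_le.1 b1
  have := abs_le.1 b2
  rw [abs_le]
  constructor <;> linarith

/-- vector version at a general level (positive and negative parts of the components) -/
theorem abs_flux_le {g : E → E} (hg : Integrable g) (j : ℤ) (κ : E → E) (H : ℝ) (S : Set E)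
    (hκ : SL κ H (H / 2 ^ j)) (hS : Bornology.IsBounded S) (hs : ∀ y, y ∉ S → κ y = 0) :
    |∫ y, ⟪κ y, g y⟫| ≤ 36 * H * (nm (fun v => ‖v‖) g j).real S := by
  have hc : ∀ i : Fin 2, SL (fun y => κ y i) H (H / 2 ^ j) := fun i =>
    ⟨fun y => (abs_apply_le (κ y) i).trans (hκ.bd y), fun y z =>
      (abs_apply_le (κ y - κ z) i).trans (hκ.lip y z)⟩
  have hn : ∀ i : Fin 2, ‖(EuclideanSpace.single i (1 : ℝ) : E)‖ ≤ 1 := fun i => by simp
  have hb : ∀ i : Fin 2, |∫ y, κ y i * ⟪(EuclideanSpace.single i (1 : ℝ) : E), g y⟫| ≤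
      18 * H * (nm (fun v => ‖v‖) g j).real S := fun i =>
    low_abs hg j _ H S _ (hn i) (hc i) hS fun y hy => by simp [hs y hy]
  have e : ∫ y, ⟪κ y, g y⟫ = (∫ y, κ y 0 * ⟪(EuclideanSpace.single 0 (1 : ℝ) : E), g y⟫) +
      ∫ y, κ y 1 * ⟪(EuclideanSpace.single 1 (1 : ℝ) : E), g y⟫ := by
    rw [← integral_add (low_SL_int hg _ (hc 0)) (low_SL_int hg _ (hc 1))]
    refine integral_congr_ae (Filter.Eventually.of_forall fun y => ?_)
    simp [inner_E]
  rw [e]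
  have := abs_le.1 (hb 0)
  have := abs_le.1 (hb 1)
  rw [abs_le]
  constructor <;> linarith

/-- Interior mass.  For the level `i = -σ - m` and a finite set `s` of nodes of depth `≥ 4/2^σ`:
`∑_s ‖Γ Y‖ = ∫ (∑_s hat) ⟪n, g⟫ + ∑_s garb n (Γ Y)`; `h = Zc x r σ - ∑_s hat ≥ 0` (the hats are
supported where `Zc = 1`, `∑ hat ≤ 1`), `h` is `SL` at level `i` (`itp_lip` with an indicator `F`),
supported in `closedBall x 6`; `low` with `ξ = n`, `c = 1`.  Hence
`∑_s ‖Γ Y‖ ≤ T + C V / qq^(σ+m)`; sum with the weights `2^(-m)`. -/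
theorem inner_mass : ∃ C : ℝ, 0 < C ∧ ∀ (g : E → E) (n x : E) (r V : ℝ) (σ : ℕ), Integrable g →
    ‖n‖ = 1 → r ≤ 2 → 0 ≤ V →
    (∀ m : ℕ, (nm (garb n) g (-(m : ℤ))).real (closedBall x 6) ≤ V / qq ^ m) →
    (nm (fun v => ‖v‖) g (-(σ : ℤ))).real {y | 4 / 2 ^ σ ≤ dp x r y} ≤
      C * (max ⟪n, Phi g x r σ⟫ 0 + V / qq ^ σ) := by
  classical
  have hq := half_lt_qq
  have hq0 := qq_pos
  set w : ℝ := 1 / (2 * qq) with hw
  have hw0 : 0 ≤ w := by positivity
  have hw1 : w < 1 := by rw [hw, div_lt_one (by positivity)]; linarith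
  have hw2 : 0 < (1 - w)⁻¹ := inv_pos.2 (by linarith)
  refine ⟨2 + 154 * (1 - w)⁻¹, by positivity, fun g n x r V σ hg hn hr hV hφ => ?_⟩
  have h1 : ∀ v, 0 ≤ garb n v ∧ garb n v ≤ 2 * ‖v‖ := fun v => ⟨garb_nonneg hn v, garb_le hn v⟩
  have h2 : ∀ v : E, 0 ≤ ‖v‖ ∧ ‖v‖ ≤ 1 * ‖v‖ := fun v => ⟨norm_nonneg v, (one_mul _).ge⟩
  have hσ : (0 : ℝ) < 2 ^ σ := by positivity
  set D : Set E := {y | 4 / 2 ^ σ ≤ dp x r y} with hD
  have hDB : D ⊆ closedBall x 6 := fun y hy => by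
    have h3 : 4 / 2 ^ σ ≤ r - ‖y - x‖ := hy
    have h4 : (0 : ℝ) ≤ 4 / 2 ^ σ := by positivity
    rw [mem_closedBall, dist_eq_norm]
    linarith
  have hB : Bornology.IsBounded (closedBall x 6) := isBounded_closedBall
  have hDb : Bornology.IsBounded D := hB.subset hDB
  set T := max ⟪n, Phi g x r σ⟫ 0 with hT
  have hT0 : 0 ≤ T := le_max_right _ _
  have hZ0 : ∀ y, 0 ≤ Zc x r σ y := fun y => le_max_left _ _
  have hZ1 : ∀ y, Zc x r σ y ≤ 1 := fun y => max_le zero_le_one (min_le_left _ _)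
  have hZl : ∀ y z, |Zc x r σ y - Zc x r σ z| ≤ 2 ^ σ * ‖y - z‖ := fun y z => by
    unfold Zc cl
    rw [max_comm 0, max_comm 0]
    refine (abs_max_sub_max_le_abs _ _ _).trans ?_
    refine (abs_min_sub_min_le_max _ _ _ _).trans (max_le (by simp) ?_)
    rw [show 2 ^ σ * dp x r y - 1 - (2 ^ σ * dp x r z - 1) = 2 ^ σ * (‖z - x‖ - ‖y - x‖) by
      unfold dp; ring, abs_mul, abs_of_pos hσ]
    refine mul_le_mul_of_nonneg_left ((abs_norm_sub_norm_le _ _).trans (le_of_eq ?_)) hσ.le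
    rw [← norm_neg]
    congr 1
    abel
  have hZ : SL (Zc x r σ) 1 (2 ^ σ) :=
    ⟨fun y => by rw [Real.norm_eq_abs, abs_of_nonneg (hZ0 y)]; exact hZ1 y, hZl⟩
  have hPhi : ⟪n, Phi g x r σ⟫ = ∫ y, Zc x r σ y * ⟪n, g y⟫ := by
    unfold Phi
    have hi : Integrable fun y => Zc x r σ y • g y :=
      hg.bdd_smul 1 (low_SL_cont hZ).aestronglyMeasurable (Filter.Eventually.of_forall hZ.bd)
    rw [← integral_inner hi]
    simp [real_inner_smul_right]
  have lev : ∀ m : ℕ, ∑ Y ∈ (finite_pos_mem (-(σ : ℤ) - m) hDb).toFinset,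
      ‖Gam g (-(σ : ℤ) - m) Y‖ ≤ T + 154 * (V / qq ^ (σ + m)) := fun m => by
    set i : ℤ := -(σ : ℤ) - m with hi
    set s := (finite_pos_mem i hDb).toFinset with hs
    have hi2 : (2 : ℝ) ^ i = 1 / (2 ^ σ * 2 ^ m) := by
      rw [hi, zpow_sub₀ two_ne_zero, zpow_neg, zpow_natCast, zpow_natCast]
      field_simp
    have hm1 : (1 : ℝ) ≤ 2 ^ m := one_le_pow₀ one_le_two
    have hN : (nm (garb n) g i).real (closedBall x 6) ≤ V / qq ^ (σ + m) := by
      have := hφ (σ + m)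
      rwa [show -((σ + m : ℕ) : ℤ) = i by rw [hi]; push_cast; ring] at this
    have hG : ∑ Y ∈ s, garb n (Gam g i Y) ≤ (nm (garb n) g i).real (closedBall x 6) := by
      have h3 := le_hasSum (low_hasSum hg h1 i hB) 0 fun m _ => mul_nonneg (by positivity)
        (Finset.sum_nonneg fun Y _ => (h1 _).1)
      simp only [pow_zero, one_mul, Nat.cast_zero, sub_zero] at h3
      refine le_trans (Finset.sum_le_sum_of_subset_of_nonneg (fun Y hY => ?_)
        fun Y _ _ => (h1 _).1) h3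
      have : pos i Y ∈ D := by simpa [hs] using hY
      simpa using hDB this
    set F : ℤ × ℤ → ℝ := fun Y => if Y ∈ s then 1 else 0 with hF
    have hF0 : ∀ Y, Y ∉ s → F Y = 0 := fun Y hY => if_neg hY
    have hF01 : ∀ Y, 0 ≤ F Y ∧ F Y ≤ 1 := fun Y => by
      simp only [hF]
      split_ifs <;> norm_num
    have hI01 : ∀ y, 0 ≤ itp i F y ∧ itp i F y ≤ 1 := fun y => itp_mem fun X _ => hF01 X
    have hh0 : ∀ y, 0 ≤ Zc x r σ y - itp i F y := fun y => by
      by_cases hy : ∃ X ∈ s, hat i X y ≠ 0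
      · obtain ⟨X, hX, hXy⟩ := hy
        have h3 : pos i X ∈ D := by simpa [hs] using hX
        have h4 : 4 / 2 ^ σ ≤ r - ‖pos i X - x‖ := h3
        have h5 := norm_sub_pos_le hXy
        have h6 : ‖y - x‖ ≤ ‖y - pos i X‖ + ‖pos i X - x‖ := norm_sub_le_norm_sub_add_norm_sub _ _ _
        have h7 : 2 * (2 : ℝ) ^ i ≤ 2 / 2 ^ σ := by
          rw [hi2, mul_one_div]
          exact div_le_div_of_nonneg_left two_pos.le hσ (le_mul_of_one_le_right hσ.le hm1)
        have h8 : 2 / 2 ^ σ ≤ dp x r y := by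
          have : (4 : ℝ) / 2 ^ σ = 2 / 2 ^ σ + 2 / 2 ^ σ := by ring
          unfold dp
          linarith
        have h9 : Zc x r σ y = 1 := by
          rw [div_le_iff₀ hσ] at h8
          unfold Zc cl
          rw [min_eq_left (by linarith), max_eq_right zero_le_one]
        linarith [(hI01 y).2]
      · push Not at hy
        have := (itp_mem (k := i) (F := F) (y := y) (lo := 0) (hi := 0) fun X hX => by
          rw [hF0 X fun h => hX (hy X h)]
          exact ⟨le_rfl, le_rfl⟩).2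
        linarith [hZ0 y]
    have hSL : SL (fun y => Zc x r σ y - itp i F y) 17 (17 / 2 ^ i) := by
      refine ⟨fun y => ?_, fun y z => ?_⟩
      · rw [Real.norm_eq_abs, abs_of_nonneg (hh0 y)]
        linarith [hZ1 y, (hI01 y).1]
      · have h3 := itp_lip (k := i) (F := F) (y := y) (z := z) (c := 0) (w := 1) zero_le_one
          fun X _ => by rw [sub_zero, abs_of_nonneg (hF01 X).1]; exact (hF01 X).2
        have h4 := hZl y z
        have h5 : (2 : ℝ) ^ σ ≤ 1 / 2 ^ i := by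
          rw [hi2, one_div_one_div]
          exact le_mul_of_one_le_right hσ.le hm1
        have h6 := mul_le_mul_of_nonneg_right h5 (norm_nonneg (y - z))
        rw [Real.norm_eq_abs, show Zc x r σ y - itp i F y - (Zc x r σ z - itp i F z) =
          (Zc x r σ y - Zc x r σ z) - (itp i F y - itp i F z) by ring]
        refine (abs_sub _ _).trans ?_
        have e : (17 : ℝ) / 2 ^ i * ‖y - z‖ =
            1 / 2 ^ i * ‖y - z‖ + 16 * 1 / 2 ^ i * ‖y - z‖ := by ring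
        linarith
    have hsupp : ∀ y, y ∉ closedBall x 6 → Zc x r σ y - itp i F y = 0 := fun y hy => by
      have h3 : 6 < ‖y - x‖ := by simpa [dist_eq_norm] using hy
      have h4 : Zc x r σ y = 0 := by
        unfold Zc cl
        refine max_eq_left (min_le_of_right_le ?_)
        have : dp x r y ≤ 0 := by unfold dp; linarith
        nlinarith
      linarith [hh0 y, (hI01 y).1]
    have hl := low hg h1 i _ 17 1 _ n zero_le_one (fun v => by
      unfold garb; linarith [norm_nonneg v]) hh0 hSL hB hsupp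
    simp only [sub_mul] at hl
    rw [integral_sub (low_SL_int hg n hZ) (low_int_itp hg n hF0).1, (low_int_itp hg n hF0).2,
      ← hPhi] at hl
    have e1 : ∑ Y ∈ s, F Y * ⟪n, Gam g i Y⟫ = ∑ Y ∈ s, ⟪n, Gam g i Y⟫ :=
      Finset.sum_congr rfl fun Y hY => by simp only [hF, if_pos hY, one_mul]
    have e2 : ∑ Y ∈ s, ‖Gam g i Y‖ = ∑ Y ∈ s, ⟪n, Gam g i Y⟫ + ∑ Y ∈ s, garb n (Gam g i Y) := by
      rw [← Finset.sum_add_distrib]
      exact Finset.sum_congr rfl fun Y _ => by unfold garb; ring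
    rw [e1] at hl
    rw [e2]
    have : ⟪n, Phi g x r σ⟫ ≤ T := le_max_left _ _
    linarith
  have hs1 : HasSum (fun m : ℕ => (1 / 2 : ℝ) ^ m * T + w ^ m * (154 * (V / qq ^ σ)))
      (2 * T + (1 - w)⁻¹ * (154 * (V / qq ^ σ))) :=
    (hasSum_geometric_two.mul_right T).add ((hasSum_geometric_of_lt_one hw0 hw1).mul_right _)
  have hle := hasSum_le (fun m => by
    refine (mul_le_mul_of_nonneg_left (lev m) (by positivity)).trans (le_of_eq ?_)
    rw [hw, one_div_pow, one_div_pow, mul_pow, pow_add]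
    field_simp) (low_hasSum hg h2 (-(σ : ℤ)) hDb) hs1
  have hV' : 0 ≤ V / qq ^ σ := by positivity
  nlinarith [mul_nonneg hw2.le hT0]

end Crest.Agent.R112
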