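import Crest.Agent.R112.Tool

/-! # Row 112: smooth functions (task SM) -/

set_option autoImplicit false

namespace Crest.Agent.R112

open MeasureTheory Metric
open scoped RealInnerProductSpace

variable {f : E → ℝ}

theorem Sm.continuous_grad (hf : Sm f) : Continuous (gradient f) := by
  have h : Continuous (fderiv ℝ f) := hf.cd.continuous_fderiv (by norm_num)
  exact (InnerProductSpace.toDual ℝ E).symm.continuous.comp h

theorem Sm.hasCompactSupport_grad (hf : Sm f) : HasCompactSupport (gradient f) := by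
  have h : HasCompactSupport (fderiv ℝ f) := hf.cs.fderiv ℝ
  exact h.comp_left (g := fun L => (InnerProductSpace.toDual ℝ E).symm L) (by simp)

theorem Sm.integrable (hf : Sm f) : Integrable f := by
  exact hf.cd.continuous.integrable_of_hasCompactSupport hf.cs

theorem Sm.integrable_grad (hf : Sm f) : Integrable (gradient f) := by
  exact hf.continuous_grad.integrable_of_hasCompactSupport hf.hasCompactSupport_grad

theorem Sm.hasGradientAt (hf : Sm f) (y : E) : HasGradientAt f (gradient f y) y := by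
  exact (hf.cd.differentiable (by norm_num) y).hasGradientAt

theorem Sm.apx (hf : Sm f) : Apx f (gradient f) := by
  refine ⟨hf.integrable, hf.integrable_grad, fun ε hε => ⟨f, hf, ?_, ?_⟩⟩
  · simp [hε.le]
  · simp [hε.le]

theorem SM_inner_grad (f : E → ℝ) (y v : E) : ⟪gradient f y, v⟫ = fderiv ℝ f y v := by
  simp [gradient]

/-- `⟪rot ψ', ∇f⟫ = ∂₀ψ ∂₁f - ∂₁ψ ∂₀f`; integrate by parts twice
(`integral_mul_fderiv_eq_neg_fderiv_mul_of_integrable`) and use the symmetry of the second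
derivative (`ContDiffAt.isSymmSndFDerivAt`). -/
theorem Sm.curl (hf : Sm f) : Curl (gradient f) := by
  intro ψ ψ' hψ hc hs
  have hψd : ∀ y, HasFDerivAt ψ (InnerProductSpace.toDual ℝ E (ψ' y)) y := fun y =>
    (hψ y).hasFDerivAt
  have hψc : Continuous ψ := continuous_iff_continuousAt.2 fun y => (hψd y).continuousAt
  have hfd : ContDiff ℝ 1 (fderiv ℝ f) := hf.cd.fderiv_right (by norm_num)
  -- partial derivatives of `f`
  have hD : ∀ v : E, ContDiff ℝ 1 (fun y => fderiv ℝ f y v) := fun v =>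
    hfd.clm_apply contDiff_const
  have hDD : ∀ v w y, fderiv ℝ (fun y => fderiv ℝ f y v) y w = fderiv ℝ (fderiv ℝ f) y w v := by
    intro v w y
    have h1 : HasFDerivAt (fderiv ℝ f) (fderiv ℝ (fderiv ℝ f) y) y :=
      (hfd.differentiable (by norm_num) y).hasFDerivAt
    have h2 := (ContinuousLinearMap.apply ℝ ℝ v).hasFDerivAt.comp y h1
    have h3 : (fun y => fderiv ℝ f y v) = (ContinuousLinearMap.apply ℝ ℝ v) ∘ fderiv ℝ f := rfl
    rw [h3, h2.fderiv]
    rfl
  have hψv : ∀ y w, fderiv ℝ ψ y w = ⟪ψ' y, w⟫ := fun y w => by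
    rw [(hψd y).fderiv]; rfl
  have hcw : ∀ w : E, Continuous fun y => fderiv ℝ ψ y w := fun w => by
    simp only [hψv]
    exact hc.inner continuous_const
  have hsw : ∀ w : E, HasCompactSupport fun y => fderiv ℝ ψ y w := fun w =>
    (hs.fderiv ℝ).comp_left (g := fun L : E →L[ℝ] ℝ => L w) (by simp)
  have hI : ∀ v w : E, Integrable fun y => fderiv ℝ f y v * fderiv ℝ ψ y w := fun v w =>
    ((hD v).continuous.mul (hcw w)).integrable_of_hasCompactSupport (hsw w).mul_left
  have key : ∀ v w : E, ∫ y, fderiv ℝ f y v * fderiv ℝ ψ y w =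
      -∫ y, fderiv ℝ (fderiv ℝ f) y w v * ψ y := by
    intro v w
    have hc2 : Continuous fun y => fderiv ℝ (fun y => fderiv ℝ f y v) y w :=
      ((hD v).continuous_fderiv (by norm_num)).clm_apply continuous_const
    rw [integral_mul_fderiv_eq_neg_fderiv_mul_of_integrable (f := fun y => fderiv ℝ f y v) (g := ψ)
      (v := w) ((hc2.mul hψc).integrable_of_hasCompactSupport hs.mul_left) (hI v w)
      (((hD v).continuous.mul hψc).integrable_of_hasCompactSupport hs.mul_left)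
      (fun y _ => (hD v).differentiable (by norm_num) y) (fun y _ => (hψd y).differentiableAt)]
    simp only [hDD]
  have hsym : ∀ y v w, fderiv ℝ (fderiv ℝ f) y v w = fderiv ℝ (fderiv ℝ f) y w v := fun y v w =>
    (hf.cd.contDiffAt.isSymmSndFDerivAt (by simp)).eq v w
  set e0 : E := EuclideanSpace.single 0 1
  set e1 : E := EuclideanSpace.single 1 1
  have hpt : ∀ y, ⟪rot (ψ' y), gradient f y⟫ =
      fderiv ℝ f y e1 * fderiv ℝ ψ y e0 - fderiv ℝ f y e0 * fderiv ℝ ψ y e1 := by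
    intro y
    rw [hψv, hψv, ← SM_inner_grad, ← SM_inner_grad]
    simp only [inner_E, rot_zero_apply, rot_one_apply, e0, e1]
    simp
    ring
  simp only [hpt]
  rw [integral_sub (hI _ _) (hI _ _), key, key]
  simp only [hsym _ e0 e1, sub_self]

theorem Sm.lip_grad (hf : Sm f) : ∃ Λ : ℝ, 0 ≤ Λ ∧
    (∀ y z, ‖gradient f y - gradient f z‖ ≤ Λ * ‖y - z‖) ∧
    ∀ y v, |f (y + v) - f y - ⟪gradient f y, v⟫| ≤ Λ * ‖v‖ ^ 2 := by
  have hfd : ContDiff ℝ 1 (fderiv ℝ f) := hf.cd.fderiv_right (by norm_num)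
  obtain ⟨C, hC⟩ := hfd.lipschitzWith_of_hasCompactSupport (hf.cs.fderiv ℝ) (by norm_num)
  have hC' : ∀ y z, ‖fderiv ℝ f y - fderiv ℝ f z‖ ≤ C * ‖y - z‖ := fun y z => by
    simpa [dist_eq_norm] using hC.dist_le_mul y z
  refine ⟨C, C.2, fun y z => ?_, fun y v => ?_⟩
  · have : gradient f y - gradient f z =
        (InnerProductSpace.toDual ℝ E).symm (fderiv ℝ f y - fderiv ℝ f z) := by
      rw [map_sub]; rfl
    rw [this, LinearIsometryEquiv.norm_map]
    exact hC' y z
  · have h := Convex.norm_image_sub_le_of_norm_hasFDerivWithin_le' (𝕜 := ℝ) (f := f)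
      (f' := fderiv ℝ f) (φ := fderiv ℝ f y) (s := closedBall y ‖v‖) (C := C * ‖v‖) (x := y)
      (y := y + v)
      (fun z _ => (hf.cd.differentiable (by norm_num) z).hasFDerivAt.hasFDerivWithinAt)
      (fun z hz => (hC' z y).trans (mul_le_mul_of_nonneg_left (by simpa [dist_eq_norm] using hz) C.2))
      (convex_closedBall _ _) (mem_closedBall_self (norm_nonneg _)) (by simp)
    rw [add_sub_cancel_left, ← SM_inner_grad, Real.norm_eq_abs] at h
    calc _ ≤ C * ‖v‖ * ‖v‖ := h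
      _ = C * ‖v‖ ^ 2 := by ring

theorem volume_real_ball (x : E) {r : ℝ} (hr : 0 ≤ r) :
    volume.real (ball x r) = Real.pi * r ^ 2 := by
  rw [measureReal_def, EuclideanSpace.volume_ball_fin_two, ENNReal.toReal_mul, ENNReal.toReal_pow,
    ENNReal.toReal_ofReal hr, ENNReal.toReal_ofReal Real.pi_pos.le, mul_comm]

theorem SM_shift {F : Type*} [NormedAddCommGroup F] [NormedSpace ℝ F] (f : E → F) (x v : E)
    (r : ℝ) : ∫ y in ball (x + v) r, f y = ∫ y in ball x r, f (y + v) := by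
  have h := (measurePreserving_add_right (volume : Measure E) v).setIntegral_preimage_emb
    (measurableEmbedding_addRight v) f (ball (x + v) r)
  rw [← h]
  congr 2
  ext y
  simp [mem_ball, dist_eq_norm]

/-- translation of the averages -/
theorem uu_add (f : E → ℝ) (x v : E) (r : ℝ) : uu f (x + v) r = uu (fun y => f (y + v)) x r := by
  unfold uu
  rw [SM_shift]

/-- average the second statement of `Sm.lip_grad` over the disc -/
theorem Sm.second (hf : Sm f) : ∃ Λ : ℝ, 0 ≤ Λ ∧ ∀ (x v : E) (r : ℝ), 0 < r →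
    |uu f (x + v) r - uu f x r - ⟪GG (gradient f) x r, v⟫| ≤ Λ * ‖v‖ ^ 2 := by
  obtain ⟨Λ, hΛ, -, h2⟩ := hf.lip_grad
  refine ⟨Λ, hΛ, fun x v r hr => ?_⟩
  have hA : 0 < Real.pi * r ^ 2 := by positivity
  have hi1 : IntegrableOn (fun y => f (y + v)) (ball x r) :=
    (hf.integrable.comp_add_right v).integrableOn
  have hi2 : IntegrableOn f (ball x r) := hf.integrable.integrableOn
  have hi3 : IntegrableOn (gradient f) (ball x r) := hf.integrable_grad.integrableOn
  have hi4 : IntegrableOn (fun y => ⟪gradient f y, v⟫) (ball x r) := hi3.inner_const v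
  have hG : ⟪GG (gradient f) x r, v⟫ =
      (Real.pi * r ^ 2)⁻¹ * ∫ y in ball x r, ⟪gradient f y, v⟫ := by
    unfold GG
    rw [real_inner_smul_left, real_inner_comm, ← integral_inner hi3]
    simp only [real_inner_comm]
  rw [uu_add, hG]
  unfold uu
  rw [← mul_sub, ← mul_sub, ← integral_sub hi1 hi2, ← integral_sub (f := fun y => f (y + v) - f y) (hi1.sub hi2) hi4, abs_mul,
    abs_of_pos (inv_pos.2 hA)]
  have hb : ‖∫ y in ball x r, (f (y + v) - f y - ⟪gradient f y, v⟫)‖ ≤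
      Λ * ‖v‖ ^ 2 * volume.real (ball x r) :=
    norm_setIntegral_le_of_norm_le_const measure_ball_lt_top fun y _ => h2 y v
  rw [volume_real_ball x hr.le, Real.norm_eq_abs] at hb
  rw [inv_mul_le_iff₀ hA]
  exact hb.trans (le_of_eq (by ring))

theorem SM_scale {F : Type*} [NormedAddCommGroup F] [NormedSpace ℝ F] (f : E → F) (x : E)
    {t : ℝ} (ht : 0 < t) :
    ∫ z in ball (0 : E) 1, f (x + t • z) = (t ^ 2)⁻¹ • ∫ y in ball x t, f y := by
  have h := Measure.setIntegral_comp_smul_of_pos (volume : Measure E) (fun y => f (x + y))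
    (ball (0 : E) 1) ht
  rw [h, smul_unitBall_of_pos ht]
  have h2 := SM_shift f 0 x t
  rw [zero_add] at h2
  rw [h2]
  simp [add_comm]

/-- `uu f x σ = π⁻¹ ∫_{ball 0 1} f (x + σ z)`, differentiate under the integral sign
(`hasDerivAt_integral_of_dominated_loc_of_deriv_le`) and change variables back. -/
theorem Sm.hasDerivAt_uu (hf : Sm f) (x : E) {σ : ℝ} (hσ : 0 < σ) :
    HasDerivAt (uu f x) ((Real.pi * σ ^ 3)⁻¹ * ∫ y in ball x σ, ⟪y - x, gradient f y⟫) σ := by
  obtain ⟨M, hM⟩ := hf.hasCompactSupport_grad.exists_bound_of_continuous hf.continuous_grad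
  have hc : Continuous f := hf.cd.continuous
  have hd := hasDerivAt_integral_of_dominated_loc_of_deriv_le (μ := volume.restrict (ball (0 : E) 1))
    (F := fun (t : ℝ) (z : E) => f (x + t • z))
    (F' := fun (t : ℝ) (z : E) => ⟪z, gradient f (x + t • z)⟫) (x₀ := σ) (s := Set.univ)
    (bound := fun _ => M) Filter.univ_mem
    (Filter.Eventually.of_forall fun t => (by fun_prop : Continuous _).aestronglyMeasurable)
    (((by fun_prop : Continuous fun z : E => f (x + σ • z)).continuousOn.integrableOn_compact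
      (isCompact_closedBall (0 : E) 1)).mono_set ball_subset_closedBall)
    ((continuous_id.inner (hf.continuous_grad.comp (by fun_prop))).aestronglyMeasurable)
    (by
      filter_upwards [ae_restrict_mem measurableSet_ball] with z hz t _
      have hz1 : ‖z‖ ≤ 1 := by simpa using (mem_ball_zero_iff.1 hz).le
      calc ‖⟪z, gradient f (x + t • z)⟫‖ ≤ ‖z‖ * ‖gradient f (x + t • z)‖ := norm_inner_le_norm _ _
        _ ≤ 1 * M := mul_le_mul hz1 (hM _) (norm_nonneg _) zero_le_one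
        _ = M := one_mul _)
    (integrableOn_const measure_ball_lt_top.ne)
    (Filter.Eventually.of_forall fun z t _ => by
      have h1 : HasDerivAt (fun t : ℝ => x + t • z) z t := by
        simpa using ((hasDerivAt_id t).smul_const z).const_add x
      have h2 := (hf.cd.differentiable (by norm_num) (x + t • z)).hasFDerivAt.comp_hasDerivAt t h1
      rw [real_inner_comm, SM_inner_grad]
      exact h2)
  have h3 := hd.2.const_mul Real.pi⁻¹
  have h4 : uu f x =ᶠ[nhds σ] fun t => Real.pi⁻¹ * ∫ z in ball (0 : E) 1, f (x + t • z) := by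
    filter_upwards [Ioi_mem_nhds hσ] with t ht
    have ht' : 0 < t := ht
    rw [SM_scale f x ht']
    unfold uu
    rw [smul_eq_mul, mul_inv, mul_assoc]
  refine (h3.congr_of_eventuallyEq h4).congr_deriv ?_
  have h5 := SM_scale (fun y => ⟪y - x, gradient f y⟫) x hσ
  simp only [add_sub_cancel_left, real_inner_smul_left, smul_eq_mul] at h5
  rw [integral_const_mul] at h5
  have h6 : ∫ z in ball (0 : E) 1, ⟪z, gradient f (x + σ • z)⟫ =
      σ⁻¹ * ((σ ^ 2)⁻¹ * ∫ y in ball x σ, ⟪y - x, gradient f y⟫) := by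
    rw [← h5, ← mul_assoc, inv_mul_cancel₀ hσ.ne', one_mul]
  rw [h6]
  field_simp

theorem SM_kk_int {r s : ℝ} (hr : 0 < r) (hrs : r ≤ s) (ρ : ℝ) :
    ∫ t in Set.Ioc r s, (if ρ < t then (t ^ 3)⁻¹ else 0) = kk r s ρ := by
  have h1 : ∫ t in Set.Ioc r s, (if ρ < t then (t ^ 3)⁻¹ else (0 : ℝ)) =
      ∫ t in Set.Ioc (max ρ r) s, (t ^ 3)⁻¹ := by
    have : Set.Ioc (max ρ r) s = Set.Ioc r s ∩ Set.Ioi ρ := by
      ext t
      simp only [Set.mem_Ioc, max_lt_iff, Set.mem_inter_iff, Set.mem_Ioi]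
      tauto
    rw [this, ← setIntegral_indicator measurableSet_Ioi]
    congr 1
  rw [h1]
  have hm : 0 < max ρ r := hr.trans_le (le_max_right _ _)
  unfold kk
  rcases le_total (max ρ r) s with h | h
  · rw [← intervalIntegral.integral_of_le h]
    have h2 := intervalIntegral.integral_eq_sub_of_hasDerivAt
      (f := fun t : ℝ => -((t ^ 2)⁻¹ / 2)) (f' := fun t => (t ^ 3)⁻¹) (a := max ρ r) (b := s)
      (fun t ht => by
        rw [Set.uIcc_of_le h] at ht
        have ht0 : 0 < t := hm.trans_le ht.1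
        have h3 := (((hasDerivAt_pow 2 t).inv (by positivity)).div_const 2).neg
        refine HasDerivAt.congr_deriv h3 ?_
        field_simp
        norm_num [mul_comm])
      (ContinuousOn.intervalIntegrable (by
        rw [Set.uIcc_of_le h]
        refine ContinuousOn.inv₀ (by fun_prop) fun t ht => ?_
        have ht0 : 0 < t := hm.trans_le ht.1
        positivity))
    have : (s ^ 2)⁻¹ ≤ ((max ρ r) ^ 2)⁻¹ :=
      inv_anti₀ (by positivity) (pow_le_pow_left₀ hm.le h 2)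
    rw [h2, max_eq_right (a := (0 : ℝ)) (by linarith)]
    ring
  · rw [Set.Ioc_eq_empty (not_lt.2 h), max_eq_left]
    · simp
    · have hs : 0 < s := hr.trans_le hrs
      have : ((max ρ r) ^ 2)⁻¹ ≤ (s ^ 2)⁻¹ :=
        inv_anti₀ (by positivity) (pow_le_pow_left₀ hs.le h 2)
      linarith

/-- FTC + Fubini: `∫_r^s σ^(-3) 1[‖y - x‖ < σ] dσ = kk r s ‖y - x‖` -/
theorem Sm.radial (hf : Sm f) (x : E) {r s : ℝ} (hr : 0 < r) (hrs : r ≤ s) :
    ∫ y, kk r s ‖y - x‖ * ⟪y - x, gradient f y⟫ = Real.pi * (uu f x s - uu f x r) := by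
  set w : E → ℝ := fun y => ⟪y - x, gradient f y⟫ with hw
  have hwc : Continuous w := (continuous_id.sub continuous_const).inner hf.continuous_grad
  have hws : HasCompactSupport w := by
    refine HasCompactSupport.intro hf.hasCompactSupport_grad.isCompact fun y hy => ?_
    simp only [hw]
    rw [image_eq_zero_of_notMem_tsupport hy, inner_zero_right]
  have hwi : Integrable w := hwc.integrable_of_hasCompactSupport hws
  set F : ℝ → E → ℝ := fun t y => (if ‖y - x‖ < t then (t ^ 3)⁻¹ else 0) * w y with hF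
  have hFm : Measurable (Function.uncurry F) := by
    refine Measurable.mul (Measurable.ite ?_ (by fun_prop) measurable_const)
      (hwc.measurable.comp measurable_snd)
    exact measurableSet_lt (by fun_prop) measurable_fst
  have hFi : Integrable (Function.uncurry F) ((volume.restrict (Set.Ioc r s)).prod volume) := by
    have hb : Integrable (fun p : ℝ × E => (r ^ 3)⁻¹ * ‖w p.2‖)
        ((volume.restrict (Set.Ioc r s)).prod volume) :=
      Integrable.mul_prod (f := fun _ : ℝ => (r ^ 3)⁻¹) (g := fun y => ‖w y‖)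
        (integrableOn_const (by simp)) hwi.norm
    refine hb.mono' hFm.aestronglyMeasurable ?_
    have hmem : ∀ᵐ p : ℝ × E ∂((volume.restrict (Set.Ioc r s)).prod volume), p.1 ∈ Set.Ioc r s :=
      Measure.quasiMeasurePreserving_fst.ae (ae_restrict_mem measurableSet_Ioc)
    filter_upwards [hmem] with p hp
    simp only [Function.uncurry, hF, norm_mul]
    refine mul_le_mul_of_nonneg_right ?_ (norm_nonneg _)
    have h0 : 0 < p.1 := hr.trans hp.1
    split_ifs
    · rw [Real.norm_eq_abs, abs_of_pos (by positivity)]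
      exact inv_anti₀ (by positivity) (pow_le_pow_left₀ hr.le hp.1.le 3)
    · simp only [norm_zero]; positivity
  have hinner : ∀ t, ∫ y, F t y = (t ^ 3)⁻¹ * ∫ y in ball x t, w y := by
    intro t
    rw [← integral_const_mul, ← integral_indicator measurableSet_ball]
    congr 1
    ext y
    simp only [hF, Set.indicator, mem_ball, dist_eq_norm]
    split_ifs <;> simp
  have hII : IntervalIntegrable (fun t => (Real.pi * t ^ 3)⁻¹ * ∫ y in ball x t, w y) volume r s := by
    rw [intervalIntegrable_iff_integrableOn_Ioc_of_le hrs]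
    have h1 := (hFi.integral_prod_left).const_mul Real.pi⁻¹
    simp only [Function.uncurry, hinner] at h1
    refine h1.congr (Filter.Eventually.of_forall fun t => ?_)
    simp only [mul_inv, mul_assoc]
  have hftc := intervalIntegral.integral_eq_sub_of_hasDerivAt
    (f := uu f x) (a := r) (b := s)
    (fun t ht => hf.hasDerivAt_uu x (by
      rw [Set.uIcc_of_le hrs] at ht
      exact hr.trans_le ht.1)) hII
  rw [← hftc, intervalIntegral.integral_of_le hrs, ← integral_const_mul]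
  have h2 : ∀ t, Real.pi * ((Real.pi * t ^ 3)⁻¹ * ∫ y in ball x t, w y) = ∫ y, F t y := by
    intro t
    rw [hinner, mul_inv, ← mul_assoc, ← mul_assoc, mul_inv_cancel₀ Real.pi_pos.ne', one_mul]
  rw [integral_congr_ae (Filter.Eventually.of_forall h2), integral_integral_swap hFi]
  congr 1
  ext y
  change kk r s ‖y - x‖ * w y = ∫ t in Set.Ioc r s, (if ‖y - x‖ < t then (t ^ 3)⁻¹ else 0) * w y
  rw [integral_mul_const, SM_kk_int hr hrs]

theorem kk_nonneg (r s ρ : ℝ) : 0 ≤ kk r s ρ := by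
  exact le_max_left _ _

theorem kk_le {r s : ℝ} (hr : 0 < r) (hrs : r ≤ s) (ρ : ℝ) :
    kk r s ρ ≤ ((r ^ 2)⁻¹ - (s ^ 2)⁻¹) / 2 := by
  unfold kk
  have h1 : ((max ρ r) ^ 2)⁻¹ ≤ (r ^ 2)⁻¹ :=
    inv_anti₀ (by positivity) (pow_le_pow_left₀ hr.le (le_max_right _ _) 2)
  have h2 : (s ^ 2)⁻¹ ≤ (r ^ 2)⁻¹ := inv_anti₀ (by positivity) (pow_le_pow_left₀ hr.le hrs 2)
  exact max_le (by linarith) (by linarith)

theorem kk_of_le {r s ρ : ℝ} (hr : 0 < r) (hrs : r ≤ s) (h : ρ ≤ r) :
    kk r s ρ = ((r ^ 2)⁻¹ - (s ^ 2)⁻¹) / 2 := by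
  unfold kk
  have h2 : (s ^ 2)⁻¹ ≤ (r ^ 2)⁻¹ := inv_anti₀ (by positivity) (pow_le_pow_left₀ hr.le hrs 2)
  rw [max_eq_right h, max_eq_right (by linarith)]

theorem kk_of_ge {r s ρ : ℝ} (hr : 0 < r) (hrs : r ≤ s) (h : s ≤ ρ) : kk r s ρ = 0 := by
  unfold kk
  have hs : 0 < s := hr.trans_le hrs
  have : ((max ρ r) ^ 2)⁻¹ ≤ (s ^ 2)⁻¹ :=
    inv_anti₀ (by positivity) (pow_le_pow_left₀ hs.le (h.trans (le_max_left _ _)) 2)
  exact max_eq_left (by linarith)

theorem kk_lip {r : ℝ} (hr : 0 < r) (s ρ ρ' : ℝ) :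
    |kk r s ρ - kk r s ρ'| ≤ (r ^ 3)⁻¹ * |ρ - ρ'| := by
  unfold kk
  have key : ∀ a b : ℝ, r ≤ a → r ≤ b → |(a ^ 2)⁻¹ - (b ^ 2)⁻¹| / 2 ≤ (r ^ 3)⁻¹ * |a - b| := by
    intro a b ha hb
    have ha0 : 0 < a := hr.trans_le ha
    have hb0 : 0 < b := hr.trans_le hb
    have h1 : (a ^ 2)⁻¹ - (b ^ 2)⁻¹ = (b - a) * ((a * b ^ 2)⁻¹ + (a ^ 2 * b)⁻¹) := by
      field_simp
      ring
    have h2 : (a * b ^ 2)⁻¹ ≤ (r ^ 3)⁻¹ := by
      refine inv_anti₀ (by positivity) ?_
      calc r ^ 3 = r * r ^ 2 := by ring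
        _ ≤ a * b ^ 2 := mul_le_mul ha (pow_le_pow_left₀ hr.le hb 2) (by positivity) ha0.le
    have h3 : (a ^ 2 * b)⁻¹ ≤ (r ^ 3)⁻¹ := by
      refine inv_anti₀ (by positivity) ?_
      calc r ^ 3 = r ^ 2 * r := by ring
        _ ≤ a ^ 2 * b := mul_le_mul (pow_le_pow_left₀ hr.le ha 2) hb hr.le (by positivity)
    rw [h1, abs_mul, abs_sub_comm b a, abs_of_pos (by positivity : 0 < (a * b ^ 2)⁻¹ + (a ^ 2 * b)⁻¹)]
    nlinarith [abs_nonneg (a - b)]
  have h1 := abs_max_sub_max_le_abs ((((max ρ r) ^ 2)⁻¹ - (s ^ 2)⁻¹) / 2)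
    ((((max ρ' r) ^ 2)⁻¹ - (s ^ 2)⁻¹) / 2) 0
  rw [max_comm _ (0 : ℝ), max_comm _ (0 : ℝ)] at h1
  have h2 := key (max ρ r) (max ρ' r) (le_max_right _ _) (le_max_right _ _)
  have h3 := abs_max_sub_max_le_abs ρ ρ' r
  have h4 : ((((max ρ r) ^ 2)⁻¹ - (s ^ 2)⁻¹) / 2) - ((((max ρ' r) ^ 2)⁻¹ - (s ^ 2)⁻¹) / 2) =
      (((max ρ r) ^ 2)⁻¹ - ((max ρ' r) ^ 2)⁻¹) / 2 := by ring
  rw [h4, abs_div, abs_two] at h1
  exact h1.trans (h2.trans (mul_le_mul_of_nonneg_left h3 (by positivity)))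

theorem SM_win_aux (hf : Sm f) (x : E) {a b δ : ℝ} (r : ℝ) (ha : 1 ≤ a) (hδ : 0 < δ)
    (hab : b = a + δ) (hb : b ≤ 2) : ∃ H : ℝ → ℝ, (∀ s, 0 ≤ H s ∧ H s ≤ 1) ∧
    (∀ s t, |H s - H t| ≤ 16 / δ * |s - t|) ∧ (∀ s, r - s ≤ a → H s = 1) ∧
    (∀ s, b ≤ r - s → H s = 0) ∧ ∃ N : ℝ, 0 ≤ N ∧
      ∫ y, H (dp x r y) * ⟪y - x, gradient f y⟫ = N * (uu f x b - uu f x a) := by
  have ha0 : 0 < a := by linarith
  have hab' : a ≤ b := by linarith
  have hb0 : 0 < b := by linarith
  set N : ℝ := ((a ^ 2)⁻¹ - (b ^ 2)⁻¹) / 2 with hN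
  have hNδ : δ / 8 ≤ N := by
    have h1 : N = δ * ((a * b ^ 2)⁻¹ + (a ^ 2 * b)⁻¹) / 2 := by
      have : δ = b - a := by linarith
      rw [hN, this]
      field_simp
      ring
    have ha2 : a ≤ 2 := hab'.trans hb
    have h2 : (8 : ℝ)⁻¹ ≤ (a * b ^ 2)⁻¹ := by
      refine inv_anti₀ (by positivity) ?_
      calc a * b ^ 2 ≤ 2 * 2 ^ 2 :=
            mul_le_mul ha2 (pow_le_pow_left₀ hb0.le hb 2) (by positivity) (by norm_num)
        _ = 8 := by norm_num
    have h3 : (8 : ℝ)⁻¹ ≤ (a ^ 2 * b)⁻¹ := by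
      refine inv_anti₀ (by positivity) ?_
      calc a ^ 2 * b ≤ 2 ^ 2 * 2 :=
            mul_le_mul (pow_le_pow_left₀ ha0.le ha2 2) hb hb0.le (by norm_num)
        _ = 8 := by norm_num
    rw [h1]
    nlinarith
  have hN0 : 0 < N := lt_of_lt_of_le (by positivity) hNδ
  refine ⟨fun s => kk a b (r - s) / N, fun s => ⟨div_nonneg (kk_nonneg _ _ _) hN0.le,
    (div_le_one hN0).2 (kk_le ha0 hab' _)⟩, fun s t => ?_, fun s hs => ?_, fun s hs => ?_,
    Real.pi / N, by positivity, ?_⟩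
  · rw [← sub_div, abs_div, abs_of_pos hN0, div_le_iff₀ hN0]
    have h1 := kk_lip ha0 b (r - s) (r - t)
    have h2 : (a ^ 3)⁻¹ ≤ 1 := inv_le_one_of_one_le₀ (one_le_pow₀ ha)
    have h3 : |r - s - (r - t)| = |s - t| := by
      rw [show r - s - (r - t) = -(s - t) by ring, abs_neg]
    rw [h3] at h1
    have h4 : 1 ≤ 16 / δ * N := by
      rw [div_mul_eq_mul_div, le_div_iff₀ hδ]
      linarith
    have h5 := abs_nonneg (s - t)
    calc _ ≤ (a ^ 3)⁻¹ * |s - t| := h1
      _ ≤ 1 * |s - t| := mul_le_mul_of_nonneg_right h2 h5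
      _ ≤ (16 / δ * N) * |s - t| := mul_le_mul_of_nonneg_right h4 h5
      _ = 16 / δ * |s - t| * N := by ring
  · simp only
    rw [kk_of_le ha0 hab' hs, div_self hN0.ne']
  · simp only
    rw [kk_of_ge ha0 hab' hs, zero_div]
  · have h1 : ∀ y, kk a b (r - dp x r y) / N * ⟪y - x, gradient f y⟫ =
        N⁻¹ * (kk a b ‖y - x‖ * ⟪y - x, gradient f y⟫) := by
      intro y
      have : r - dp x r y = ‖y - x‖ := by unfold dp; ring
      rw [this]
      ring
    simp only [h1]
    rw [integral_const_mul, hf.radial x ha0 hab']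
    ring

/-- `ς = 1`: `H d = kk r (r+δ) (r - d) / kk r (r+δ) r`; `ς = -1`: `H d = kk (r-δ) r (r - d) / …`;
the normalisation is `≥ δ/16`. -/
theorem Sm.win (hf : Sm f) {x : E} {r δ : ℝ} (hm : IsMx f 1 2 x r) (hδ : 0 < δ) (h1 : 1 ≤ r - δ)
    (h2 : r + δ ≤ 2) : Win (gradient f) x r δ := by
  obtain ⟨hr, hmax⟩ := hm
  intro ς hς
  rcases hς with rfl | rfl
  · obtain ⟨H, h0, hl, h1', h0', hI⟩ := SM_win_aux hf x (a := r) (b := r + δ) r hr.1 hδ (by ring) h2
    refine ⟨H, h0, hl, fun s hs => h1' s (by linarith), fun s hs => h0' s (by linarith), ?_⟩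
    obtain ⟨N, hN, hI⟩ := hI
    rw [hI, one_mul]
    have := hmax (r + δ) ⟨by linarith [hr.1], h2⟩
    exact mul_nonpos_of_nonneg_of_nonpos hN (by linarith)
  · obtain ⟨H, h0, hl, h1', h0', hI⟩ :=
      SM_win_aux hf x (a := r - δ) (b := r) r h1 hδ (by ring) hr.2
    refine ⟨H, h0, hl, fun s hs => h1' s (by linarith), fun s hs => h0' s (by linarith), ?_⟩
    obtain ⟨N, hN, hI⟩ := hI
    rw [hI]
    have := hmax (r - δ) ⟨h1, by linarith [hr.2]⟩
    have := mul_nonneg hN (sub_nonneg.2 this)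
    linarith

end Crest.Agent.R112
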