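import Crest.Agent.R112.Bad
import Crest.Agent.R112.Low
import Crest.Agent.R112.Smooth

/-! # Row 112: the key lemma at a node (task KL) -/

set_option autoImplicit false

namespace Crest.Agent.R112

open MeasureTheory Metric
open scoped RealInnerProductSpace

/-- `kl_abs` with `kd_nm`, `inner_mass`, `V = C V0 + η'`, `c = pos 0 X` (`nm_box_le`,
`closedBall_subset_box`, `norm_sub_pos_le`), `Sm.win`; `π r² ≥ 1`. -/
theorem kl_zero : ∃ C : ℝ, 0 < C ∧ ∀ (f : E → ℝ) (X : ℤ × ℤ) (η : ℝ), Sm f → 0 < η →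
    ∃ β : E → ℝ, Integrable β ∧ (∀ x, 0 ≤ β x) ∧ ∫ x, β x ≤ C * V0 (gradient f) 0 X + η ∧
      ∀ᵐ x, hat 0 X x ≠ 0 → ∀ r, IsMx f 1 2 x r → ∀ e' : E, ‖e'‖ ≤ 2 →
        1 / 200 ≤ ⟪nref (gradient f) 0 X, e'⟫ → -β x ≤ ⟪e', GG (gradient f) x r⟫ := by
  obtain ⟨C1, hC1, h1⟩ := nm_box_le
  obtain ⟨Cin, hCin, h2⟩ := inner_mass
  obtain ⟨C, hC, h3⟩ := kl_abs Cin hCin
  refine ⟨C * C1, by positivity, fun f X η hf hη => ?_⟩
  have hg := hf.integrable_grad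
  have hn := norm_nref (gradient f) 0 X
  have kd := kd_nm hg hf.curl hn
  have hV0 := V0_nonneg (gradient f) 0 X
  have hV : 0 < C1 * V0 (gradient f) 0 X + η / C := by positivity
  have htot : ∀ m : ℕ, (nm (garb (nref (gradient f) 0 X)) (gradient f) (-(m : ℤ))).real
      (closedBall (pos 0 X) 8) ≤ (C1 * V0 (gradient f) 0 X + η / C) / qq ^ m := by
    intro m
    have a1 := h1 _ hg 0 X m
    rw [zero_sub] at a1
    have a2 := closedBall_subset_box 8 0 X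
    rw [zpow_zero, mul_one] at a2
    refine (kd.φmono m a2).trans (a1.trans ?_)
    exact div_le_div_of_nonneg_right (le_add_of_nonneg_right (by positivity))
      (pow_nonneg qq_pos.le _)
  obtain ⟨β, b1, b2, b3, b4⟩ := h3 (c := pos 0 X) kd hV htot (fun x r σ hx hr =>
    h2 _ _ x r _ σ hg hn hr hV.le fun m => (kd.φmono m
      (closedBall_subset_closedBall' (by rw [mem_closedBall] at hx; linarith))).trans (htot m))
  refine ⟨β, b1, b2, b3.trans (le_of_eq (by field_simp)), ?_⟩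
  filter_upwards [b4] with x hx hh r hr e' he1 he2
  have a1 := norm_sub_pos_le hh
  rw [zpow_zero, mul_one] at a1
  have a2 := hx (by rwa [mem_closedBall, dist_eq_norm]) r hr.1.1 hr.1.2
    (fun δ d0 d1 d2 => hf.win hr d0 d1 d2) e' he1 he2
  have a3 : 1 ≤ Real.pi * r ^ 2 :=
    one_le_mul_of_one_le_of_one_le (by linarith [Real.pi_gt_three]) (one_le_pow₀ hr.1.1)
  have a4 : (Real.pi * r ^ 2)⁻¹ ≤ 1 := inv_le_one_of_one_le₀ a3
  have a5 : 0 ≤ (Real.pi * r ^ 2)⁻¹ := by positivity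
  rw [GG, real_inner_smul_right]
  nlinarith [mul_le_mul_of_nonneg_left a2 a5, b2 x]

theorem kl_pos (k j : ℤ) (a : ℤ × ℤ) : pos (j + k) a = (2 : ℝ) ^ k • pos j a := by
  ext i
  fin_cases i <;> simp [zpow_add₀] <;> ring

theorem kl_hat (k j : ℤ) (a : ℤ × ℤ) (y : E) : hat (j + k) a ((2 : ℝ) ^ k • y) = hat j a y := by
  have ht : (2 : ℝ) ^ k ≠ 0 := (zpow_pos two_pos k).ne'
  have e : ∀ u : ℝ, 2 ^ k * u / 2 ^ (j + k) = u / 2 ^ j := fun u => by
    rw [zpow_add₀ two_ne_zero]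
    field_simp
  simp only [hat, PiLp.smul_apply, smul_eq_mul, e]

theorem kl_Gam (g : E → E) (k j : ℤ) (a : ℤ × ℤ) :
    Gam (fun y => g ((2 : ℝ) ^ k • y)) j a = (((2 : ℝ) ^ k) ^ 2)⁻¹ • Gam g (j + k) a := by
  have h := Measure.integral_comp_smul_of_nonneg (volume : Measure E)
    (fun z => hat (j + k) a z • g z) ((2 : ℝ) ^ k) (hR := (zpow_pos two_pos k).le)
  simp only [kl_hat, finrank_euclideanSpace_fin] at h
  exact h

theorem kl_dir {c : ℝ} (hc : 0 < c) (v : E) : dir (c • v) = dir v := by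
  unfold dir
  by_cases hv : v = 0
  · simp [hv]
  · rw [if_neg (smul_ne_zero hc.ne' hv), if_neg hv, norm_smul, Real.norm_of_nonneg hc.le,
      smul_smul]
    congr 1
    field_simp

theorem kl_nref (g : E → E) (k : ℤ) (X : ℤ × ℤ) :
    nref (fun y => g ((2 : ℝ) ^ k • y)) 0 X = nref g k X := by
  have ht : (0 : ℝ) < 2 ^ k := zpow_pos two_pos k
  rw [nref, nref, kl_Gam, kl_dir (by positivity), zero_add, add_comm]

theorem kl_garb (n v : E) {c : ℝ} (hc : 0 ≤ c) : garb n (c • v) = c * garb n v := by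
  rw [garb, garb, norm_smul, Real.norm_of_nonneg hc, real_inner_smul_right, mul_sub]

theorem kl_box (C : ℝ) (k : ℤ) (X : ℤ × ℤ) (y : E) :
    (2 : ℝ) ^ k • y ∈ box C k X ↔ y ∈ box C 0 X := by
  have ht : (0 : ℝ) < 2 ^ k := zpow_pos two_pos k
  have e : ∀ u a : ℝ, |2 ^ k * u - 2 ^ k * a| ≤ C * 2 ^ k ↔ |u - a| ≤ C := fun u a => by
    rw [← mul_sub, abs_mul, abs_of_pos ht, mul_comm C, mul_le_mul_iff_right₀ ht]
  simp only [box, Set.mem_ofPred_eq, PiLp.smul_apply, smul_eq_mul, e, zpow_zero, one_mul, mul_one]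

theorem kl_V0 (g : E → E) (k : ℤ) (X : ℤ × ℤ) :
    V0 (fun y => g ((2 : ℝ) ^ k • y)) 0 X = (((2 : ℝ) ^ k) ^ 2)⁻¹ * V0 g k X := by
  rw [V0, V0, ← tsum_mul_left]
  refine tsum_congr fun m => ?_
  rw [mul_left_comm, loc, loc, ← tsum_mul_left (a := (((2 : ℝ) ^ k) ^ 2)⁻¹)]
  congr 1
  refine tsum_congr fun Y => ?_
  rw [kl_nref, kl_Gam, kl_garb _ _ (by positivity), show k - (m : ℤ) = 0 - m + k by ring]
  by_cases h : pos (0 - m) Y ∈ box 8 0 X
  · rw [if_pos h, if_pos (by rw [kl_pos, kl_box]; exact h)]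
  · rw [if_neg h, if_neg (by rw [kl_pos, kl_box]; exact h), mul_zero]

theorem kl_ball {F : Type*} [NormedAddCommGroup F] [NormedSpace ℝ F] (h : E → F) {t : ℝ}
    (ht : 0 < t) (x : E) (r : ℝ) :
    ∫ y in ball x r, h (t • y) = (t ^ 2)⁻¹ • ∫ y in ball (t • x) (t * r), h y := by
  rw [Measure.setIntegral_comp_smul_of_pos _ _ _ ht, _root_.smul_ball ht.ne',
    Real.norm_of_nonneg ht.le,
    finrank_euclideanSpace_fin]

theorem kl_uu (f : E → ℝ) {t : ℝ} (ht : 0 < t) (x : E) (r : ℝ) :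
    uu (fun y => t⁻¹ * f (t • y)) x r = t⁻¹ * uu f (t • x) (t * r) := by
  rw [uu, uu, integral_const_mul, kl_ball f ht, smul_eq_mul]
  ring

theorem kl_GG (g : E → E) {t : ℝ} (ht : 0 < t) (x : E) (r : ℝ) :
    GG (fun y => g (t • y)) x r = GG g (t • x) (t * r) := by
  rw [GG, GG, kl_ball g ht, smul_smul]
  congr 1
  ring

/-- Scaling: `f' y = f (2^k • y) / 2^k`, `∇f' y = ∇f (2^k • y)`,
`Gam (∇f') j a = 4^(-k) Gam (∇f) (j + k) a` (`Measure.integral_comp_smul`), so `nref` is unchanged,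
`V0 (∇f') 0 X = 4^(-k) V0 (∇f) k X`, `uu f' x r = uu f (2^k • x) (2^k r) / 2^k`,
`GG (∇f') x r = GG (∇f) (2^k • x) (2^k r)`; `β x = β' (2^(-k) • x)`. -/
theorem kl : ∃ C : ℝ, 0 < C ∧ ∀ (f : E → ℝ) (k : ℤ) (X : ℤ × ℤ) (η : ℝ), Sm f → 0 < η →
    ∃ β : E → ℝ, Integrable β ∧ (∀ x, 0 ≤ β x) ∧ ∫ x, β x ≤ C * V0 (gradient f) k X + η ∧
      ∀ᵐ x, hat k X x ≠ 0 → ∀ r, IsMx f (2 ^ k) (2 * 2 ^ k) x r → ∀ e' : E, ‖e'‖ ≤ 2 →
        1 / 200 ≤ ⟪nref (gradient f) k X, e'⟫ → -β x ≤ ⟪e', GG (gradient f) x r⟫ := by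
  obtain ⟨C, hC, h⟩ := kl_zero
  refine ⟨C, hC, fun f k X η hf hη => ?_⟩
  have ht : (0 : ℝ) < 2 ^ k := zpow_pos two_pos k
  have hsm : Sm fun y : E => ((2 : ℝ) ^ k)⁻¹ * f ((2 : ℝ) ^ k • y) :=
    ⟨contDiff_const.mul (hf.cd.comp (contDiff_const_smul _)),
      (hf.cs.comp_smul ht.ne').mul_left⟩
  have hgr : gradient (fun y : E => ((2 : ℝ) ^ k)⁻¹ * f ((2 : ℝ) ^ k • y)) =
      fun y => gradient f ((2 : ℝ) ^ k • y) := by
    funext y
    refine ext_inner_right ℝ fun v => ?_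
    have h1 := (((hf.cd.differentiable (by norm_num)) ((2 : ℝ) ^ k • y)).hasFDerivAt.comp y
      ((hasFDerivAt_id y).const_smul ((2 : ℝ) ^ k))).const_mul ((2 : ℝ) ^ k)⁻¹
    rw [SM_inner_grad, SM_inner_grad]
    erw [h1.fderiv]
    simp only [smul_apply, ContinuousLinearMap.comp_apply,
      ContinuousLinearMap.id_apply, map_smul, smul_eq_mul]
    field_simp
  obtain ⟨β, b1, b2, b3, b4⟩ := h _ X (η / ((2 : ℝ) ^ k) ^ 2) hsm (by positivity)
  rw [hgr] at b3 b4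
  rw [kl_V0] at b3
  rw [kl_nref] at b4
  refine ⟨fun x => β (((2 : ℝ) ^ k)⁻¹ • x), b1.comp_smul (inv_pos.2 ht).ne', fun x => b2 _, ?_, ?_⟩
  · rw [Measure.integral_comp_inv_smul_of_nonneg _ _ ht.le, finrank_euclideanSpace_fin,
      smul_eq_mul]
    refine (mul_le_mul_of_nonneg_left b3 (by positivity)).trans (le_of_eq ?_)
    field_simp
  · have b5 := ae_of_ae_map (f := fun x : E => ((2 : ℝ) ^ k)⁻¹ • x) (μ := volume)
      (measurable_const_smul _).aemeasurable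
      (by rw [Measure.map_addHaar_smul _ (inv_pos.2 ht).ne']; exact Measure.ae_smul_measure b4 _)
    filter_upwards [b5] with x hx hh r hr e' he1 he2
    have e1 : (2 : ℝ) ^ k • ((2 : ℝ) ^ k)⁻¹ • x = x := smul_inv_smul₀ ht.ne' x
    have e2 : (2 : ℝ) ^ k * (r / 2 ^ k) = r := mul_div_cancel₀ r ht.ne'
    have a1 := hx (by rw [← kl_hat k, e1, zero_add]; exact hh) (r / 2 ^ k) ?_ e' he1 he2
    · rwa [kl_GG _ ht, e1, e2] at a1
    · refine ⟨⟨(le_div_iff₀ ht).2 (by linarith [hr.1.1]), (div_le_iff₀ ht).2 hr.1.2⟩,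
        fun s hs => ?_⟩
      rw [kl_uu _ ht, kl_uu _ ht, e1, e2]
      refine mul_le_mul_of_nonneg_left (hr.2 _ ⟨?_, ?_⟩) (by positivity)
      · nlinarith [hs.1]
      · nlinarith [hs.2]

end Crest.Agent.R112
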