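import Crest.Agent.R112.MainB
import Crest.Agent.R112.KL
import Crest.Agent.R112.Cor

/-! # Row 112: the main estimate for smooth functions (task MAIN) -/

set_option autoImplicit false

namespace Crest.Agent.R112

open MeasureTheory Metric
open scoped RealInnerProductSpace

theorem main_int4 {a b c d : E → ℝ} (ha : Integrable a) (hb : Integrable b) (hc : Integrable c)
    (hd : Integrable d) :
    ∫ x, (a x + b x + c x + d x) = (∫ x, a x) + (∫ x, b x) + (∫ x, c x) + ∫ x, d x := by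
  have h1 : Integrable fun x => a x + b x := ha.add hb
  have h2 : Integrable fun x => a x + b x + c x := h1.add hc
  rw [integral_add h2 hd, integral_add h1 hc, integral_add ha hb]

/-- the key lemma summed over the finite set `T = {X | pos k X ∈ closedBall 0 (R + 2 * 2^k)}`
(`finite_pos_mem`, `norm_sub_pos_le`, `kl` with `η / (T.card + 1)`, `sum_V0_le`) -/
theorem kl_sum : ∃ C : ℝ, 0 < C ∧ ∀ (f : E → ℝ) (k : ℤ) (R η : ℝ), Sm f → 0 < η →
    ∃ b : E → ℝ, Integrable b ∧ (∀ x, 0 ≤ b x) ∧ ∫ x, b x ≤ C * alpha (gradient f) k + η ∧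
      ∀ᵐ x : E, ‖x‖ ≤ R → ∀ X, hat k X x ≠ 0 → ∀ r, IsMx f (2 ^ k) (2 * 2 ^ k) x r →
        ∀ e' : E, ‖e'‖ ≤ 2 → 1 / 200 ≤ ⟪nref (gradient f) k X, e'⟫ →
          -b x ≤ ⟪e', GG (gradient f) x r⟫ := by
  obtain ⟨C, hC, hkl⟩ := kl
  refine ⟨C * 16384, by positivity, fun f k R η hf hη => ?_⟩
  have hfin := finite_pos_mem k (isBounded_closedBall (x := (0 : E)) (r := R + 2 * 2 ^ k))
  set T := hfin.toFinset with hT
  have hη' : 0 < η / (T.card + 1) := by positivity
  choose β hβi hβ0 hβI hβae using fun X => hkl f k X _ hf hη'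
  refine ⟨fun x => ∑ X ∈ T, β X x, integrable_finsetSum _ fun X _ => hβi X,
    fun x => Finset.sum_nonneg fun X _ => hβ0 X x, ?_, ?_⟩
  · rw [integral_finsetSum _ fun X _ => hβi X]
    refine (Finset.sum_le_sum fun X _ => hβI X).trans ?_
    rw [Finset.sum_add_distrib, ← Finset.mul_sum, Finset.sum_const, nsmul_eq_mul]
    have h1 := sum_V0_le hf.integrable_grad k T
    have h2 : (T.card : ℝ) * (η / (T.card + 1)) ≤ η := by
      rw [← mul_div_assoc, div_le_iff₀ (by positivity)]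
      nlinarith
    have h3 := mul_le_mul_of_nonneg_left h1 hC.le
    linarith
  · filter_upwards [ae_all_iff.2 hβae] with x hx hxR X hX r hr e' he1 he2
    have hXT : X ∈ T := by
      rw [hT, Set.Finite.mem_toFinset]
      show pos k X ∈ closedBall (0 : E) (R + 2 * 2 ^ k)
      rw [mem_closedBall_zero_iff]
      have h1 := norm_sub_pos_le hX
      have h2 : ‖pos k X‖ ≤ ‖x‖ + ‖x - pos k X‖ := by
        simpa using norm_sub_le x (x - pos k X)
      linarith
    exact le_trans (neg_le_neg (Finset.single_le_sum (f := fun X => β X x)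
      (fun X _ => hβ0 X x) hXT)) (hx X hX r hr e' he1 he2)

/-- `F, ω` from `corona`, `w k` from `exists_weight`, `R` from `HH_far`, `b k` from `kl_sum` (radius
`R + 1`), `0 < h ≤ min 1 (2^k₀)` small.
`A x = (HH (x + h e) - HH x) / h + C WW x + ∑ b k x + Λ card h * indicator (closedBall 0 (R+1)) 1 x`,
`B = (10/7) A + 200 ∑ b k`.  `∫ HH (x + h e) = ∫ HH x` (`integral_add_right_eq_self`,
`Integrable.comp_add_right`), `WW_le`, `sum_alpha_le`.  For `‖x‖ > R + 1` the quotient and `GG`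
vanish.  Otherwise `main_pt` (hypotheses: `itp_var`; `0 < itp` gives a node with `F > 0`, so
`⟪nref, e⟫ > 1/5`) shows `0 ≤ A x` (`exists_isMx`, `exists_level`) and `p (7/10) ‖GG‖ ≤ A x` with
`p = itp ks (F ks) x ∈ [0,1]`; if `p < 1` there is a node with `F < 1`, so `⟪nref, e⟫ < 3/5` and
`off_le` gives `‖GG‖ ≤ 200 b ks x` (`IsMx.mono`). -/
theorem dirE : ∃ C : ℝ, 0 < C ∧ ∀ (f : E → ℝ) (e : E) (k₀ k₁ : ℤ) (η : ℝ), Sm f → ‖e‖ = 1 →
    k₀ ≤ k₁ → 0 < η → ∃ B : E → ℝ, Integrable B ∧ (∀ᵐ x, 0 ≤ B x) ∧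
      ∫ x, B x ≤ C * (∫ y, ‖gradient f y‖) + η ∧
      ∀ᵐ x, ∀ r, IsMx f (2 ^ k₀) (2 * 2 ^ k₁) x r →
        7 / 10 * ‖GG (gradient f) x r‖ ≤ ⟪e, GG (gradient f) x r⟫ →
        ‖GG (gradient f) x r‖ ≤ B x := by
  obtain ⟨Cc, hCc, hcor⟩ := corona
  obtain ⟨Ck, hCk, hkl⟩ := kl_sum
  obtain ⟨Cm, hCm, hmain⟩ := main_pt
  obtain ⟨Cw, hCw, hWW⟩ := WW_le
  obtain ⟨Ca, hCa, halpha⟩ := sum_alpha_le
  refine ⟨10 / 7 * (Cm * (Cw * (Cc + 1)) + Ck * Ca) + 200 * (Ck * Ca), by positivity, ?_⟩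
  intro f e k₀ k₁ η hf he hk hη
  have hg := hf.integrable_grad
  obtain ⟨F, ω, hF, hF1, hω, hFn, hFo, hωs⟩ := hcor (gradient f) e k₀ k₁ hg he
  choose w hwm hw0 hwle hwZ using fun k => exists_weight k (ω k) fun Z => (hω k Z).1
  obtain ⟨R, hR, hfar⟩ := HH_far hf k₀ k₁
  obtain ⟨Λ, hΛ, hpt⟩ := hmain f hf
  set N : ℝ := ((Finset.Icc k₀ k₁).card : ℝ) with hN
  have hN0 : 0 ≤ N := Nat.cast_nonneg _
  have hη' : 0 < η / (404 * (N + 1)) := by positivity
  choose b hbi hb0 hbI hbae using fun k => hkl f k (R + 1) _ hf hη'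
  set v : ℝ := volume.real (closedBall (0 : E) (R + 1)) with hv
  have hv0 : 0 ≤ v := measureReal_nonneg
  obtain ⟨h, hh0, hh1, hh2, hh3⟩ : ∃ h : ℝ, 0 < h ∧ h ≤ 1 ∧ h ≤ 2 ^ k₀ ∧ Λ * N * h * v ≤ η / 4 := by
    refine ⟨min (min 1 (2 ^ k₀)) (η / 4 / (Λ * N * v + 1)), by positivity,
      (min_le_left _ _).trans (min_le_left _ _), (min_le_left _ _).trans (min_le_right _ _), ?_⟩
    calc Λ * N * min (min 1 (2 ^ k₀)) (η / 4 / (Λ * N * v + 1)) * v
        ≤ Λ * N * (η / 4 / (Λ * N * v + 1)) * v := by gcongr; exact min_le_right _ _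
      _ = η / 4 * (Λ * N * v / (Λ * N * v + 1)) := by ring
      _ ≤ η / 4 * 1 := by
          gcongr
          rw [div_le_one (by positivity)]
          linarith
      _ = η / 4 := mul_one _
  have hHi := HH_integrable hf hF k₀ k₁
  obtain ⟨hWi, hWI⟩ := hWW (gradient f) ω w k₀ k₁ hg hω hwm hw0 hwle
  have hIi : Integrable ((closedBall (0 : E) (R + 1)).indicator fun _ : E => (1 : ℝ)) :=
    (integrableOn_const (measure_closedBall_lt_top.ne)).integrable_indicator
      measurableSet_closedBall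
  have hSi : Integrable fun x => ∑ k ∈ Finset.Icc k₀ k₁, b k x :=
    integrable_finsetSum _ fun k _ => hbi k
  have hQi : Integrable fun x => (HH f F k₀ k₁ (x + h • e) - HH f F k₀ k₁ x) / h :=
    ((hHi.comp_add_right (h • e)).sub hHi).div_const h
  set A : E → ℝ := fun x => (HH f F k₀ k₁ (x + h • e) - HH f F k₀ k₁ x) / h +
    Cm * WW (gradient f) (fun k => w k x) k₀ k₁ x + ∑ k ∈ Finset.Icc k₀ k₁, b k x +
    Λ * N * h * (closedBall (0 : E) (R + 1)).indicator (fun _ => (1 : ℝ)) x with hA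
  have hAi : Integrable A := ((hQi.add (hWi.const_mul Cm)).add hSi).add (hIi.const_mul _)
  have hS0 : ∀ x, 0 ≤ ∑ k ∈ Finset.Icc k₀ k₁, b k x := fun x =>
    Finset.sum_nonneg fun k _ => hb0 k x
  have key : ∀ᵐ x, 0 ≤ A x ∧ ∀ r, IsMx f (2 ^ k₀) (2 * 2 ^ k₁) x r →
      7 / 10 * ‖GG (gradient f) x r‖ ≤ ⟪e, GG (gradient f) x r⟫ →
      ‖GG (gradient f) x r‖ ≤ 10 / 7 * A x + 200 * ∑ k ∈ Finset.Icc k₀ k₁, b k x := by
    filter_upwards [ae_all_iff.2 hbae] with x hx
    have hSx := hS0 x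
    by_cases hxR : ‖x‖ ≤ R + 1
    · have hI : (closedBall (0 : E) (R + 1)).indicator (fun _ => (1 : ℝ)) x = 1 :=
        Set.indicator_of_mem (mem_closedBall_zero_iff.2 hxR) _
      have hhe : ‖h • e‖ = h := by rw [norm_smul, he, mul_one, Real.norm_of_nonneg hh0.le]
      have hvar : ∀ k ∈ Finset.Icc k₀ k₁,
          |itp k (F k) (x + h • e) - itp k (F k) x| ≤ 16 * w k x / 2 ^ k * h ∧
          |itp k (F k) x - itp (k + 1) (F (k + 1)) x| ≤ w k x := by
        intro k hkm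
        obtain ⟨Z, hZ, hZn⟩ := hwZ k x
        have h2k : ‖h • e‖ ≤ 2 ^ k := by
          rw [hhe]
          exact hh2.trans (zpow_le_zpow_right₀ one_le_two (Finset.mem_Icc.1 hkm).1)
        have := itp_var (F := F k) (F' := F (k + 1)) (ω := ω k) (hω k Z).1 h2k hZn
          (hFo k hkm Z)
        rwa [hZ, hhe] at this
      have hM := hpt e x k₀ k₁ F (fun k => w k x) (fun k => b k x) h he hF hF1 (fun k => hw0 k x)
        (fun k => hb0 k x) hh0 hh2 (fun k hkm => (hvar k hkm).1) (fun k hkm => (hvar k hkm).2)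
        (fun k hkm hp r hr => by
          obtain ⟨X, hX, hFX⟩ := exists_gt_of_lt_itp hp
          have h5 : 1 / 5 < ⟪nref (gradient f) k X, e⟫ := by
            by_contra hc
            exact hFX.ne' ((hFn k hkm X).2 (not_lt.1 hc))
          exact hx k hxR X hX r hr e (by rw [he]; norm_num) (by linarith))
      have hM' : ∀ r, IsMx f (2 ^ k₀) (2 * 2 ^ k₁) x r → ∀ ks ∈ Finset.Icc k₀ k₁,
          r ∈ Set.Icc ((2 : ℝ) ^ ks) (2 * 2 ^ ks) →
          itp ks (F ks) x * max ⟪e, GG (gradient f) x r⟫ 0 ≤ A x := by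
        intro r hr ks hks hrk
        have := hM r hr ks hks hrk
        simp only [hA, hI, mul_one]
        exact this
      have hA0 : 0 ≤ A x := by
        have hab : (2 : ℝ) ^ k₀ ≤ 2 * 2 ^ k₁ := by
          have h1 : (2 : ℝ) ^ k₀ ≤ 2 ^ k₁ := zpow_le_zpow_right₀ one_le_two hk
          have h2 : (0 : ℝ) < 2 ^ k₁ := by positivity
          linarith
        obtain ⟨r, hr⟩ := exists_isMx hf.integrable (by positivity) hab x
        obtain ⟨ks, hks, hrk⟩ := exists_level hk hr.1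
        exact le_trans (mul_nonneg (itp_mem fun X _ => hF ks X).1 (le_max_right _ _))
          (hM' r hr ks hks hrk)
      refine ⟨hA0, fun r hr hG => ?_⟩
      obtain ⟨ks, hks, hrk⟩ := exists_level hk hr.1
      by_cases hp : itp ks (F ks) x < 1
      · obtain ⟨X, hX, hFX⟩ := exists_lt_of_itp_lt hp
        have h5 : ⟪nref (gradient f) ks X, e⟫ < 3 / 5 := by
          by_contra hc
          exact hFX.ne ((hFn ks hks X).1 (not_lt.1 hc))
        have hr' : IsMx f (2 ^ ks) (2 * 2 ^ ks) x r :=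
          hr.mono (zpow_le_zpow_right₀ one_le_two (Finset.mem_Icc.1 hks).1)
            (mul_le_mul_of_nonneg_left (zpow_le_zpow_right₀ one_le_two (Finset.mem_Icc.1 hks).2)
              zero_le_two) hrk
        have h6 := off_le (norm_nref _ ks X) he (hb0 ks x) h5 hG (hx ks hxR X hX r hr')
        have h7 : b ks x ≤ ∑ k ∈ Finset.Icc k₀ k₁, b k x :=
          Finset.single_le_sum (f := fun k => b k x) (fun k _ => hb0 k x) hks
        linarith
      · have h6 := hM' r hr ks hks hrk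
        have h7 : max ⟪e, GG (gradient f) x r⟫ 0 ≤
            itp ks (F ks) x * max ⟪e, GG (gradient f) x r⟫ 0 :=
          le_mul_of_one_le_left (le_max_right _ _) (not_lt.1 hp)
        have h8 := le_max_left ⟪e, GG (gradient f) x r⟫ 0
        linarith
    · have hx1 : R ≤ ‖x‖ := by linarith [not_le.1 hxR]
      have hx2 : R ≤ ‖x + h • e‖ := by
        have h1 : ‖x‖ ≤ ‖x + h • e‖ + ‖h • e‖ := by
          simpa using norm_sub_le (x + h • e) (h • e)
        rw [norm_smul, he, mul_one, Real.norm_of_nonneg hh0.le] at h1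
        linarith [not_le.1 hxR]
      have hA0 : 0 ≤ A x := by
        simp only [hA, (hfar x hx1).1 F, (hfar _ hx2).1 F, sub_self, zero_div, zero_add]
        have h1 := WW_nonneg (gradient f) (fun k => hw0 k x) k₀ k₁ x
        have h2 : 0 ≤ (closedBall (0 : E) (R + 1)).indicator (fun _ => (1 : ℝ)) x :=
          Set.indicator_nonneg (fun _ _ => zero_le_one) x
        positivity
      refine ⟨hA0, fun r hr _ => ?_⟩
      rw [(hfar x hx1).2 r hr.1.2, norm_zero]
      positivity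
  refine ⟨fun x => 10 / 7 * A x + 200 * ∑ k ∈ Finset.Icc k₀ k₁, b k x,
    (hAi.const_mul _).add (hSi.const_mul _), ?_, ?_, key.mono fun x hx => hx.2⟩
  · filter_upwards [key] with x hx
    have := hS0 x
    have := hx.1
    positivity
  · set I : ℝ := ∫ y, ‖gradient f y‖ with hI
    have hI0 : 0 ≤ I := integral_nonneg fun _ => norm_nonneg _
    have hSI : ∫ x, ∑ k ∈ Finset.Icc k₀ k₁, b k x ≤ Ck * Ca * I + η / 404 := by
      rw [integral_finsetSum _ fun k _ => hbi k]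
      refine (Finset.sum_le_sum fun k _ => hbI k).trans ?_
      rw [Finset.sum_add_distrib, ← Finset.mul_sum, Finset.sum_const, nsmul_eq_mul, ← hN]
      have h1 := mul_le_mul_of_nonneg_left (halpha (gradient f) hg k₀ k₁) hCk.le
      have h2 : N * (η / (404 * (N + 1))) ≤ η / 404 := by
        rw [← mul_div_assoc, div_le_div_iff₀ (by positivity) (by positivity)]
        nlinarith
      linarith
    have hQI : ∫ x, (HH f F k₀ k₁ (x + h • e) - HH f F k₀ k₁ x) / h = 0 := by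
      rw [integral_div, integral_sub (hHi.comp_add_right (h • e)) hHi,
        integral_add_right_eq_self, sub_self, zero_div]
    have hWI' : ∫ x, WW (gradient f) (fun k => w k x) k₀ k₁ x ≤ Cw * (Cc + 1) * I := by
      have := mul_le_mul_of_nonneg_left (add_le_add_left hωs I) hCw.le
      linarith
    have hAI : ∫ x, A x ≤ Cm * (Cw * (Cc + 1) * I) + (Ck * Ca * I + η / 404) + η / 4 := by
      simp only [hA]
      rw [main_int4 hQi (hWi.const_mul Cm) hSi (hIi.const_mul _), hQI,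
        integral_const_mul, integral_const_mul,
        integral_indicator_const _ measurableSet_closedBall, smul_eq_mul, mul_one, ← hv]
      have := mul_le_mul_of_nonneg_left hWI' hCm.le
      linarith
    rw [integral_add (hAi.const_mul _) (hSi.const_mul _), integral_const_mul, integral_const_mul]
    linarith

theorem main_dirs (G : E) : 7 / 10 * ‖G‖ ≤ G 0 ∨ 7 / 10 * ‖G‖ ≤ -G 0 ∨ 7 / 10 * ‖G‖ ≤ G 1 ∨
    7 / 10 * ‖G‖ ≤ -G 1 := by
  by_contra hc
  push Not at hc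
  obtain ⟨h1, h2, h3, h4⟩ := hc
  have h5 := norm_sq_E G
  have h6 : G 0 ^ 2 < (7 / 10 * ‖G‖) ^ 2 := sq_lt_sq' (by linarith) h1
  have h7 : G 1 ^ 2 < (7 / 10 * ‖G‖) ^ 2 := sq_lt_sq' (by linarith) h3
  nlinarith [sq_nonneg ‖G‖]

theorem main_unit {a b : ℝ} (h : a ^ 2 + b ^ 2 = 1) : ‖(!₂[a, b] : E)‖ = 1 := by
  have h1 := norm_sq_E (!₂[a, b] : E)
  simp only [Matrix.cons_val_zero, Matrix.cons_val_one, Matrix.cons_val_fin_one] at h1
  have h2 : ‖(!₂[a, b] : E)‖ ^ 2 = 1 ^ 2 := by rw [h1, h]; norm_num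
  exact (sq_eq_sq₀ (norm_nonneg _) zero_le_one).1 h2

/-- sum over `e = ± e₀, ± e₁` (`max |G 0| |G 1| ≥ (7/10) ‖G‖`) -/
theorem mainE : ∃ C : ℝ, 0 < C ∧ ∀ (f : E → ℝ) (k₀ k₁ : ℤ) (η : ℝ), Sm f → k₀ ≤ k₁ → 0 < η →
    ∃ B : E → ℝ, Integrable B ∧ (∀ᵐ x, 0 ≤ B x) ∧ ∫ x, B x ≤ C * (∫ y, ‖gradient f y‖) + η ∧
      ∀ᵐ x, ∀ r, IsMx f (2 ^ k₀) (2 * 2 ^ k₁) x r → ‖GG (gradient f) x r‖ ≤ B x := by
  obtain ⟨C, hC, hd⟩ := dirE
  refine ⟨4 * C, by positivity, fun f k₀ k₁ η hf hk hη => ?_⟩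
  have hη' : 0 < η / 4 := by positivity
  obtain ⟨B1, i1, p1, I1, a1⟩ := hd f !₂[1, 0] k₀ k₁ _ hf (main_unit (by norm_num)) hk hη'
  obtain ⟨B2, i2, p2, I2, a2⟩ := hd f !₂[-1, 0] k₀ k₁ _ hf (main_unit (by norm_num)) hk hη'
  obtain ⟨B3, i3, p3, I3, a3⟩ := hd f !₂[0, 1] k₀ k₁ _ hf (main_unit (by norm_num)) hk hη'
  obtain ⟨B4, i4, p4, I4, a4⟩ := hd f !₂[0, -1] k₀ k₁ _ hf (main_unit (by norm_num)) hk hη'
  refine ⟨fun x => B1 x + B2 x + B3 x + B4 x, ((i1.add i2).add i3).add i4, ?_, ?_, ?_⟩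
  · filter_upwards [p1, p2, p3, p4] with x h1 h2 h3 h4
    linarith
  · rw [main_int4 i1 i2 i3 i4]
    linarith
  · filter_upwards [p1, p2, p3, p4, a1, a2, a3, a4] with x h1 h2 h3 h4 b1 b2 b3 b4 r hr
    rcases main_dirs (GG (gradient f) x r) with h | h | h | h
    · have := b1 r hr (by rw [inner_E]; simpa using h)
      linarith
    · have := b2 r hr (by rw [inner_E]; simpa using h)
      linarith
    · have := b3 r hr (by rw [inner_E]; simpa using h)
      linarith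
    · have := b4 r hr (by rw [inner_E]; simpa using h)
      linarith

end Crest.Agent.R112
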