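import Crest.Agent.R112.Defs

/-! # Row 112: runs and their Lovász extension (task TOG) -/

set_option autoImplicit false

namespace Crest.Agent.R112

open MeasureTheory Metric
open scoped RealInnerProductSpace

namespace Tog

theorem mem_run {S : Finset ℤ} {t j : ℤ} : j ∈ run S t ↔ j ∈ S ∧ j ≤ t ∧ Finset.Icc j t ⊆ S := by
  simp [run]

theorem self_mem_run {S : Finset ℤ} {t : ℤ} (ht : t ∈ S) : t ∈ run S t := by
  rw [mem_run]
  refine ⟨ht, le_rfl, ?_⟩
  simpa using ht

theorem le_M (U : ℤ → ℝ) {S : Finset ℤ} {t j : ℤ} (hj : j ∈ run S t) :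
    U j ≤ sSup (U '' (run S t : Set ℤ)) :=
  le_csSup ((Finset.finite_toSet _).image U).bddAbove ⟨j, hj, rfl⟩

theorem exists_M (U : ℤ → ℝ) {S : Finset ℤ} {t : ℤ} (ht : t ∈ S) :
    ∃ j ∈ run S t, sSup (U '' (run S t : Set ℤ)) = U j := by
  have hne : (U '' (run S t : Set ℤ)).Nonempty := ⟨U t, t, self_mem_run ht, rfl⟩
  obtain ⟨j, hj, hj'⟩ := hne.csSup_mem ((Finset.finite_toSet _).image U)
  exact ⟨j, hj, hj'.symm⟩

theorem top_unique {S : Finset ℤ} {j t t' : ℤ} (ht : t + 1 ∉ S) (ht' : t' + 1 ∉ S)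
    (h1 : j ≤ t) (h1' : j ≤ t') (h2 : Finset.Icc j t ⊆ S) (h2' : Finset.Icc j t' ⊆ S) : t = t' := by
  rcases lt_trichotomy t t' with h | h | h
  · exact absurd (h2' (Finset.mem_Icc.2 ⟨by omega, by omega⟩)) ht
  · exact h
  · exact absurd (h2 (Finset.mem_Icc.2 ⟨by omega, by omega⟩)) ht'

theorem exists_top {S : Finset ℤ} {j : ℤ} (hj : j ∈ S) :
    ∃ t ∈ S.filter (fun t => t + 1 ∉ S), j ∈ run S t := by
  classical
  have hne : (S.filter fun t => j ∈ run S t).Nonempty :=
    ⟨j, Finset.mem_filter.2 ⟨hj, self_mem_run hj⟩⟩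
  obtain ⟨t, ht, hmax⟩ := Finset.exists_max_image _ (fun t : ℤ => t) hne
  obtain ⟨htS, hjt⟩ := Finset.mem_filter.1 ht
  refine ⟨t, Finset.mem_filter.2 ⟨htS, fun h => ?_⟩, hjt⟩
  obtain ⟨_, h1, h2⟩ := mem_run.1 hjt
  have : t + 1 ∈ S.filter fun t => j ∈ run S t := by
    refine Finset.mem_filter.2 ⟨h, mem_run.2 ⟨hj, by omega, fun i hi => ?_⟩⟩
    rw [Finset.mem_Icc] at hi
    by_cases hi' : i = t + 1
    · rw [hi']; exact h
    · exact h2 (Finset.mem_Icc.2 ⟨hi.1, by omega⟩)
  have := hmax _ this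
  omega

theorem ii_gen (K : Finset ℤ) (p : ℤ → ℝ) (Φ : Finset ℤ → ℝ)
    (inst : ∀ θ : ℝ, DecidablePred fun k => θ < p k) :
    IntervalIntegrable (fun θ : ℝ => Φ (@Finset.filter _ (fun k => θ < p k) (inst θ) K))
      volume 0 1 := by
  classical
  let _ : MeasurableSpace (Finset ℤ) := ⊤
  have hm : Measurable (fun θ : ℝ => @Finset.filter _ (fun k => θ < p k) (inst θ) K) := by
    refine measurable_to_countable' fun S => ?_
    have : (fun θ : ℝ => @Finset.filter _ (fun k => θ < p k) (inst θ) K) ⁻¹' {S} =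
        ⋂ k : ℤ, {θ : ℝ | (k ∈ K ∧ θ < p k) ↔ k ∈ S} := by
      ext θ
      simp only [Set.mem_preimage, Set.mem_singleton_iff, Set.mem_iInter, Set.mem_ofPred_eq,
        Finset.ext_iff, Finset.mem_filter]
    rw [this]
    refine MeasurableSet.iInter fun k => ?_
    by_cases h1 : k ∈ K <;> by_cases h2 : k ∈ S
    · simp only [h1, h2, true_and, iff_true]; exact measurableSet_Iio
    · simp only [h1, h2, true_and, iff_false, not_lt]; exact measurableSet_Ici
    · simp [h1, h2]
    · simp [h1, h2]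
  have hm2 : Measurable (fun θ : ℝ => Φ (@Finset.filter _ (fun k => θ < p k) (inst θ) K)) :=
    (measurable_from_top (f := Φ)).comp hm
  rw [intervalIntegrable_iff_integrableOn_Ioc_of_le zero_le_one]
  refine Measure.integrableOn_of_bounded (M := ∑ S ∈ K.powerset, |Φ S|) (by simp)
    hm2.aestronglyMeasurable (Filter.Eventually.of_forall fun θ => ?_)
  rw [Real.norm_eq_abs]
  exact Finset.single_le_sum (f := fun S => |Φ S|) (fun _ _ => abs_nonneg _)
    (Finset.mem_powerset.2 (Finset.filter_subset _ _))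

theorem ii_ind (s : Set ℝ) (hs : MeasurableSet s) :
    IntervalIntegrable (s.indicator fun _ => (1 : ℝ)) volume 0 1 := by
  rw [intervalIntegrable_iff_integrableOn_Ioc_of_le zero_le_one]
  exact (integrableOn_const (by simp)).indicator hs

theorem int_ind (s : Set ℝ) (hs : MeasurableSet s) :
    ∫ θ in (0 : ℝ)..1, s.indicator (fun _ => (1 : ℝ)) θ = (volume (s ∩ Set.Ioc 0 1)).toReal := by
  rw [intervalIntegral.integral_of_le zero_le_one, integral_indicator hs,
    Measure.restrict_restrict hs]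
  simp [Measure.real]

theorem int_Ico (a b : ℝ) :
    ∫ θ in (0 : ℝ)..1, (Set.Ico a b).indicator (fun _ => (1 : ℝ)) θ ≤ |b - a| := by
  rw [int_ind _ measurableSet_Ico]
  refine ENNReal.toReal_le_of_le_ofReal (abs_nonneg _) ?_
  refine (measure_mono Set.inter_subset_left).trans ?_
  rw [Real.volume_Ico]
  exact ENNReal.ofReal_le_ofReal (le_abs_self _)

theorem int_Iio (a : ℝ) (h0 : 0 ≤ a) (h1 : a ≤ 1) :
    ∫ θ in (0 : ℝ)..1, (Set.Iio a).indicator (fun _ => (1 : ℝ)) θ = a := by
  rw [int_ind _ measurableSet_Iio]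
  have : Set.Iio a ∩ Set.Ioc 0 1 = Set.Ioo 0 a := by
    ext x
    simp only [Set.mem_inter_iff, Set.mem_Iio, Set.mem_Ioc, Set.mem_Ioo]
    constructor
    · rintro ⟨h, h', _⟩; exact ⟨h', h⟩
    · rintro ⟨h, h'⟩; exact ⟨h', h, by linarith⟩
  rw [this, Real.volume_Ioo, ENNReal.toReal_ofReal (by linarith)]
  ring

end Tog

open Tog

/-- functions of the level set are step functions: `= ∑_{S ∈ K.powerset} indicator {θ | filter = S}` -/
theorem intervalIntegrable_filter (K : Finset ℤ) (p : ℤ → ℝ) (Φ : Finset ℤ → ℝ) :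
    IntervalIntegrable (fun θ : ℝ => Φ (@Finset.filter _ (fun k => θ < p k)
      (fun _ => Classical.propDecidable _) K)) volume 0 1 := by
  exact ii_gen K p Φ _

/-- Inserting the level `k` changes only the terms `t = k - 1`, `t = k` (each at most `J`) and the
top of the run containing `k + 1` (its supremum grows by at most `J`; there is at most one such
top). -/
theorem Hs_insert {k₀ k₁ k : ℤ} {U ref : ℤ → ℝ} {J : ℝ} (hJ : 0 ≤ J) {S : Finset ℤ}
    (hS : S ⊆ Finset.Icc k₀ k₁) (hk : k ∈ Finset.Icc k₀ k₁) (hkS : k ∉ S)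
    (h1 : ∀ j j', k₀ ≤ j → j ≤ k → k₀ ≤ j' → j' ≤ k → |U j - ref j'| ≤ J)
    (h2 : k + 1 ≤ k₁ → ∀ j, k₀ ≤ j → j ≤ k → U j - U (k + 1) ≤ J) :
    |Hs U ref (insert k S) - Hs U ref S| ≤ 3 * J := by
  classical
  have hk' := Finset.mem_Icc.1 hk
  set T := S.filter (fun t => t + 1 ∉ S) with hT
  set T' := (insert k S).filter (fun t => t + 1 ∉ insert k S) with hT'
  set a : ℤ → ℝ := fun t => sSup (U '' (run S t : Set ℤ)) - ref t with ha
  set a' : ℤ → ℝ := fun t => sSup (U '' (run (insert k S) t : Set ℤ)) - ref t with ha'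
  have hC : T'.erase k = T.erase (k - 1) := by
    ext t
    simp only [hT, hT', Finset.mem_erase, Finset.mem_filter, Finset.mem_insert, not_or]
    constructor
    · rintro ⟨h1, h2 | h2, h3, h4⟩
      · exact absurd h2 h1
      · exact ⟨by omega, h2, h4⟩
    · rintro ⟨h1, h2, h3⟩
      refine ⟨fun h => hkS (h ▸ h2), Or.inr h2, by omega, h3⟩
  have e1 : |∑ t ∈ T', a' t - ∑ t ∈ T'.erase k, a' t| ≤ J := by
    by_cases h : k ∈ T'
    · rw [← Finset.add_sum_erase _ _ h, add_sub_cancel_right]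
      obtain ⟨j, hj, hj'⟩ := exists_M U (S := insert k S) (t := k) (Finset.mem_insert_self _ _)
      obtain ⟨hj1, hj2, _⟩ := mem_run.1 hj
      simp only [ha', hj']
      refine h1 j k ?_ hj2 hk'.1 le_rfl
      rcases Finset.mem_insert.1 hj1 with h | h
      · omega
      · exact (Finset.mem_Icc.1 (hS h)).1
    · rw [Finset.erase_eq_of_notMem h]; simpa using hJ
  have e2 : |∑ t ∈ T, a t - ∑ t ∈ T.erase (k - 1), a t| ≤ J := by
    by_cases h : k - 1 ∈ T
    · rw [← Finset.add_sum_erase _ _ h, add_sub_cancel_right]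
      have hm : k - 1 ∈ S := (Finset.mem_filter.1 h).1
      obtain ⟨j, hj, hj'⟩ := exists_M U hm
      obtain ⟨hj1, hj2, _⟩ := mem_run.1 hj
      simp only [ha, hj']
      exact h1 j (k - 1) (Finset.mem_Icc.1 (hS hj1)).1 (by omega) (Finset.mem_Icc.1 (hS hm)).1
        (by omega)
    · rw [Finset.erase_eq_of_notMem h]; simpa using hJ
  have e3 : |∑ t ∈ T.erase (k - 1), a' t - ∑ t ∈ T.erase (k - 1), a t| ≤ J := by
    rw [← Finset.sum_sub_distrib]
    refine (Finset.abs_sum_le_sum_abs _ _).trans ?_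
    have hb : ∀ t ∈ T.erase (k - 1), |a' t - a t| ≤
        if k + 1 ≤ t ∧ Finset.Icc (k + 1) t ⊆ S then J else 0 := by
      intro t ht
      have htS : t ∈ S := (Finset.mem_filter.1 (Finset.mem_erase.1 ht).2).1
      have hsub : run S t ⊆ run (insert k S) t := by
        intro j hj
        obtain ⟨b1, b2, b3⟩ := mem_run.1 hj
        exact mem_run.2 ⟨Finset.mem_insert_of_mem b1, b2, b3.trans (Finset.subset_insert _ _)⟩
      have hnew : ∀ j ∈ run (insert k S) t, j ∉ run S t →
          j ≤ k ∧ k + 1 ≤ t ∧ Finset.Icc (k + 1) t ⊆ S := by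
        intro j hj hj'
        obtain ⟨b1, b2, b3⟩ := mem_run.1 hj
        have hkm : k ∈ Finset.Icc j t := by
          by_contra hcon
          refine hj' (mem_run.2 ⟨?_, b2, fun i hi => ?_⟩)
          · rcases Finset.mem_insert.1 b1 with h | h
            · exact absurd (Finset.mem_Icc.2 ⟨h.le, h ▸ b2⟩) hcon
            · exact h
          · rcases Finset.mem_insert.1 (b3 hi) with h | h
            · exact absurd (h ▸ hi) hcon
            · exact h
        rw [Finset.mem_Icc] at hkm
        have hkt : k ≠ t := fun h => hkS (h ▸ htS)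
        refine ⟨hkm.1, by omega, fun i hi => ?_⟩
        rw [Finset.mem_Icc] at hi
        rcases Finset.mem_insert.1 (b3 (Finset.mem_Icc.2 ⟨by omega, hi.2⟩)) with h | h
        · omega
        · exact h
      obtain ⟨j, hj, hj'⟩ := exists_M U htS
      obtain ⟨i, hi, hi'⟩ := exists_M U (S := insert k S) (Finset.mem_insert_of_mem htS)
      have l1 : U j ≤ U i := hi' ▸ le_M U (hsub hj)
      have e : a' t - a t = U i - U j := by simp only [ha, ha', hi', hj']; ring
      rw [e, abs_of_nonneg (by linarith)]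
      by_cases hir : i ∈ run S t
      · have l2 : U i ≤ U j := hj' ▸ le_M U hir
        split_ifs <;> linarith
      · obtain ⟨c1, c2, c3⟩ := hnew i hi hir
        rw [if_pos ⟨c2, c3⟩]
        have hk1 : k + 1 ∈ run S t :=
          mem_run.2 ⟨c3 (Finset.mem_Icc.2 ⟨le_rfl, c2⟩), c2, c3⟩
        have l2 : U (k + 1) ≤ U j := hj' ▸ le_M U hk1
        have hi0 : k₀ ≤ i := by
          rcases Finset.mem_insert.1 (mem_run.1 hi).1 with h | h
          · omega
          · exact (Finset.mem_Icc.1 (hS h)).1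
        have := h2 (c2.trans (Finset.mem_Icc.1 (hS htS)).2) i hi0 c1
        linarith
    refine (Finset.sum_le_sum hb).trans ?_
    rw [← Finset.sum_filter, Finset.sum_const, nsmul_eq_mul]
    have : ((T.erase (k - 1)).filter fun t => k + 1 ≤ t ∧ Finset.Icc (k + 1) t ⊆ S).card ≤ 1 := by
      refine Finset.card_le_one.2 fun t ht t' ht' => ?_
      obtain ⟨b1, b2, b3⟩ := Finset.mem_filter.1 ht
      obtain ⟨b1', b2', b3'⟩ := Finset.mem_filter.1 ht'
      exact top_unique (Finset.mem_filter.1 (Finset.mem_erase.1 b1).2).2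
        (Finset.mem_filter.1 (Finset.mem_erase.1 b1').2).2 b2 b2' b3 b3'
    have h' : (((T.erase (k - 1)).filter
        fun t => k + 1 ≤ t ∧ Finset.Icc (k + 1) t ⊆ S).card : ℝ) ≤ 1 := by exact_mod_cast this
    nlinarith
  have g1 : Hs U ref (insert k S) = ∑ t ∈ T', a' t := rfl
  have g2 : Hs U ref S = ∑ t ∈ T, a t := rfl
  rw [g1, g2]
  rw [hC] at e1
  rw [abs_le] at *
  constructor <;> linarith [e1.1, e1.2, e2.1, e2.2, e3.1, e3.2]

/-- toggle the levels of the symmetric difference one at a time;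
`vol {θ | (θ < p k) ≠ (θ < p' k)} ≤ |p k - p' k|` -/
theorem Hbar_tog {k₀ k₁ : ℤ} {U ref J : ℤ → ℝ} (p p' : ℤ → ℝ) (hJ : ∀ k, 0 ≤ J k)
    (h1 : ∀ k ∈ Finset.Icc k₀ k₁, ∀ j j', k₀ ≤ j → j ≤ k → k₀ ≤ j' → j' ≤ k →
      |U j - ref j'| ≤ J k)
    (h2 : ∀ k ∈ Finset.Icc k₀ k₁, k + 1 ≤ k₁ → ∀ j, k₀ ≤ j → j ≤ k → U j - U (k + 1) ≤ J k) :
    |Hbar (Finset.Icc k₀ k₁) U ref p - Hbar (Finset.Icc k₀ k₁) U ref p'| ≤
      ∑ k ∈ Finset.Icc k₀ k₁, 3 * J k * |p k - p' k| := by
  classical
  set K := Finset.Icc k₀ k₁ with hK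
  have step : ∀ D : Finset ℤ, D ⊆ K → ∀ S : Finset ℤ, S ⊆ K → Disjoint D S →
      |Hs U ref (D ∪ S) - Hs U ref S| ≤ ∑ k ∈ D, 3 * J k := by
    intro D
    induction D using Finset.induction_on with
    | empty => intro _ S _ _; simp
    | insert k D hkD ih =>
      intro hD S hS hdis
      have hkK : k ∈ K := hD (Finset.mem_insert_self _ _)
      have hDK : D ⊆ K := (Finset.subset_insert _ _).trans hD
      rw [Finset.disjoint_insert_left] at hdis
      have i1 := ih hDK S hS hdis.2
      have i2 := Hs_insert (U := U) (ref := ref) (hJ k) (S := D ∪ S) (Finset.union_subset hDK hS) hkK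
        (by simp [hkD, hdis.1]) (h1 k hkK) (h2 k hkK)
      rw [Finset.insert_union, Finset.sum_insert hkD]
      rw [abs_le] at *
      constructor <;> linarith [i1.1, i1.2, i2.1, i2.2]
  have pt : ∀ θ : ℝ, |Hs U ref (K.filter fun k => θ < p k) - Hs U ref (K.filter fun k => θ < p' k)|
      ≤ ∑ k ∈ K, 3 * J k *
        (Set.Ico (min (p k) (p' k)) (max (p k) (p' k))).indicator (fun _ => (1 : ℝ)) θ := by
    intro θ
    set S := K.filter fun k => θ < p k with hSd
    set S' := K.filter fun k => θ < p' k with hSd'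
    have hS : S ⊆ K := Finset.filter_subset _ _
    have hS' : S' ⊆ K := Finset.filter_subset _ _
    have i1 := step (S' \ S) (Finset.sdiff_subset.trans hS') S hS Finset.sdiff_disjoint
    have i2 := step (S \ S') (Finset.sdiff_subset.trans hS) S' hS' Finset.sdiff_disjoint
    rw [Finset.sdiff_union_self_eq_union] at i1 i2
    rw [Finset.union_comm] at i1
    have i3 : ∑ k ∈ S' \ S, 3 * J k + ∑ k ∈ S \ S', 3 * J k ≤ ∑ k ∈ K, 3 * J k *
        (Set.Ico (min (p k) (p' k)) (max (p k) (p' k))).indicator (fun _ => (1 : ℝ)) θ := by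
      rw [← Finset.sum_union disjoint_sdiff_sdiff]
      refine le_trans (le_of_eq ?_) (Finset.sum_le_sum_of_subset_of_nonneg
        (s := S' \ S ∪ S \ S') (Finset.union_subset (Finset.sdiff_subset.trans hS')
          (Finset.sdiff_subset.trans hS)) fun k _ _ => ?_)
      · refine Finset.sum_congr rfl fun k hk => ?_
        rw [Set.indicator_of_mem, mul_one]
        simp only [hSd, hSd', Finset.mem_union, Finset.mem_sdiff, Finset.mem_filter, not_and,
          not_lt] at hk
        rw [Set.mem_Ico]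
        rcases hk with ⟨⟨b1, b2⟩, b3⟩ | ⟨⟨b1, b2⟩, b3⟩
        · exact ⟨(min_le_left _ _).trans (b3 b1), b2.trans_le (le_max_right _ _)⟩
        · exact ⟨(min_le_right _ _).trans (b3 b1), b2.trans_le (le_max_left _ _)⟩
      · exact mul_nonneg (by linarith [hJ k]) (Set.indicator_nonneg (fun _ _ => zero_le_one) _)
    rw [abs_le] at *
    constructor <;> linarith [i1.1, i1.2, i2.1, i2.2]
  have hi : ∀ k ∈ K, IntervalIntegrable (fun θ => 3 * J k *
      (Set.Ico (min (p k) (p' k)) (max (p k) (p' k))).indicator (fun _ => (1 : ℝ)) θ) volume 0 1 :=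
    fun k _ => (ii_ind _ measurableSet_Ico).const_mul _
  unfold Hbar
  rw [← intervalIntegral.integral_sub (ii_gen _ _ _ _) (ii_gen _ _ _ _)]
  refine (intervalIntegral.abs_integral_le_integral_abs zero_le_one).trans ?_
  refine (intervalIntegral.integral_mono_on zero_le_one
    ((ii_gen _ _ _ _).sub (ii_gen _ _ _ _)).abs
    (by simpa [Finset.sum_fn] using IntervalIntegrable.sum K hi) fun θ _ => pt θ).trans ?_
  rw [intervalIntegral.integral_finsetSum hi]
  refine Finset.sum_le_sum fun k _ => ?_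
  rw [intervalIntegral.integral_const_mul]
  refine mul_le_mul_of_nonneg_left ((int_Ico _ _).trans (le_of_eq ?_)) (by linarith [hJ k])
  rw [max_sub_min_eq_abs, abs_abs, abs_sub_comm]

/-- For fixed `θ` and each top `t` pick `j_t ∈ run S t` maximising `U` (`j_t = ks` if
`ks ∈ run S t`); the `j_t` are distinct.  `t` is a top of `S_θ` only if `p (t+1) ≤ θ < p t`. -/
theorem Hbar_mov {k₀ k₁ ks : ℤ} {U U' ref ref' p N : ℤ → ℝ}
    (hp : ∀ k, 0 ≤ p k ∧ p k ≤ 1) (hp1 : p (k₁ + 1) = 0) (hN : ∀ k, 0 ≤ N k)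
    (hU : ∀ j ∈ Finset.Icc k₀ k₁, 0 < p j → -N j ≤ U' j - U j) (hks : ks ∈ Finset.Icc k₀ k₁)
    (hmax : ∀ j ∈ Finset.Icc k₀ k₁, U j ≤ U ks) :
    p ks * max (U' ks - U ks) 0 - ∑ j ∈ Finset.Icc k₀ k₁, N j -
        ∑ t ∈ Finset.Icc k₀ k₁, |p t - p (t + 1)| * |ref' t - ref t| ≤
      Hbar (Finset.Icc k₀ k₁) U' ref' p - Hbar (Finset.Icc k₀ k₁) U ref p := by
  classical
  set K := Finset.Icc k₀ k₁ with hK
  set m := max (U' ks - U ks) 0 with hm
  have hm0 : 0 ≤ m := le_max_right _ _
  have pt : ∀ θ ∈ Set.Icc (0 : ℝ) 1, m * (Set.Iio (p ks)).indicator (fun _ => (1 : ℝ)) θ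
      - ∑ j ∈ K, N j - ∑ t ∈ K, |ref' t - ref t| *
        (Set.Ico (p (t + 1)) (p t)).indicator (fun _ => (1 : ℝ)) θ ≤
      Hs U' ref' (K.filter fun k => θ < p k) - Hs U ref (K.filter fun k => θ < p k) := by
    intro θ hθ
    set S := K.filter fun k => θ < p k with hSd
    have hS : S ⊆ K := Finset.filter_subset _ _
    set T := S.filter (fun t => t + 1 ∉ S) with hT
    have hb : ∀ t ∈ T, (if ks ∈ run S t then m else 0) -
        (∑ j ∈ K, if j ∈ run S t then N j else 0) - |ref' t - ref t| ≤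
        (sSup (U' '' (run S t : Set ℤ)) - ref' t) - (sSup (U '' (run S t : Set ℤ)) - ref t) := by
      intro t ht
      have htS : t ∈ S := (Finset.mem_filter.1 ht).1
      have hNj : ∀ j ∈ run S t, N j ≤ ∑ j ∈ K, if j ∈ run S t then N j else 0 := by
        intro j hj
        have := Finset.single_le_sum (f := fun j => if j ∈ run S t then N j else 0) (s := K)
          (fun i _ => by split_ifs; exacts [hN i, le_rfl]) (hS (mem_run.1 hj).1)
        simpa [hj] using this
      have hUj : ∀ j ∈ run S t, -N j ≤ U' j - U j := by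
        intro j hj
        have := Finset.mem_filter.1 (mem_run.1 hj).1
        exact hU j this.1 (hθ.1.trans_lt this.2)
      obtain ⟨j, hj, hj'⟩ := exists_M U htS
      have hr := le_abs_self (ref' t - ref t)
      split_ifs with h
      · have b1 := le_M U' h
        have b2 := hmax j (hS (mem_run.1 hj).1)
        have b3 := hNj ks h
        have b4 := hUj ks h
        have b5 : m - N ks ≤ U' ks - U ks := by
          rcases le_total (U' ks - U ks) 0 with h | h
          · rw [hm, max_eq_right h]; linarith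
          · rw [hm, max_eq_left h]; linarith [hN ks]
        linarith
      · have b1 := le_M U' hj
        have b3 := hNj j hj
        have b4 := hUj j hj
        linarith
    have hsum := Finset.sum_le_sum hb
    rw [Finset.sum_sub_distrib, Finset.sum_sub_distrib, Finset.sum_sub_distrib] at hsum
    have g1 : Hs U' ref' S = ∑ t ∈ T, (sSup (U' '' (run S t : Set ℤ)) - ref' t) := rfl
    have g2 : Hs U ref S = ∑ t ∈ T, (sSup (U '' (run S t : Set ℤ)) - ref t) := rfl
    have c1 : m * (Set.Iio (p ks)).indicator (fun _ => (1 : ℝ)) θ ≤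
        ∑ t ∈ T, if ks ∈ run S t then m else 0 := by
      have hnn : ∀ t ∈ T, 0 ≤ if ks ∈ run S t then m else 0 := fun t _ => by
        split_ifs; exacts [hm0, le_rfl]
      by_cases h : θ < p ks
      · obtain ⟨t, ht, ht'⟩ := exists_top (S := S) (j := ks) (Finset.mem_filter.2 ⟨hks, h⟩)
        have := Finset.single_le_sum hnn ht
        rw [if_pos ht'] at this
        rw [Set.indicator_of_mem (by exact h), mul_one]
        exact this
      · rw [Set.indicator_of_notMem (by exact h), mul_zero]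
        exact Finset.sum_nonneg hnn
    have c2 : (∑ t ∈ T, ∑ j ∈ K, if j ∈ run S t then N j else 0) ≤ ∑ j ∈ K, N j := by
      rw [Finset.sum_comm]
      refine Finset.sum_le_sum fun j _ => ?_
      rw [← Finset.sum_filter, Finset.sum_const, nsmul_eq_mul]
      have : (T.filter fun t => j ∈ run S t).card ≤ 1 := by
        refine Finset.card_le_one.2 fun t ht t' ht' => ?_
        obtain ⟨b1, b2⟩ := Finset.mem_filter.1 ht
        obtain ⟨b1', b2'⟩ := Finset.mem_filter.1 ht'
        exact top_unique (Finset.mem_filter.1 b1).2 (Finset.mem_filter.1 b1').2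
          (mem_run.1 b2).2.1 (mem_run.1 b2').2.1 (mem_run.1 b2).2.2 (mem_run.1 b2').2.2
      have h' : ((T.filter fun t => j ∈ run S t).card : ℝ) ≤ 1 := by exact_mod_cast this
      nlinarith [hN j]
    have c3 : ∑ t ∈ T, |ref' t - ref t| ≤ ∑ t ∈ K, |ref' t - ref t| *
        (Set.Ico (p (t + 1)) (p t)).indicator (fun _ => (1 : ℝ)) θ := by
      refine le_trans (le_of_eq ?_) (Finset.sum_le_sum_of_subset_of_nonneg (s := T)
        ((Finset.filter_subset _ _).trans hS) fun k _ _ => ?_)
      · refine Finset.sum_congr rfl fun t ht => ?_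
        obtain ⟨b1, b2⟩ := Finset.mem_filter.1 ht
        obtain ⟨b3, b4⟩ := Finset.mem_filter.1 b1
        rw [Set.indicator_of_mem, mul_one]
        refine ⟨?_, b4⟩
        by_cases h : t = k₁
        · rw [h, hp1]; exact hθ.1
        · by_contra hcon
          rw [hK, Finset.mem_Icc] at b3
          exact b2 (Finset.mem_filter.2 ⟨Finset.mem_Icc.2 ⟨by omega, by omega⟩, not_le.1 hcon⟩)
      · exact mul_nonneg (abs_nonneg _) (Set.indicator_nonneg (fun _ _ => zero_le_one) _)
    rw [g1, g2]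
    linarith
  have hi : ∀ t ∈ K, IntervalIntegrable (fun θ => |ref' t - ref t| *
      (Set.Ico (p (t + 1)) (p t)).indicator (fun _ => (1 : ℝ)) θ) volume 0 1 :=
    fun k _ => (ii_ind _ measurableSet_Ico).const_mul _
  have hi1 : IntervalIntegrable (fun θ => ∑ t ∈ K, |ref' t - ref t| *
      (Set.Ico (p (t + 1)) (p t)).indicator (fun _ => (1 : ℝ)) θ) volume 0 1 := by
    simpa [Finset.sum_fn] using IntervalIntegrable.sum K hi
  have hi2 : IntervalIntegrable (fun θ => m * (Set.Iio (p ks)).indicator (fun _ => (1 : ℝ)) θ)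
      volume 0 1 := (ii_ind _ measurableSet_Iio).const_mul _
  unfold Hbar
  rw [← intervalIntegral.integral_sub (ii_gen _ _ _ _) (ii_gen _ _ _ _)]
  refine le_trans ?_ (intervalIntegral.integral_mono_on zero_le_one
    ((hi2.sub intervalIntegrable_const).sub hi1) ((ii_gen _ _ _ _).sub (ii_gen _ _ _ _)) pt)
  rw [intervalIntegral.integral_sub (hi2.sub intervalIntegrable_const) hi1,
    intervalIntegral.integral_sub hi2 intervalIntegrable_const,
    intervalIntegral.integral_const_mul, int_Iio _ (hp ks).1 (hp ks).2,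
    intervalIntegral.integral_finsetSum hi, intervalIntegral.integral_const]
  have : ∑ t ∈ K, ∫ θ in (0 : ℝ)..1, |ref' t - ref t| *
      (Set.Ico (p (t + 1)) (p t)).indicator (fun _ => (1 : ℝ)) θ ≤
      ∑ t ∈ K, |p t - p (t + 1)| * |ref' t - ref t| := by
    refine Finset.sum_le_sum fun t _ => ?_
    rw [intervalIntegral.integral_const_mul, mul_comm]
    exact mul_le_mul_of_nonneg_right (int_Ico _ _) (abs_nonneg _)
  simp only [sub_zero, smul_eq_mul, one_mul]
  linarith

theorem Hbar_lip (K : Finset ℤ) (U U' ref ref' p : ℤ → ℝ) :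
    |Hbar K U ref p - Hbar K U' ref' p| ≤
      K.card * ∑ k ∈ K, (|U k - U' k| + |ref k - ref' k|) := by
  classical
  have pt : ∀ S : Finset ℤ, S ⊆ K → |Hs U ref S - Hs U' ref' S| ≤
      K.card * ∑ k ∈ K, (|U k - U' k| + |ref k - ref' k|) := by
    intro S hS
    unfold Hs
    rw [← Finset.sum_sub_distrib]
    refine (Finset.abs_sum_le_sum_abs _ _).trans ?_
    have hnn : 0 ≤ ∑ k ∈ K, (|U k - U' k| + |ref k - ref' k|) :=
      Finset.sum_nonneg fun _ _ => by positivity
    have hb : ∀ t ∈ S.filter (fun t => t + 1 ∉ S),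
        |(sSup (U '' (run S t : Set ℤ)) - ref t) - (sSup (U' '' (run S t : Set ℤ)) - ref' t)| ≤
        ∑ k ∈ K, (|U k - U' k| + |ref k - ref' k|) := by
      intro t ht
      have htS : t ∈ S := (Finset.mem_filter.1 ht).1
      obtain ⟨j, hj, hj'⟩ := exists_M U htS
      obtain ⟨i, hi, hi'⟩ := exists_M U' htS
      have b1 := le_M U hi
      have b2 := le_M U' hj
      have s1 := Finset.single_le_sum (f := fun k => |U k - U' k|) (s := K)
        (fun _ _ => abs_nonneg _) (hS (mem_run.1 hj).1)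
      have s2 := Finset.single_le_sum (f := fun k => |U k - U' k|) (s := K)
        (fun _ _ => abs_nonneg _) (hS (mem_run.1 hi).1)
      have s3 := Finset.single_le_sum (f := fun k => |ref k - ref' k|) (s := K)
        (fun _ _ => abs_nonneg _) (hS htS)
      rw [Finset.sum_add_distrib, abs_le]
      have := abs_le.1 (le_refl |U j - U' j|)
      have := abs_le.1 (le_refl |U i - U' i|)
      have := abs_le.1 (le_refl |ref t - ref' t|)
      constructor <;> linarith
    refine (Finset.sum_le_card_nsmul _ _ _ hb).trans ?_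
    rw [nsmul_eq_mul]
    refine mul_le_mul_of_nonneg_right ?_ hnn
    exact_mod_cast Finset.card_le_card ((Finset.filter_subset _ _).trans hS)
  unfold Hbar
  rw [← intervalIntegral.integral_sub (ii_gen _ _ _ _) (ii_gen _ _ _ _)]
  have := intervalIntegral.norm_integral_le_of_norm_le_const (a := 0) (b := 1)
    (C := K.card * ∑ k ∈ K, (|U k - U' k| + |ref k - ref' k|))
    (f := fun θ : ℝ => Hs U ref (K.filter fun k => θ < p k) - Hs U' ref' (K.filter fun k => θ < p k))
    (fun θ _ => pt _ (Finset.filter_subset _ _))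
  simpa using this

theorem Hbar_zero {K : Finset ℤ} {U ref : ℤ → ℝ} (p : ℤ → ℝ) (h : ∀ k ∈ K, U k = 0 ∧ ref k = 0) :
    Hbar K U ref p = 0 := by
  classical
  have pt : ∀ S : Finset ℤ, S ⊆ K → Hs U ref S = 0 := by
    intro S hS
    refine Finset.sum_eq_zero fun t ht => ?_
    have htS : t ∈ S := (Finset.mem_filter.1 ht).1
    obtain ⟨j, hj, hj'⟩ := exists_M U htS
    rw [hj', (h j (hS (mem_run.1 hj).1)).1, (h t (hS htS)).2, sub_zero]
  unfold Hbar
  simp only [pt _ (Finset.filter_subset _ _), intervalIntegral.integral_zero]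

end Crest.Agent.R112
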