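import Crest.Agent.R112.Osc
import Crest.Agent.R112.Tog

/-! # Row 112: the telescoped functional (task MAINA) -/

set_option autoImplicit false

namespace Crest.Agent.R112

open MeasureTheory Metric
open scoped RealInnerProductSpace

/-- the telescoped functional -/
noncomputable def HH (f : E → ℝ) (F : ℤ → ℤ × ℤ → ℝ) (k₀ k₁ : ℤ) (x : E) : ℝ :=
  Hbar (Finset.Icc k₀ k₁) (fun k => ww f (2 ^ k) (2 * 2 ^ k) x) (fun k => rf f k x)
    (fun k => itp k (F k) x)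

/-- local mass -/
noncomputable def mu (g : E → E) (l : ℤ) (x : E) : ℝ :=
  (nm (fun v => ‖v‖) g l).real (closedBall x (4 * 2 ^ l))

/-- weighted local masses (`w k` = weight of the level `k` at the point `x`) -/
noncomputable def WW (g : E → E) (w : ℤ → ℝ) (k₀ k₁ : ℤ) (x : E) : ℝ :=
  ∑ k ∈ Finset.Icc k₀ k₁, ∑ l ∈ Finset.Icc k₀ k, w k * mu g l x / (2 ^ k * 2 ^ l)

theorem WW_nonneg (g : E → E) {w : ℤ → ℝ} (hw : ∀ k, 0 ≤ w k) (k₀ k₁ : ℤ) (x : E) :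
    0 ≤ WW g w k₀ k₁ x := by
  unfold WW mu
  exact Finset.sum_nonneg fun k _ => Finset.sum_nonneg fun l _ =>
    div_nonneg (mul_nonneg (hw k) measureReal_nonneg) (by positivity)

/-- `Sm.far` with `b = 2 * 2^k₁`, `exists_isMx`, `IsMx.ww_eq`, `Hbar_zero` -/
theorem HH_far {f : E → ℝ} (hf : Sm f) (k₀ k₁ : ℤ) : ∃ R : ℝ, 0 < R ∧ ∀ x : E, R ≤ ‖x‖ →
    (∀ F, HH f F k₀ k₁ x = 0) ∧ ∀ r, r ≤ 2 * 2 ^ k₁ → GG (gradient f) x r = 0 := by
  obtain ⟨R, hR, hfar⟩ := hf.far (2 * 2 ^ k₁)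
  refine ⟨R, hR, fun x hx => ⟨fun F => ?_, fun r hr => (hfar x hx r hr).2⟩⟩
  unfold HH
  refine Hbar_zero _ fun k hk => ?_
  have hk1 : (2 : ℝ) ^ k ≤ 2 ^ k₁ := zpow_le_zpow_right₀ one_le_two (Finset.mem_Icc.1 hk).2
  have hpos : (0 : ℝ) < 2 ^ k := by positivity
  constructor
  · obtain ⟨r, hr⟩ := exists_isMx hf.integrable hpos (by linarith : (2 : ℝ) ^ k ≤ 2 * 2 ^ k) x
    rw [hr.ww_eq]
    exact (hfar x hx r (by linarith [hr.1.2])).1
  · have := rf_mem hf.integrable k x (c := 0) (J := 0) fun r hr => by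
      rw [(hfar x hx r (by linarith [hr.2])).1]; simp
    simpa using this

/-- `HH` is continuous: `|HH y - HH x| ≤ [Hbar_lip] + [Hbar_tog at the fixed point x, with the
constant J = ∑_{j ∈ K} 2 (|U j| + |ref j|)]`, and both bounds tend to `0` as `y → x`
(`Apx.ww_lip`, `Sm.continuous_rf`, `continuous_itp`); compact support by `HH_far`. -/
theorem HH_integrable {f : E → ℝ} (hf : Sm f) {F : ℤ → ℤ × ℤ → ℝ}
    (hF : ∀ k X, 0 ≤ F k X ∧ F k X ≤ 1) (k₀ k₁ : ℤ) : Integrable (HH f F k₀ k₁) := by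
  have cU : ∀ k : ℤ, Continuous (ww f (2 ^ k) (2 * 2 ^ k)) := by
    intro k
    have hpos : (0 : ℝ) < 2 ^ k := by positivity
    obtain ⟨L, hL⟩ := hf.apx.ww_lip hpos (by linarith : (2 : ℝ) ^ k ≤ 2 * 2 ^ k)
    exact hL.continuous
  have cR : ∀ k : ℤ, Continuous (rf f k) := hf.continuous_rf
  have cP : ∀ k : ℤ, Continuous (itp k (F k)) := fun k =>
    continuous_itp k (B := 1) fun X => by rw [abs_of_nonneg (hF k X).1]; exact (hF k X).2
  have hc : Continuous (HH f F k₀ k₁) := by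
    refine continuous_iff_continuousAt.2 fun x => ?_
    set K := Finset.Icc k₀ k₁ with hK
    set T : ℝ := ∑ j ∈ K, (|ww f (2 ^ j) (2 * 2 ^ j) x| + |rf f j x|) with hT
    have hT0 : 0 ≤ T := Finset.sum_nonneg fun _ _ => by positivity
    have hTj : ∀ j, k₀ ≤ j → j ≤ k₁ → |ww f (2 ^ j) (2 * 2 ^ j) x| ≤ T ∧ |rf f j x| ≤ T := by
      intro j h0 h1
      have := Finset.single_le_sum (f := fun j : ℤ => |ww f (2 ^ j) (2 * 2 ^ j) x| + |rf f j x|)
        (fun _ _ => by positivity) (show j ∈ K from Finset.mem_Icc.2 ⟨h0, h1⟩)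
      constructor <;> linarith [abs_nonneg (ww f (2 ^ j) (2 * 2 ^ j) x), abs_nonneg (rf f j x)]
    set b : E → ℝ := fun y => K.card * ∑ k ∈ K, (|ww f (2 ^ k) (2 * 2 ^ k) y -
      ww f (2 ^ k) (2 * 2 ^ k) x| + |rf f k y - rf f k x|) +
      ∑ k ∈ K, 3 * (2 * T) * |itp k (F k) y - itp k (F k) x| with hb
    have hbc : Continuous b := by
      refine (continuous_const.mul (continuous_finsetSum _ fun k _ => ?_)).add
        (continuous_finsetSum _ fun k _ => ?_)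
      · exact ((cU k).sub continuous_const).abs.add ((cR k).sub continuous_const).abs
      · exact continuous_const.mul ((cP k).sub continuous_const).abs
    have hb0 : b x = 0 := by simp [hb]
    have hle : ∀ y, ‖HH f F k₀ k₁ y - HH f F k₀ k₁ x‖ ≤ b y := by
      intro y
      have h1 := Hbar_lip K (fun k => ww f (2 ^ k) (2 * 2 ^ k) y)
        (fun k => ww f (2 ^ k) (2 * 2 ^ k) x) (fun k => rf f k y) (fun k => rf f k x)
        (fun k => itp k (F k) y)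
      have h2 := Hbar_tog (k₀ := k₀) (k₁ := k₁) (U := fun k => ww f (2 ^ k) (2 * 2 ^ k) x)
        (ref := fun k => rf f k x) (J := fun _ => 2 * T) (fun k => itp k (F k) y)
        (fun k => itp k (F k) x) (fun _ => by linarith)
        (fun k hk j j' a1 a2 a3 a4 => by
          have hk1 := (Finset.mem_Icc.1 hk).2
          have b1 := abs_le.1 (hTj j a1 (a2.trans hk1)).1
          have b2 := abs_le.1 (hTj j' a3 (a4.trans hk1)).2
          rw [abs_le]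
          constructor <;> linarith [b1.1, b1.2, b2.1, b2.2])
        (fun k hk a0 j a1 a2 => by
          have hk1 := Finset.mem_Icc.1 hk
          have b1 := abs_le.1 (hTj j a1 (a2.trans hk1.2)).1
          have b2 := abs_le.1 (hTj (k + 1) (by omega) a0).1
          linarith [b1.1, b1.2, b2.1, b2.2])
      rw [Real.norm_eq_abs]
      unfold HH
      rw [← hK] at h2 ⊢
      rw [abs_le] at h1 h2 ⊢
      constructor <;> linarith [h1.1, h1.2, h2.1, h2.2]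
    rw [ContinuousAt, tendsto_iff_norm_sub_tendsto_zero]
    refine squeeze_zero (fun _ => norm_nonneg _) hle ?_
    rw [← hb0]
    exact hbc.continuousAt
  obtain ⟨R, hR, hfar⟩ := HH_far hf k₀ k₁
  refine hc.integrable_of_hasCompactSupport ?_
  refine HasCompactSupport.intro (isCompact_closedBall (0 : E) R) fun x hx => ?_
  rw [mem_closedBall_zero_iff, not_le] at hx
  exact (hfar x hx.le).1 F

/-- `wsum` with `m = (k - l).toNat`: the term `(k, l)` has integral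
`≤ C 2^(-m) (∑' ω ‖Γ‖ + alpha k / qq^m)`; `∑ 2^(-m) ≤ 2`, `∑ (2 qq)^(-m) ≤ C` (`half_lt_qq`),
`sum_alpha_le`. -/
theorem WW_le : ∃ C : ℝ, 0 < C ∧ ∀ (g : E → E) (ω : ℤ → ℤ × ℤ → ℝ) (w : ℤ → E → ℝ) (k₀ k₁ : ℤ),
    Integrable g → (∀ k Z, 0 ≤ ω k Z ∧ ω k Z ≤ 1) → (∀ k, Measurable (w k)) →
    (∀ k x, 0 ≤ w k x) → (∀ k x Z, x ∈ box 5 k Z → w k x ≤ ω k Z) →
    Integrable (fun x => WW g (fun k => w k x) k₀ k₁ x) ∧
    ∫ x, WW g (fun k => w k x) k₀ k₁ x ≤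
      C * (∑ k ∈ Finset.Icc k₀ k₁, ∑' Z, ω k Z * ‖Gam g k Z‖ + ∫ y, ‖g y‖) := by
  obtain ⟨C, hC, hw⟩ := wsum
  obtain ⟨C', hC', hα⟩ := sum_alpha_le
  set ρ : ℝ := (2 * qq)⁻¹ with hρ
  have hq := half_lt_qq
  have hq1 := qq_lt_one
  have hρ0 : 0 ≤ ρ := by rw [hρ]; exact inv_nonneg.2 (by linarith)
  have hρ1 : ρ < 1 := inv_lt_one_of_one_lt₀ (by linarith)
  have hG : 0 < (1 - ρ)⁻¹ := inv_pos.2 (by linarith)
  refine ⟨C * (1 - ρ)⁻¹ * (1 + C'), by positivity, fun g ω w k₀ k₁ hg hω hm h0 hb => ?_⟩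
  have key : ∀ k l : ℤ, l ≤ k → Integrable (fun x => w k x * mu g l x / (2 ^ k * 2 ^ l)) ∧
      ∫ x, w k x * mu g l x / (2 ^ k * 2 ^ l) ≤
        C * (∑' Z, ω k Z * ‖Gam g k Z‖ + alpha g k) * ρ ^ (k - l).toNat := by
    intro k l hl
    obtain ⟨m, rfl⟩ : ∃ m : ℕ, l = k - m := ⟨(k - l).toNat, by omega⟩
    obtain ⟨hi, hle⟩ := hw g hg k m (ω k) (w k) (hω k) (hm k) (h0 k) (hb k)
    refine ⟨hi.div_const _, ?_⟩
    rw [integral_div, show (k - (k - m)).toNat = m by omega]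
    have hS : 0 ≤ ∑' Z, ω k Z * ‖Gam g k Z‖ :=
      tsum_nonneg fun Z => mul_nonneg (hω k Z).1 (norm_nonneg _)
    have ha := alpha_nonneg hg k
    have hqm : 0 < qq ^ m := pow_pos qq_pos m
    have hqm1 : qq ^ m ≤ 1 := pow_le_one₀ qq_pos.le hq1.le
    have e1 : (2 : ℝ) ^ k = 2 ^ (k - m) * 2 ^ m := by
      rw [← zpow_natCast, ← zpow_add₀ two_ne_zero]; congr 1; ring
    have hp : (0 : ℝ) < 2 ^ (k - m) := by positivity
    have hp2 : (0 : ℝ) < 2 ^ m := by positivity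
    rw [div_le_iff₀ (by positivity)]
    refine hle.trans ?_
    have e2 : C * (∑' Z, ω k Z * ‖Gam g k Z‖ + alpha g k) * ρ ^ m * (2 ^ k * 2 ^ (k - m)) =
        C * (2 ^ (k - m)) ^ 2 * ((∑' Z, ω k Z * ‖Gam g k Z‖) / qq ^ m + alpha g k / qq ^ m) := by
      rw [hρ, inv_pow, mul_pow]
      nth_rewrite 1 [e1]
      field_simp
    rw [e2]
    gcongr
    rw [le_div_iff₀ hqm]
    exact mul_le_of_le_one_right hS hqm1
  have geo : ∀ k : ℤ, ∑ l ∈ Finset.Icc k₀ k, ρ ^ (k - l).toNat ≤ (1 - ρ)⁻¹ := by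
    intro k
    rw [← Finset.sum_image (s := Finset.Icc k₀ k) (g := fun l => (k - l).toNat)
      (f := fun m => ρ ^ m), ← tsum_geometric_of_lt_one hρ0 hρ1]
    · exact (summable_geometric_of_lt_one hρ0 hρ1).sum_le_tsum _ fun _ _ => pow_nonneg hρ0 _
    · intro a ha b hb hab
      simp only [Finset.coe_Icc, Set.mem_Icc] at ha hb hab
      omega
  have hin : ∀ k : ℤ, Integrable fun x =>
      ∑ l ∈ Finset.Icc k₀ k, w k x * mu g l x / (2 ^ k * 2 ^ l) := fun k =>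
    integrable_finsetSum _ fun l hl => (key k l (Finset.mem_Icc.1 hl).2).1
  unfold WW
  refine ⟨integrable_finsetSum _ fun k _ => hin k, ?_⟩
  rw [integral_finsetSum _ fun k _ => hin k]
  have hn : 0 ≤ ∫ y, ‖g y‖ := integral_nonneg fun _ => norm_nonneg _
  have hS : ∀ k, 0 ≤ ∑' Z, ω k Z * ‖Gam g k Z‖ := fun k =>
    tsum_nonneg fun Z => mul_nonneg (hω k Z).1 (norm_nonneg _)
  calc ∑ k ∈ Finset.Icc k₀ k₁, ∫ x, ∑ l ∈ Finset.Icc k₀ k, w k x * mu g l x / (2 ^ k * 2 ^ l)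
      ≤ ∑ k ∈ Finset.Icc k₀ k₁, C * (1 - ρ)⁻¹ * (∑' Z, ω k Z * ‖Gam g k Z‖ + alpha g k) := by
        refine Finset.sum_le_sum fun k _ => ?_
        rw [integral_finsetSum _ fun l hl => (key k l (Finset.mem_Icc.1 hl).2).1]
        refine (Finset.sum_le_sum fun l hl => (key k l (Finset.mem_Icc.1 hl).2).2).trans ?_
        rw [← Finset.mul_sum]
        have := mul_le_mul_of_nonneg_left (geo k)
          (mul_nonneg hC.le (add_nonneg (hS k) (alpha_nonneg hg k)))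
        linarith
    _ = C * (1 - ρ)⁻¹ * (∑ k ∈ Finset.Icc k₀ k₁, ∑' Z, ω k Z * ‖Gam g k Z‖ +
          ∑ k ∈ Finset.Icc k₀ k₁, alpha g k) := by
        rw [← Finset.mul_sum, Finset.sum_add_distrib]
    _ ≤ _ := by
        rw [mul_assoc (C * (1 - ρ)⁻¹)]
        refine mul_le_mul_of_nonneg_left ?_ (by positivity)
        have h1 := hα g hg k₀ k₁
        have h2 : 0 ≤ ∑ k ∈ Finset.Icc k₀ k₁, ∑' Z, ω k Z * ‖Gam g k Z‖ :=
          Finset.sum_nonneg fun k _ => hS k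
        nlinarith [mul_nonneg hC'.le h2]

/-- first part: `itp_lip` with `c = F Z`; second part: `itp_refine` for `F'` and `itp_sub_le` -/
theorem itp_var {k : ℤ} {F F' ω : ℤ × ℤ → ℝ} {x v : E} {Z : ℤ × ℤ} (hω : 0 ≤ ω Z)
    (hv : ‖v‖ ≤ 2 ^ k) (hZ : ∀ y X, ‖y - x‖ ≤ 2 ^ k → hat k X y ≠ 0 → Near 8 X Z)
    (h : ∀ X, Near 8 X Z → |F X - F Z| ≤ ω Z ∧ |F X - itp (k + 1) F' (pos k X)| ≤ ω Z) :
    |itp k F (x + v) - itp k F x| ≤ 16 * ω Z / 2 ^ k * ‖v‖ ∧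
    |itp k F x - itp (k + 1) F' x| ≤ ω Z := by
  have hp : (0 : ℝ) ≤ 2 ^ k := by positivity
  constructor
  · have := itp_lip (k := k) (F := F) (y := x + v) (z := x) (c := F Z) hω fun X hX => by
      rcases hX with hX | hX
      · exact (h X (hZ _ X (by simpa using hv) hX)).1
      · exact (h X (hZ _ X (by simpa using hp) hX)).1
    simpa using this
  · rw [itp_refine (show k ≤ k + 1 by omega) F' x]
    exact itp_sub_le fun X hX => (h X (hZ _ X (by simpa using hp) hX)).2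

/-- With `u = ‖G‖⁻¹ • G`, `e' = n - u`: `⟪n, e'⟫ = ‖n - u‖² / 2 ≥ 1/200` (`‖u - n‖ ≥ ⟪e, u - n⟫`)
and `⟪e', G⟫ = - ‖G‖ ⟪n, e'⟫`. -/
theorem off_le {n e G : E} {b : ℝ} (hn : ‖n‖ = 1) (he : ‖e‖ = 1) (hb : 0 ≤ b)
    (hne : ⟪n, e⟫ < 3 / 5) (hG : 7 / 10 * ‖G‖ ≤ ⟪e, G⟫)
    (h : ∀ e' : E, ‖e'‖ ≤ 2 → 1 / 200 ≤ ⟪n, e'⟫ → -b ≤ ⟪e', G⟫) : ‖G‖ ≤ 200 * b := by
  by_cases hG0 : G = 0
  · rw [hG0, norm_zero]; linarith
  have hN : 0 < ‖G‖ := norm_pos_iff.2 hG0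
  set u : E := ‖G‖⁻¹ • G with hu
  have hu1 : ‖u‖ = 1 := by rw [hu, norm_smul, norm_inv, norm_norm, inv_mul_cancel₀ hN.ne']
  have hGu : G = ‖G‖ • u := by rw [hu, smul_smul, mul_inv_cancel₀ hN.ne', one_smul]
  have heu : 7 / 10 ≤ ⟪e, u⟫ := by
    rw [hu, real_inner_smul_right, ← div_eq_inv_mul, le_div_iff₀ hN]
    exact hG
  have h1 : 1 / 10 ≤ ‖n - u‖ := by
    have := real_inner_le_norm e (u - n)
    rw [he, one_mul, inner_sub_right, real_inner_comm n e, norm_sub_rev] at this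
    linarith
  have h2 : ‖n - u‖ ^ 2 = 2 - 2 * ⟪n, u⟫ := by
    rw [norm_sub_sq_real, hn, hu1]; ring
  have h3 : 1 / 200 ≤ 1 - ⟪n, u⟫ := by nlinarith
  have h4 := h (n - u) ((norm_sub_le _ _).trans (by rw [hn, hu1]; norm_num)) (by
    rw [inner_sub_right, real_inner_self_eq_norm_sq, hn]; linarith)
  have h5 : ⟪n - u, G⟫ = ‖G‖ * (⟪n, u⟫ - 1) := by
    conv_lhs => rw [hGu]
    rw [real_inner_smul_right, inner_sub_left, real_inner_self_eq_norm_sq, hu1]; ring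
  rw [h5] at h4
  nlinarith

end Crest.Agent.R112
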