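import Crest.Agent.R112.MainA

/-! # Row 112: the pointwise telescoping inequality (task MAINB) -/

set_option autoImplicit false

namespace Crest.Agent.R112

open MeasureTheory Metric
open scoped RealInnerProductSpace

/-- Write `x' = x + h • e`, `U k`, `U' k` for `ww f (2^k) (2 * 2^k)` at `x`, `x'`, similarly
`ref`, `ref'`, `p`, `p'`.  `HH x' - HH x = [Hbar U' ref' p' - Hbar U' ref' p] + [Hbar U' ref' p -
Hbar U ref p]`.
* First bracket: `Hbar_tog` with `J k = ∑_{l ∈ Icc k₀ k} C / 2^l * mu g l x` (`osc_le` at `x'`,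
  `closedBall x' (2 2^l) ⊆ closedBall x (4 2^l)`, `nm_finite`, `chain_le`; `U' j = uu f x' r_j`
  (`exists_isMx`, `IsMx.ww_eq`), `rf_mem`, `uu f x' (2^(k+1)) ≤ U' (k+1)` (`uu_le_ww`)), and `hp1`.
* Second bracket: `Hbar_mov` with `N j = h * b j + Λ h²` (`U' j ≥ uu f x' r_j ≥ U j + h ⟪GG, e⟫ -
  Λ h²` by `uu_le_ww`, `Sm.second`), `U ks = uu f x r ≥ U j` (`IsMx.mono`),
  `max (U' ks - U ks) 0 ≥ h max ⟪e, GG⟫ 0 - Λ h²`; the last sum by `hp2`, `rf_diff` (the diagonal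
  terms `l = k` of `WW`; for the `Λ h²` part use `|p t - p (t+1)| ≤ 1`, `itp_mem`). -/
theorem main_pt : ∃ C : ℝ, 0 < C ∧ ∀ f : E → ℝ, Sm f → ∃ Λ : ℝ, 0 ≤ Λ ∧
    ∀ (e x : E) (k₀ k₁ : ℤ) (F : ℤ → ℤ × ℤ → ℝ) (w b : ℤ → ℝ) (h : ℝ), ‖e‖ = 1 →
      (∀ k X, 0 ≤ F k X ∧ F k X ≤ 1) → (∀ X, F (k₁ + 1) X = 0) → (∀ k, 0 ≤ w k) → (∀ k, 0 ≤ b k) →
      0 < h → h ≤ 2 ^ k₀ →
      (∀ k ∈ Finset.Icc k₀ k₁,
        |itp k (F k) (x + h • e) - itp k (F k) x| ≤ 16 * w k / 2 ^ k * h) →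
      (∀ k ∈ Finset.Icc k₀ k₁, |itp k (F k) x - itp (k + 1) (F (k + 1)) x| ≤ w k) →
      (∀ k ∈ Finset.Icc k₀ k₁, 0 < itp k (F k) x → ∀ r, IsMx f (2 ^ k) (2 * 2 ^ k) x r →
        -b k ≤ ⟪e, GG (gradient f) x r⟫) →
      ∀ r, IsMx f (2 ^ k₀) (2 * 2 ^ k₁) x r → ∀ ks ∈ Finset.Icc k₀ k₁,
        r ∈ Set.Icc ((2 : ℝ) ^ ks) (2 * 2 ^ ks) →
        itp ks (F ks) x * max ⟪e, GG (gradient f) x r⟫ 0 ≤
          (HH f F k₀ k₁ (x + h • e) - HH f F k₀ k₁ x) / h + C * WW (gradient f) w k₀ k₁ x +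
            ∑ k ∈ Finset.Icc k₀ k₁, b k + Λ * (Finset.Icc k₀ k₁).card * h := by
  obtain ⟨Co, hCo, hosc⟩ := osc_le
  obtain ⟨Cr, hCr, hrf⟩ := rf_diff
  refine ⟨48 * Co + Cr, by positivity, fun f hf => ?_⟩
  obtain ⟨Λ₁, hΛ₁, hsec⟩ := hf.second
  obtain ⟨Λ₂, hΛ₂, hrf⟩ := hrf f hf
  refine ⟨2 * Λ₁ + Λ₂, by positivity, ?_⟩
  intro e x k₀ k₁ F w b h he hF hF1 hw hb hh hh2 hp1 hp2 hG r hr ks hks hrk
  have hfi := hf.integrable
  have hfin : ∀ l, IsFiniteMeasure (nm (fun v => ‖v‖) (gradient f) l) := fun l =>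
    nm_finite hf.integrable_grad (c := 1) (fun v => ⟨norm_nonneg v, by simp⟩) l
  have h2 : ∀ l : ℤ, (0 : ℝ) < 2 ^ l := fun l => by positivity
  have hle : ∀ l : ℤ, (2 : ℝ) ^ l ≤ 2 * 2 ^ l := fun l => by linarith [h2 l]
  have hmono : ∀ {j k : ℤ}, j ≤ k → (2 : ℝ) ^ j ≤ 2 ^ k := fun hjk =>
    zpow_le_zpow_right₀ one_le_two hjk
  have hsub : ∀ {i j k : ℤ} {s : ℝ}, i ≤ j → j ≤ k → s ∈ Set.Icc ((2 : ℝ) ^ j) (2 * 2 ^ j) →
      s ∈ Set.Icc ((2 : ℝ) ^ i) (2 * 2 ^ k) := fun hij hjk hs =>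
    ⟨(hmono hij).trans hs.1, hs.2.trans (by linarith [hmono hjk])⟩
  have hv : ‖h • e‖ = h := by rw [norm_smul, he, mul_one, Real.norm_eq_abs, abs_of_pos hh]
  have hmu0 : ∀ l, 0 ≤ mu (gradient f) l x := fun l => measureReal_nonneg
  have hmu : ∀ (l : ℤ) (y : E), ‖y - x‖ ≤ 2 * 2 ^ l →
      (nm (fun v => ‖v‖) (gradient f) l).real (closedBall y (2 * 2 ^ l)) ≤ mu (gradient f) l x := by
    intro l y hy
    have := hfin l
    refine measureReal_mono (closedBall_subset_closedBall' ?_)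
    rw [dist_eq_norm]; linarith
  set x' := x + h • e with hx'
  set U : ℤ → ℝ := fun k => ww f (2 ^ k) (2 * 2 ^ k) x with hU
  set U' : ℤ → ℝ := fun k => ww f (2 ^ k) (2 * 2 ^ k) x' with hU'
  set p : ℤ → ℝ := fun k => itp k (F k) x with hp
  set p' : ℤ → ℝ := fun k => itp k (F k) x' with hp'
  set W := WW (gradient f) w k₀ k₁ x with hW
  -- first bracket
  have hchain : ∀ k, ∀ s ∈ Set.Icc ((2 : ℝ) ^ k₀) (2 * 2 ^ k),
      ∀ t ∈ Set.Icc ((2 : ℝ) ^ k₀) (2 * 2 ^ k), |uu f x' s - uu f x' t| ≤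
        ∑ l ∈ Finset.Icc k₀ k, Co / 2 ^ l * mu (gradient f) l x := by
    intro k
    refine chain_le (fun l => mul_nonneg (div_nonneg hCo.le (h2 l).le) (hmu0 l))
      (fun l hl s hs t ht => (hosc f hf l x' s t hs ht).trans ?_)
    refine mul_le_mul_of_nonneg_left (hmu l x' ?_) (div_nonneg hCo.le (h2 l).le)
    rw [hx', add_sub_cancel_left, hv]
    linarith [hmono (Finset.mem_Icc.1 hl).1, h2 l]
  have hB1 := Hbar_tog (k₀ := k₀) (k₁ := k₁) (U := U') (ref := fun k => rf f k x')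
    (J := fun k => ∑ l ∈ Finset.Icc k₀ k, Co / 2 ^ l * mu (gradient f) l x) p' p
    (fun k => Finset.sum_nonneg fun l _ => mul_nonneg (div_nonneg hCo.le (h2 l).le) (hmu0 l))
    (fun k _ j j' h1 h3 h4 h5 => by
      obtain ⟨s, hs⟩ := exists_isMx hfi (h2 j) (hle j) x'
      refine rf_mem hfi j' x' (fun t ht => ?_)
      simp only [hU']
      rw [hs.ww_eq]
      exact hchain k s (hsub h1 h3 hs.1) t (hsub h4 h5 ht))
    (fun k hk _ j h1 h3 => by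
      obtain ⟨s, hs⟩ := exists_isMx hfi (h2 j) (hle j) x'
      have e1 : (2 : ℝ) ^ (k + 1) = 2 * 2 ^ k := by rw [zpow_add_one₀ two_ne_zero, mul_comm]
      have h6 := uu_le_ww hfi (h2 (k + 1)) x' (b := 2 * 2 ^ (k + 1)) (r := 2 * 2 ^ k)
        ⟨e1.le, by rw [← e1]; exact hle _⟩
      have h7 := hchain k s (hsub h1 h3 hs.1) (2 * 2 ^ k)
        (hsub (Finset.mem_Icc.1 hk).1 le_rfl ⟨hle k, le_rfl⟩)
      simp only [hU']
      rw [hs.ww_eq]
      linarith [le_abs_self (uu f x' s - uu f x' (2 * 2 ^ k))])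
  have hB1' : ∑ k ∈ Finset.Icc k₀ k₁, 3 * (∑ l ∈ Finset.Icc k₀ k,
      Co / 2 ^ l * mu (gradient f) l x) * |p' k - p k| ≤ 48 * Co * W * h := by
    rw [hW, WW, Finset.mul_sum, Finset.sum_mul]
    refine Finset.sum_le_sum fun k hk => ?_
    have h0 : 0 ≤ 3 * ∑ l ∈ Finset.Icc k₀ k, Co / 2 ^ l * mu (gradient f) l x :=
      mul_nonneg (by norm_num) (Finset.sum_nonneg fun l _ =>
        mul_nonneg (div_nonneg hCo.le (h2 l).le) (hmu0 l))
    refine (mul_le_mul_of_nonneg_left (hp1 k hk) h0).trans (le_of_eq ?_)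
    simp only [Finset.mul_sum, Finset.sum_mul]
    refine Finset.sum_congr rfl fun l _ => ?_
    field_simp
    ring
  -- second bracket
  have hp01 : ∀ k, 0 ≤ p k ∧ p k ≤ 1 := fun k => itp_mem fun X _ => hF k X
  have hmove : ∀ (j : ℤ) (s : ℝ), IsMx f (2 ^ j) (2 * 2 ^ j) x s →
      h * ⟪e, GG (gradient f) x s⟫ - Λ₁ * h ^ 2 ≤ U' j - U j := by
    intro j s hs
    have h1 := hsec x (h • e) s ((h2 j).trans_le hs.1.1)
    rw [hv, real_inner_smul_right, real_inner_comm] at h1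
    have h3 := uu_le_ww hfi (h2 j) x' hs.1
    simp only [hU, hU']
    rw [hs.ww_eq]
    linarith [(abs_le.1 h1).1]
  have hrs : IsMx f (2 ^ ks) (2 * 2 ^ ks) x r :=
    hr.mono (hmono (Finset.mem_Icc.1 hks).1) (by linarith [hmono (Finset.mem_Icc.1 hks).2]) hrk
  have hB2 := Hbar_mov (k₀ := k₀) (k₁ := k₁) (ks := ks) (U := U) (U' := U')
    (ref := fun k => rf f k x) (ref' := fun k => rf f k x') (p := p)
    (N := fun j => h * b j + Λ₁ * h ^ 2) hp01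
    (by
      have := itp_mem (k := k₁ + 1) (F := F (k₁ + 1)) (y := x) (lo := 0) (hi := 0)
        (fun X _ => by rw [hF1 X]; exact ⟨le_rfl, le_rfl⟩)
      exact le_antisymm this.2 this.1)
    (fun k => by have := hb k; positivity)
    (fun j hj h0 => by
      obtain ⟨s, hs⟩ := exists_isMx hfi (h2 j) (hle j) x
      have h1 := hmove j s hs
      have h3 := mul_le_mul_of_nonneg_left (hG j hj h0 s hs) hh.le
      linarith)
    hks
    (fun j hj => by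
      obtain ⟨s, hs⟩ := exists_isMx hfi (h2 j) (hle j) x
      simp only [hU]
      rw [hs.ww_eq, hrs.ww_eq]
      exact hr.2 s (hsub (Finset.mem_Icc.1 hj).1 (Finset.mem_Icc.1 hj).2 hs.1))
  have hB3 : h * (p ks * max ⟪e, GG (gradient f) x r⟫ 0) - Λ₁ * h ^ 2 ≤
      p ks * max (U' ks - U ks) 0 := by
    have h1 := hmove ks r hrs
    have h0 : 0 ≤ Λ₁ * h ^ 2 := by positivity
    have h3 : h * max ⟪e, GG (gradient f) x r⟫ 0 - Λ₁ * h ^ 2 ≤ max (U' ks - U ks) 0 := by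
      rcases le_total ⟪e, GG (gradient f) x r⟫ 0 with h4 | h4
      · rw [max_eq_right h4]; linarith [le_max_right (U' ks - U ks) 0]
      · rw [max_eq_left h4]; linarith [le_max_left (U' ks - U ks) 0]
    have h4 := mul_le_mul_of_nonneg_left h3 (hp01 ks).1
    have h5 := mul_le_of_le_one_left h0 (hp01 ks).2
    nlinarith
  have hB4 : ∑ t ∈ Finset.Icc k₀ k₁, |p t - p (t + 1)| * |rf f t x' - rf f t x| ≤
      Cr * W * h + (Finset.Icc k₀ k₁).card * (Λ₂ * h ^ 2) := by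
    rw [hW, WW, Finset.mul_sum, Finset.sum_mul, ← nsmul_eq_mul, ← Finset.sum_const,
      ← Finset.sum_add_distrib]
    refine Finset.sum_le_sum fun t ht => ?_
    have h1 := hrf t x (h • e)
    rw [hv] at h1
    have h3 := hmu t x (by rw [sub_self, norm_zero]; linarith [h2 t])
    have h4 : |rf f t x' - rf f t x| ≤ Cr * h / (2 ^ t) ^ 2 * mu (gradient f) t x + Λ₂ * h ^ 2 :=
      h1.trans (by gcongr)
    have h5 : |p t - p (t + 1)| ≤ 1 :=
      abs_le.2 ⟨by linarith [(hp01 t).1, (hp01 (t + 1)).2], by linarith [(hp01 t).2, (hp01 (t + 1)).1]⟩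
    have h6 : w t * mu (gradient f) t x / (2 ^ t * 2 ^ t) ≤
        ∑ l ∈ Finset.Icc k₀ t, w t * mu (gradient f) l x / (2 ^ t * 2 ^ l) :=
      Finset.single_le_sum (f := fun l => w t * mu (gradient f) l x / (2 ^ t * 2 ^ l))
        (fun l _ => div_nonneg (mul_nonneg (hw t) (hmu0 l)) (by positivity))
        (Finset.mem_Icc.2 ⟨(Finset.mem_Icc.1 ht).1, le_rfl⟩)
    have h7 := hmu0 t
    calc _ ≤ |p t - p (t + 1)| * (Cr * h / (2 ^ t) ^ 2 * mu (gradient f) t x + Λ₂ * h ^ 2) :=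
          mul_le_mul_of_nonneg_left h4 (abs_nonneg _)
      _ = |p t - p (t + 1)| * (Cr * h / (2 ^ t) ^ 2 * mu (gradient f) t x) +
          |p t - p (t + 1)| * (Λ₂ * h ^ 2) := mul_add _ _ _
      _ ≤ w t * (Cr * h / (2 ^ t) ^ 2 * mu (gradient f) t x) + 1 * (Λ₂ * h ^ 2) := by
          gcongr
          exact hp2 t ht
      _ = Cr * (w t * mu (gradient f) t x / (2 ^ t * 2 ^ t)) * h + Λ₂ * h ^ 2 := by ring
      _ ≤ _ := by gcongr
  have hcard : (1 : ℝ) ≤ (Finset.Icc k₀ k₁).card := by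
    exact_mod_cast Finset.card_pos.2 ⟨ks, hks⟩
  rw [Finset.sum_add_distrib, ← Finset.mul_sum, Finset.sum_const, nsmul_eq_mul] at hB2
  have hH : HH f F k₀ k₁ x' - HH f F k₀ k₁ x =
      (Hbar (Finset.Icc k₀ k₁) U' (fun k => rf f k x') p' -
        Hbar (Finset.Icc k₀ k₁) U' (fun k => rf f k x') p) +
      (Hbar (Finset.Icc k₀ k₁) U' (fun k => rf f k x') p -
        Hbar (Finset.Icc k₀ k₁) U (fun k => rf f k x) p) := by
    rw [sub_add_sub_cancel]; rfl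
  have h8 : Λ₁ * h ^ 2 ≤ (Finset.Icc k₀ k₁).card * (Λ₁ * h ^ 2) :=
    le_mul_of_one_le_left (by positivity) hcard
  refine le_of_mul_le_mul_left ?_ hh
  rw [mul_add, mul_add, mul_add, mul_div_cancel₀ _ hh.ne', hH]
  change h * (p ks * _) ≤ _
  linarith [(abs_le.1 hB1).1]

end Crest.Agent.R112
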