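import Crest.Agent.R112.Avg
import Crest.Agent.R112.Low

/-! # Row 112: oscillation and reference bounds (task OSC) -/

set_option autoImplicit false

namespace Crest.Agent.R112

open MeasureTheory Metric
open scoped RealInnerProductSpace

variable {f : E → ℝ}

/-- `Sm.radial` and `abs_flux_le` for `κ y = kk r s ‖y - x‖ • (y - x)` (`SL.smul`) -/
theorem osc_le : ∃ C : ℝ, 0 < C ∧ ∀ f : E → ℝ, Sm f → ∀ (l : ℤ) (x : E) (r s : ℝ),
    r ∈ Set.Icc ((2 : ℝ) ^ l) (2 * 2 ^ l) → s ∈ Set.Icc ((2 : ℝ) ^ l) (2 * 2 ^ l) →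
    |uu f x r - uu f x s| ≤
      C / 2 ^ l * (nm (fun v => ‖v‖) (gradient f) l).real (closedBall x (2 * 2 ^ l)) := by
  refine ⟨108, by norm_num, fun f hf l x => ?_⟩
  have key : ∀ r s : ℝ, r ∈ Set.Icc ((2 : ℝ) ^ l) (2 * 2 ^ l) →
      s ∈ Set.Icc ((2 : ℝ) ^ l) (2 * 2 ^ l) → r ≤ s → |uu f x r - uu f x s| ≤
      108 / 2 ^ l * (nm (fun v => ‖v‖) (gradient f) l).real (closedBall x (2 * 2 ^ l)) := by
    intro r s hr hs hrs
    have hL : (0 : ℝ) < 2 ^ l := by positivity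
    have hr0 : 0 < r := hL.trans_le hr.1
    have hz : ∀ y : E, 2 * 2 ^ l ≤ ‖y - x‖ → kk r s ‖y - x‖ = 0 := fun y hy =>
      kk_of_ge hr0 hrs (hs.2.trans hy)
    have h1 : SL (fun y : E => kk r s ‖y - x‖) (((2 : ℝ) ^ l) ^ 2)⁻¹ (((2 : ℝ) ^ l) ^ 3)⁻¹ := by
      refine ⟨fun y => ?_, fun y z => ?_⟩
      · rw [Real.norm_of_nonneg (kk_nonneg _ _ _)]
        have h2 := kk_le hr0 hrs ‖y - x‖
        have h3 : (r ^ 2)⁻¹ ≤ (((2 : ℝ) ^ l) ^ 2)⁻¹ :=
          inv_anti₀ (by positivity) (pow_le_pow_left₀ hL.le hr.1 2)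
        have h4 : 0 ≤ (s ^ 2)⁻¹ := by positivity
        have h5 : 0 ≤ (r ^ 2)⁻¹ := by positivity
        linarith
      · refine (kk_lip hr0 s _ _).trans (mul_le_mul
          (inv_anti₀ (by positivity) (pow_le_pow_left₀ hL.le hr.1 3)) ?_ (abs_nonneg _)
          (by positivity))
        simpa using abs_norm_sub_norm_le (y - x) (z - x)
    have h2 := h1.smul (κ := fun y => y - x) (a' := 2 * 2 ^ l) (b' := 1) (by positivity)
      zero_le_one (fun y hy => by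
        by_contra hc
        exact hy (hz y (not_le.1 hc).le)) (fun y z => by simp)
    have h3 := abs_flux_le hf.integrable_grad l _ (3 / 2 ^ l) (closedBall x (2 * 2 ^ l))
      (h2.mono (by
        rw [div_eq_mul_inv]
        have : (((2 : ℝ) ^ l) ^ 2)⁻¹ * (2 * 2 ^ l) = 2 * (2 ^ l)⁻¹ := by field_simp
        rw [this]
        gcongr
        norm_num) (le_of_eq (by field_simp; norm_num))) isBounded_closedBall (fun y hy => by
        rw [mem_closedBall, dist_eq_norm, not_le] at hy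
        rw [hz y hy.le, zero_smul])
    simp only [real_inner_smul_left] at h3
    rw [hf.radial x hr0 hrs, abs_mul, abs_of_pos Real.pi_pos, abs_sub_comm] at h3
    have h4 := le_mul_of_one_le_left (abs_nonneg (uu f x r - uu f x s))
      (show (1 : ℝ) ≤ Real.pi by linarith [Real.pi_gt_three])
    refine h4.trans (h3.trans (le_of_eq ?_))
    ring
  intro r s hr hs
  rcases le_total r s with h | h
  · exact key r s hr hs h
  · rw [abs_sub_comm]
    exact key s r hs hr h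

theorem osc_Icc_succ {k₀ k : ℤ} (hk : k₀ ≤ k) :
    Finset.Icc k₀ (k + 1) = insert (k + 1) (Finset.Icc k₀ k) := by
  ext i
  simp only [Finset.mem_Icc, Finset.mem_insert]
  omega

theorem osc_two_succ (k : ℤ) : (2 : ℝ) ^ (k + 1) = 2 * 2 ^ k := by
  rw [zpow_add_one₀ two_ne_zero, mul_comm]

/-- chaining through the radii `2^l` -/
theorem chain_le {u : ℝ → ℝ} {o : ℤ → ℝ} {k₀ k : ℤ} (ho : ∀ l, 0 ≤ o l)
    (h : ∀ l ∈ Finset.Icc k₀ k, ∀ r ∈ Set.Icc ((2 : ℝ) ^ l) (2 * 2 ^ l),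
      ∀ s ∈ Set.Icc ((2 : ℝ) ^ l) (2 * 2 ^ l), |u r - u s| ≤ o l) :
    ∀ r ∈ Set.Icc ((2 : ℝ) ^ k₀) (2 * 2 ^ k), ∀ s ∈ Set.Icc ((2 : ℝ) ^ k₀) (2 * 2 ^ k),
      |u r - u s| ≤ ∑ l ∈ Finset.Icc k₀ k, o l := by
  rcases lt_or_ge k k₀ with hk | hk
  · intro r hr s hs
    have h1 : (2 : ℝ) * 2 ^ k ≤ 2 ^ k₀ := by
      rw [← osc_two_succ]
      exact zpow_le_zpow_right₀ one_le_two (by omega)
    obtain rfl : r = s := by linarith [hr.1, hr.2, hs.1, hs.2]
    rw [sub_self, abs_zero]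
    exact Finset.sum_nonneg fun l _ => ho l
  · induction k, hk using Int.leInduction with
    | base =>
      rw [Finset.Icc_self, Finset.sum_singleton]
      exact h k₀ (Finset.mem_Icc.2 ⟨le_rfl, le_rfl⟩)
    | succ k hk ih =>
      have ih' := ih fun l hl => h l (Finset.mem_Icc.2 ⟨(Finset.mem_Icc.1 hl).1, by
        have := (Finset.mem_Icc.1 hl).2
        omega⟩)
      have ht := h (k + 1) (Finset.mem_Icc.2 ⟨by omega, le_rfl⟩)
      rw [osc_Icc_succ hk, Finset.sum_insert (by simp)]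
      rw [osc_two_succ] at ht ⊢
      have h0 : 0 ≤ ∑ l ∈ Finset.Icc k₀ k, o l := Finset.sum_nonneg fun l _ => ho l
      have h1 := ho (k + 1)
      have hL : (0 : ℝ) < 2 ^ k := by positivity
      have hm1 : (2 : ℝ) * 2 ^ k ∈ Set.Icc ((2 : ℝ) ^ k₀) (2 * 2 ^ k) :=
        ⟨(zpow_le_zpow_right₀ one_le_two hk).trans (by linarith), le_rfl⟩
      have hm2 : (2 : ℝ) * 2 ^ k ∈ Set.Icc ((2 : ℝ) * 2 ^ k) (2 * (2 * 2 ^ k)) :=
        ⟨le_rfl, by linarith⟩
      intro r hr s hs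
      rcases le_total r (2 * 2 ^ k) with a | a <;> rcases le_total s (2 * 2 ^ k) with b | b
      · linarith [ih' r ⟨hr.1, a⟩ s ⟨hs.1, b⟩]
      · linarith [ih' r ⟨hr.1, a⟩ _ hm1, ht _ hm2 s ⟨b, hs.2⟩, abs_sub_le (u r) (u (2 * 2 ^ k)) (u s)]
      · linarith [ih' _ hm1 s ⟨hs.1, b⟩, ht r ⟨a, hr.2⟩ _ hm2, abs_sub_le (u r) (u (2 * 2 ^ k)) (u s)]
      · linarith [ht r ⟨a, hr.2⟩ s ⟨b, hs.2⟩]

theorem exists_level {k₀ k₁ : ℤ} (hk : k₀ ≤ k₁) {r : ℝ}
    (hr : r ∈ Set.Icc ((2 : ℝ) ^ k₀) (2 * 2 ^ k₁)) :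
    ∃ k ∈ Finset.Icc k₀ k₁, r ∈ Set.Icc ((2 : ℝ) ^ k) (2 * 2 ^ k) := by
  induction k₁, hk using Int.leInduction with
  | base => exact ⟨k₀, Finset.mem_Icc.2 ⟨le_rfl, le_rfl⟩, hr⟩
  | succ k hk ih =>
    rcases le_total r (2 * 2 ^ k) with a | a
    · obtain ⟨j, hj, hr'⟩ := ih ⟨hr.1, a⟩
      exact ⟨j, Finset.mem_Icc.2 ⟨(Finset.mem_Icc.1 hj).1, by
        have := (Finset.mem_Icc.1 hj).2
        omega⟩, hr'⟩
    · exact ⟨k + 1, Finset.mem_Icc.2 ⟨by omega, le_rfl⟩, by rwa [osc_two_succ], hr.2⟩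

theorem osc_int_sq (L c : ℝ) : ∫ r in L..(2 * L), r ^ 2 * c = 7 * L ^ 3 / 3 * c := by
  rw [intervalIntegral.integral_mul_const, integral_pow]
  ring

theorem osc_avg {L : ℝ} (hL : 0 < L) {u : ℝ → ℝ} {J : ℝ}
    (h : ∀ r ∈ Set.Icc L (2 * L), |u r| ≤ J) :
    |3 / (7 * L ^ 3) * ∫ r in L..(2 * L), r ^ 2 * u r| ≤ J := by
  have h1 : ‖∫ r in L..(2 * L), r ^ 2 * u r‖ ≤ ∫ r in L..(2 * L), r ^ 2 * J :=
    intervalIntegral.norm_integral_le_of_norm_le (by linarith)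
      (Filter.Eventually.of_forall fun r hr => by
        rw [Real.norm_eq_abs, abs_mul, abs_of_nonneg (sq_nonneg r)]
        exact mul_le_mul_of_nonneg_left (h r ⟨hr.1.le, hr.2⟩) (sq_nonneg r))
      ((by fun_prop : Continuous fun r : ℝ => r ^ 2 * J).intervalIntegrable _ _)
  rw [osc_int_sq, Real.norm_eq_abs] at h1
  rw [abs_mul, abs_of_pos (by positivity)]
  refine (mul_le_mul_of_nonneg_left h1 (by positivity)).trans (le_of_eq ?_)
  field_simp

theorem osc_ii {L : ℝ} (hL : 0 < L) {u : ℝ → ℝ} (hu : ContinuousOn u (Set.Ioi 0)) :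
    IntervalIntegrable (fun r => r ^ 2 * u r) volume L (2 * L) := by
  refine ContinuousOn.intervalIntegrable ?_
  rw [Set.uIcc_of_le (by linarith)]
  exact (by fun_prop : ContinuousOn (fun r : ℝ => r ^ 2) _).mul
    (hu.mono fun r hr => hL.trans_le hr.1)

theorem osc_cont_uu (hf : Integrable f) (x : E) : ContinuousOn (uu f x) (Set.Ioi 0) :=
  (continuousOn_uu hf).comp (f := fun r : ℝ => (x, r)) (by fun_prop) fun _ hr => hr

theorem osc_cont_GG {g : E → E} (hg : Integrable g) (x : E) :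
    ContinuousOn (GG g x) (Set.Ioi 0) :=
  (continuousOn_GG hg).comp (f := fun r : ℝ => (x, r)) (by fun_prop) fun _ hr => hr

/-- `rf` is a weighted average -/
theorem rf_mem (hf : Integrable f) (k : ℤ) (x : E) {c J : ℝ}
    (h : ∀ r ∈ Set.Icc ((2 : ℝ) ^ k) (2 * 2 ^ k), |c - uu f x r| ≤ J) : |c - rf f k x| ≤ J := by
  have hL : (0 : ℝ) < 2 ^ k := by positivity
  refine le_trans (le_of_eq (congrArg _ ?_)) (osc_avg hL h)
  simp only [mul_sub]
  rw [intervalIntegral.integral_sub (osc_ii hL continuousOn_const) (osc_ii hL (osc_cont_uu hf x)),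
    osc_int_sq, mul_sub, rf]
  congr 1
  field_simp

theorem osc_fubini {w : E → ℝ} (hwm : Measurable w) (hwi : Integrable w) (x : E) {L : ℝ}
    (hL : 0 < L) : ∫ r in L..(2 * L), ∫ y in ball x r, w y =
      ∫ y, max (2 * L - max ‖y - x‖ L) 0 * w y := by
  set F : ℝ → E → ℝ := fun t y => (if ‖y - x‖ < t then 1 else 0) * w y with hF
  have hFm : Measurable (Function.uncurry F) := by
    refine Measurable.mul (Measurable.ite ?_ measurable_const measurable_const)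
      (hwm.comp measurable_snd)
    exact measurableSet_lt (by fun_prop) measurable_fst
  have hFi : Integrable (Function.uncurry F)
      ((volume.restrict (Set.Ioc L (2 * L))).prod volume) := by
    have hb : Integrable (fun p : ℝ × E => (1 : ℝ) * ‖w p.2‖)
        ((volume.restrict (Set.Ioc L (2 * L))).prod volume) :=
      Integrable.mul_prod (f := fun _ : ℝ => (1 : ℝ)) (g := fun y => ‖w y‖)
        (integrableOn_const (by simp)) hwi.norm
    refine hb.mono' hFm.aestronglyMeasurable (Filter.Eventually.of_forall fun p => ?_)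
    simp only [Function.uncurry, hF, norm_mul]
    refine mul_le_mul_of_nonneg_right ?_ (norm_nonneg _)
    split_ifs <;> simp
  have hinner : ∀ t, ∫ y in ball x t, w y = ∫ y, F t y := by
    intro t
    rw [← integral_indicator measurableSet_ball]
    congr 1
    ext y
    simp only [hF, Set.indicator, mem_ball, dist_eq_norm]
    split_ifs <;> simp
  rw [intervalIntegral.integral_of_le (by linarith)]
  simp only [hinner]
  rw [integral_integral_swap hFi]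
  congr 1
  ext y
  change ∫ t in Set.Ioc L (2 * L), (if ‖y - x‖ < t then 1 else 0) * w y = _
  rw [integral_mul_const]
  congr 1
  have h1 : ∫ t in Set.Ioc L (2 * L), (if ‖y - x‖ < t then (1 : ℝ) else 0) =
      ∫ _t in Set.Ioc (max ‖y - x‖ L) (2 * L), (1 : ℝ) := by
    have : Set.Ioc (max ‖y - x‖ L) (2 * L) = Set.Ioc L (2 * L) ∩ Set.Ioi ‖y - x‖ := by
      ext t
      simp only [Set.mem_Ioc, max_lt_iff, Set.mem_inter_iff, Set.mem_Ioi]
      tauto
    rw [this, ← setIntegral_indicator measurableSet_Ioi]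
    congr 1
  rw [h1, setIntegral_const, Real.volume_real_Ioc, smul_eq_mul, mul_one]

/-- `Sm.second` averaged; `∫_R^{2R} r² ⟪GG x r, v⟫ dr = π⁻¹ ∫ max 0 (min R (2R - ‖y - x‖)) ⟪v, g y⟫`
(Fubini), then `abs_flux_le`. -/
theorem rf_diff : ∃ C : ℝ, 0 < C ∧ ∀ f : E → ℝ, Sm f → ∃ Λ : ℝ, 0 ≤ Λ ∧ ∀ (k : ℤ) (x v : E),
    |rf f k (x + v) - rf f k x| ≤ C * ‖v‖ / (2 ^ k) ^ 2 *
      (nm (fun v => ‖v‖) (gradient f) k).real (closedBall x (2 * 2 ^ k)) + Λ * ‖v‖ ^ 2 := by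
  refine ⟨36, by norm_num, fun f hf => ?_⟩
  obtain ⟨Λ, hΛ, h2⟩ := hf.second
  refine ⟨Λ, hΛ, fun k x v => ?_⟩
  have hL : (0 : ℝ) < 2 ^ k := by positivity
  have hg := hf.integrable_grad
  have hc : ContinuousOn (fun r => ⟪GG (gradient f) x r, v⟫) (Set.Ioi 0) :=
    (osc_cont_GG hg x).inner continuousOn_const
  have h3 := osc_avg hL (u := fun r => uu f (x + v) r - uu f x r - ⟪GG (gradient f) x r, v⟫)
    fun r hr => h2 x v r (hL.trans_le hr.1)
  have e : rf f k (x + v) - rf f k x =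
      3 / (7 * ((2 : ℝ) ^ k) ^ 3) * (∫ r in ((2 : ℝ) ^ k)..(2 * 2 ^ k),
        r ^ 2 * ⟪GG (gradient f) x r, v⟫) +
      3 / (7 * ((2 : ℝ) ^ k) ^ 3) * ∫ r in ((2 : ℝ) ^ k)..(2 * 2 ^ k),
        r ^ 2 * (uu f (x + v) r - uu f x r - ⟪GG (gradient f) x r, v⟫) := by
    simp only [mul_sub]
    rw [intervalIntegral.integral_sub ((osc_ii hL (osc_cont_uu hf.integrable _)).sub
        (osc_ii hL (osc_cont_uu hf.integrable _))) (osc_ii hL hc),
      intervalIntegral.integral_sub (osc_ii hL (osc_cont_uu hf.integrable _))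
        (osc_ii hL (osc_cont_uu hf.integrable _)), rf, rf]
    ring
  rw [e]
  refine (abs_add_le _ _).trans (add_le_add ?_ h3)
  have e2 : ∫ r in ((2 : ℝ) ^ k)..(2 * 2 ^ k), r ^ 2 * ⟪GG (gradient f) x r, v⟫ =
      Real.pi⁻¹ * ∫ y, max (2 * 2 ^ k - max ‖y - x‖ (2 ^ k)) 0 * ⟪v, gradient f y⟫ := by
    rw [← osc_fubini (continuous_const.inner hf.continuous_grad).measurable (hg.const_inner v) x hL,
      ← intervalIntegral.integral_const_mul]
    refine intervalIntegral.integral_congr fun r hr => ?_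
    rw [Set.uIcc_of_le (by linarith)] at hr
    have hr0 : 0 < r := hL.trans_le hr.1
    show r ^ 2 * ⟪GG (gradient f) x r, v⟫ = Real.pi⁻¹ * ∫ y in ball x r, ⟪v, gradient f y⟫
    rw [GG, real_inner_smul_left, real_inner_comm, integral_inner hg.integrableOn]
    field_simp
  have h4 : SL (fun y : E => max (2 * 2 ^ k - max ‖y - x‖ ((2 : ℝ) ^ k)) 0) (2 ^ k) 1 := by
    refine ⟨fun y => ?_, fun y z => ?_⟩
    · rw [Real.norm_of_nonneg (le_max_right _ _)]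
      exact max_le (by linarith [le_max_right ‖y - x‖ ((2 : ℝ) ^ k)]) hL.le
    · rw [Real.norm_eq_abs, one_mul]
      refine (abs_max_sub_max_le_abs _ _ _).trans ?_
      rw [sub_sub_sub_cancel_left, abs_sub_comm]
      refine (abs_max_sub_max_le_abs _ _ _).trans ?_
      simpa using abs_norm_sub_norm_le (y - x) (z - x)
  have h5 := h4.smul (κ := fun _ => v) (a' := ‖v‖) (b' := 0) (norm_nonneg _) le_rfl
    (fun _ _ => le_rfl) (fun y z => by simp)
  have h6 := abs_flux_le hg k _ (2 ^ k * ‖v‖) (closedBall x (2 * 2 ^ k))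
    (h5.mono le_rfl (le_of_eq (by field_simp; ring))) isBounded_closedBall (fun y hy => by
      rw [mem_closedBall, dist_eq_norm, not_le] at hy
      rw [max_eq_right (by linarith [le_max_left ‖y - x‖ ((2 : ℝ) ^ k)]), zero_smul])
  simp only [real_inner_smul_left] at h6
  rw [e2, abs_mul, abs_mul, abs_of_pos (by positivity), abs_of_pos (inv_pos.2 Real.pi_pos)]
  have hπ : Real.pi⁻¹ ≤ 1 := inv_le_one_of_one_le₀ (by linarith [Real.pi_gt_three])
  have hm : 0 ≤ (nm (fun v => ‖v‖) (gradient f) k).real (closedBall x (2 * 2 ^ k)) :=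
    measureReal_nonneg
  calc _ ≤ 7 / (7 * ((2 : ℝ) ^ k) ^ 3) * (1 * (36 * (2 ^ k * ‖v‖) *
        (nm (fun v => ‖v‖) (gradient f) k).real (closedBall x (2 * 2 ^ k)))) := by
        gcongr
        norm_num
    _ = _ := by field_simp

theorem Sm.continuous_rf (hf : Sm f) (k : ℤ) : Continuous (rf f k) := by
  have hL : (0 : ℝ) < 2 ^ k := by positivity
  refine (LipschitzWith.of_dist_le' (K := (Real.pi * ((2 : ℝ) ^ k) ^ 2)⁻¹ * ∫ y, ‖gradient f y‖)
    fun x y => ?_).continuous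
  rw [Real.dist_eq, dist_eq_norm]
  refine le_trans (le_of_eq (congrArg _ ?_)) (osc_avg hL (u := fun r => uu f x r - uu f y r)
    fun r hr => hf.apx.uu_lip hL hr.1 x y)
  simp only [mul_sub]
  rw [intervalIntegral.integral_sub (osc_ii hL (osc_cont_uu hf.integrable _))
    (osc_ii hL (osc_cont_uu hf.integrable _)), mul_sub, rf, rf]

/-- far from the support everything vanishes -/
theorem Sm.far (hf : Sm f) (b : ℝ) : ∃ R : ℝ, 0 < R ∧ ∀ x : E, R ≤ ‖x‖ → ∀ r, r ≤ b →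
    uu f x r = 0 ∧ GG (gradient f) x r = 0 := by
  obtain ⟨R₁, hR₁, h₁⟩ := hf.cs.exists_pos_le_norm
  obtain ⟨R₂, hR₂, h₂⟩ := hf.hasCompactSupport_grad.exists_pos_le_norm
  refine ⟨R₁ + R₂ + |b|, by positivity, fun x hx r hr => ?_⟩
  have key : ∀ y ∈ ball x r, R₁ + R₂ ≤ ‖y‖ := by
    intro y hy
    rw [mem_ball, dist_eq_norm] at hy
    have h1 : ‖x‖ ≤ ‖y‖ + ‖y - x‖ := by simpa using norm_sub_le y (y - x)
    linarith [le_abs_self b]
  constructor
  · rw [uu, setIntegral_eq_zero_of_forall_eq_zero fun y hy => h₁ y (by linarith [key y hy]),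
      mul_zero]
  · rw [GG, setIntegral_eq_zero_of_forall_eq_zero fun y hy => h₂ y (by linarith [key y hy]),
      smul_zero]

/-- the measurable weight `w x = min {ω Z | Near 6 Z ⌊x / 2^k⌋}` -/
theorem exists_weight (k : ℤ) (ω : ℤ × ℤ → ℝ) (hω : ∀ Z, 0 ≤ ω Z) : ∃ w : E → ℝ, Measurable w ∧
    (∀ x, 0 ≤ w x) ∧ (∀ x Z, x ∈ box 5 k Z → w x ≤ ω Z) ∧
    ∀ x, ∃ Z, ω Z = w x ∧ ∀ y X, ‖y - x‖ ≤ 2 ^ k → hat k X y ≠ 0 → Near 8 X Z := by
  have hL : (0 : ℝ) < 2 ^ k := by positivity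
  choose Z hZ hmin using fun P : ℤ × ℤ => Finset.exists_min_image
    (Finset.Icc (P.1 - 6) (P.1 + 6) ×ˢ Finset.Icc (P.2 - 6) (P.2 + 6)) ω
    ⟨P, by simp⟩
  have hc : Measurable fun x : E => ((⌊x 0 / 2 ^ k⌋, ⌊x 1 / 2 ^ k⌋) : ℤ × ℤ) :=
    (by fun_prop : Continuous fun x : E => x 0 / 2 ^ k).measurable.floor.prodMk
      (by fun_prop : Continuous fun x : E => x 1 / 2 ^ k).measurable.floor
  have k1 : ∀ (t : ℝ) (z : ℤ), |t - 2 ^ k * (z : ℝ)| ≤ 5 * 2 ^ k →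
      z ∈ Finset.Icc (⌊t / 2 ^ k⌋ - 6) (⌊t / 2 ^ k⌋ + 6) := by
    intro t z h
    have h1 : |t / 2 ^ k - z| ≤ 5 := by
      have : t / 2 ^ k - z = (t - 2 ^ k * (z : ℝ)) / 2 ^ k := by field_simp
      rw [this, abs_div, abs_of_pos hL, div_le_iff₀ hL]
      exact h
    have h2 := abs_le.1 h1
    have h3 := Int.floor_le (t / 2 ^ k)
    have h4 := Int.lt_floor_add_one (t / 2 ^ k)
    rw [Finset.mem_Icc]
    constructor
    · have : ((⌊t / 2 ^ k⌋ - 6 : ℤ) : ℝ) ≤ z := by push_cast; linarith [h2.2]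
      exact_mod_cast this
    · have : (z : ℝ) ≤ ((⌊t / 2 ^ k⌋ + 6 : ℤ) : ℝ) := by push_cast; linarith [h2.1]
      exact_mod_cast this
  have k2 : ∀ (t t' : ℝ) (a z : ℤ), |t' - t| ≤ 2 ^ k → |t' / 2 ^ k - a| < 1 →
      z ∈ Finset.Icc (⌊t / 2 ^ k⌋ - 6) (⌊t / 2 ^ k⌋ + 6) → |a - z| ≤ 8 := by
    intro t t' a z h ha hz
    have h1 : |t' / 2 ^ k - t / 2 ^ k| ≤ 1 := by
      rw [← sub_div, abs_div, abs_of_pos hL, div_le_one hL]
      exact h
    have h2 := abs_le.1 h1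
    have h2' := abs_lt.1 ha
    have h3 := Int.floor_le (t / 2 ^ k)
    have h4 := Int.lt_floor_add_one (t / 2 ^ k)
    have h5 : ((⌊t / 2 ^ k⌋ - 2 : ℤ) : ℝ) < a := by push_cast; linarith [h2.1, h2'.2]
    have h6 : (a : ℝ) < ((⌊t / 2 ^ k⌋ + 3 : ℤ) : ℝ) := by push_cast; linarith [h2.2, h2'.1]
    have h5' : ⌊t / 2 ^ k⌋ - 2 < a := by exact_mod_cast h5
    have h6' : a < ⌊t / 2 ^ k⌋ + 3 := by exact_mod_cast h6
    rw [Finset.mem_Icc] at hz
    rw [abs_le]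
    omega
  refine ⟨fun x => ω (Z (⌊x 0 / 2 ^ k⌋, ⌊x 1 / 2 ^ k⌋)),
    (measurable_of_countable fun P => ω (Z P)).comp hc, fun x => hω _, fun x Y hY => ?_,
    fun x => ⟨_, rfl, fun y X hy hX => ?_⟩⟩
  · exact hmin _ Y (Finset.mem_product.2 ⟨k1 _ _ hY.1, k1 _ _ hY.2⟩)
  · have h1 := hat_ne_zero_iff.1 hX
    have h2 := Finset.mem_product.1 (hZ (⌊x 0 / 2 ^ k⌋, ⌊x 1 / 2 ^ k⌋))
    exact ⟨k2 (x 0) (y 0) _ _ ((abs_apply_le (y - x) 0).trans hy) h1.1 h2.1,
      k2 (x 1) (y 1) _ _ ((abs_apply_le (y - x) 1).trans hy) h1.2 h2.2⟩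

end Crest.Agent.R112
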