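import Crest.Agent.R112.Zed

/-! # Row 112: the part of the annulus away from the cluster (task OUT) -/

set_option autoImplicit false

namespace Crest.Agent.R112

open MeasureTheory Metric
open scoped RealInnerProductSpace

/-- bookkeeping predicate, additive in `(k, u)` -/
structure OutR (g : E → E) (n : E) (κ : E → E) (b : E → ℝ) (B H : ℝ) (k : E → ℝ) (u : ℝ) :
    Prop where
  i1 : Integrable fun y => k y * b y * ⟪n, g y⟫
  i2 : Integrable fun y => k y * b y * ⟪κ y, g y⟫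
  lo : -(9 * H * u) ≤ ∫ y, k y * b y * ⟪n, g y⟫
  up : |∫ y, k y * b y * ⟪κ y, g y⟫| ≤ 4 * B * (∫ y, k y * b y * ⟪n, g y⟫) + 864 * H * B * u

section
variable {g : E → E} {n : E} {κ : E → E} {b : E → ℝ} {B H : ℝ} {k k' : E → ℝ} {u u' : ℝ}

theorem OutR.add_eq (h : OutR g n κ b B H k u) (h' : OutR g n κ b B H k' u') :
    ∫ y, (k y + k' y) * b y * ⟪n, g y⟫ =
      (∫ y, k y * b y * ⟪n, g y⟫) + ∫ y, k' y * b y * ⟪n, g y⟫ := by
  simp only [add_mul]
  exact integral_add h.i1 h'.i1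

theorem OutR.add (h : OutR g n κ b B H k u) (h' : OutR g n κ b B H k' u') :
    OutR g n κ b B H (fun y => k y + k' y) (u + u') := by
  refine ⟨?_, ?_, ?_, ?_⟩
  · simp only [add_mul]; exact h.i1.add h'.i1
  · simp only [add_mul]; exact h.i2.add h'.i2
  · rw [h.add_eq h']
    linarith [h.lo, h'.lo]
  · rw [h.add_eq h']
    simp only [add_mul]
    rw [integral_add h.i2 h'.i2]
    refine (abs_add_le _ _).trans ?_
    linarith [h.up, h'.up]

theorem OutR.zero : OutR g n κ b B H (fun _ => 0) 0 :=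
  ⟨by simp, by simp, by simp, by simp⟩

theorem OutR.mono (h : OutR g n κ b B H k u) (hB : 0 ≤ B) (hH : 0 ≤ H) (hu : u ≤ u') :
    OutR g n κ b B H k u' := by
  refine ⟨h.i1, h.i2, le_trans ?_ h.lo, h.up.trans ?_⟩
  · have := mul_le_mul_of_nonneg_left hu hH
    linarith
  · have := mul_le_mul_of_nonneg_left hu (mul_nonneg hH hB)
    linarith

theorem OutR.congr (h : OutR g n κ b B H k u) (e : ∀ y, k y = k' y) : OutR g n κ b B H k' u :=
  (funext e : k = k') ▸ h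

theorem out_piece {φ μ : ℕ → Measure E} (hk : KD g n φ μ) (m : ℕ) {S : Set E}
    (hS : Bornology.IsBounded S) (hB : 0 ≤ B) (h0 : ∀ y, 0 ≤ k y * b y)
    (hh : SL (fun y => k y * b y) H (H * 2 ^ m)) (hs : ∀ y, y ∉ S → k y * b y = 0)
    (hκ : ∀ y ∈ S, ‖κ y‖ ≤ B) (hl : ∀ y z, ‖κ y - κ z‖ ≤ B * ‖y - z‖) :
    OutR g n κ b B H k ((φ m).real S) := by
  have hH := hh.nonneg
  have hbd : ∀ y, k y * b y ≠ 0 → ‖κ y‖ ≤ B := fun y hy => hκ y (by
    by_contra hc
    exact hy (hs y hc))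
  have h2 : (1 : ℝ) ≤ 2 ^ m := one_le_pow₀ one_le_two
  have hHB := mul_nonneg hH hB
  have h3 := mul_le_mul_of_nonneg_left h2 hHB
  refine ⟨hh.integrable_mul_inner hk.gi n, integrable_mul_inner hh hB hB hbd hl hk.gi,
    hk.lown m h0 hh hS hs, ?_⟩
  have := hk.conele m (H := 2 * H * B) (S := S) (κ := fun y => (k y * b y) • κ y)
    (h := fun y => B * (k y * b y)) ((hh.smul hB hB hbd hl).mono (by linarith) (by linarith))
    ((hh.const_mul hB).mono (by linarith) (by linarith)) (fun y => by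
      rw [norm_smul, Real.norm_of_nonneg (h0 y), mul_comm]
      by_cases hy : k y * b y = 0
      · simp [hy]
      · exact mul_le_mul_of_nonneg_right (hbd y hy) (h0 y)) hS (fun y hy => by
      rw [hs y hy, mul_zero])
  simp only [real_inner_smul_left, mul_assoc B, integral_const_mul] at this
  linarith

end

/-- Put `s = qq^σ`, `D = s^4 ≥ 1/2^σ` (`qq_pow_pow`), `b = 1 - a` (`SL b 1 (Ca 2^l)` for `l ≥ σ`,
`b = 0` on `ball p D`), `A l = Ann x r l \ ball p D`.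
* `∑_{l ∈ Icc σ L} φ l (A l) ≤ C s V` (`l = σ, σ+1`: `φle`, `μle`, `Good.out`; `l ≥ σ+2`: `Gap`,
  `geom_tail`).
* `Oc σ - Zc σ = (Zc L - Zc σ) + (Oc L - Zc L) + (Oc σ - Oc L)`; by `KD.lown` for the single
  scale pieces, each of the three groups has `∫ group * b * ⟪n,g⟫ ≥ -C s V`, and the total is
  `≤ C s V` by `KD.absle`; so each group is `≤ C s V`.  For `K`: `Oc L - Zc L - K ≥ 0` is single
  scale.
* `KD.conele` for each piece with `h = B * piece * b`. -/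
theorem out_le (Ca : ℝ) (hCa : 1 ≤ Ca) : ∃ C : ℝ, 0 < C ∧ ∀ {g : E → E} {n : E}
    {φ μ : ℕ → Measure E} {V : ℝ} {x : E} {r : ℝ} {σ L : ℕ} {p : E} {a : E → ℝ} {a' : E → E}
    {κ : E → E} {B : ℝ}, Ctx g n φ μ V x r → Good g μ V x r σ p → Gap φ V x r σ L →
    Cut Ca p ((qq ^ σ) ^ 4) a a' → 0 ≤ B → (∀ y, ‖y - x‖ ≤ 6 → ‖κ y‖ ≤ B) →
    (∀ y z, ‖κ y - κ z‖ ≤ B * ‖y - z‖) →
    |∫ y, (Zc x r L y - Zc x r σ y) * (1 - a y) * ⟪κ y, g y⟫| ≤ C * B * (qq ^ σ * V) ∧
    ∀ K : E → ℝ, (∀ y, 0 ≤ K y ∧ K y ≤ Oc x r L y - Zc x r L y) →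
      (∀ y z, |K y - K z| ≤ 17 * 2 ^ L * ‖y - z‖) →
      |∫ y, K y * (1 - a y) * ⟪κ y, g y⟫| ≤ C * B * (qq ^ σ * V) := by
  obtain ⟨Cg, hCg, hg⟩ := geom_tail
  refine ⟨20 * (1 + Ca) * (144 + 972 * (8 * Cg)), by positivity, ?_⟩
  intro g n φ μ V x r σ L p a a' κ B hc hG hgap ha hB hκ hl
  obtain ⟨H, hHdef⟩ : ∃ H : ℝ, H = 20 * (1 + Ca) := ⟨_, rfl⟩
  rw [← hHdef]
  have hH : 0 ≤ H := by rw [hHdef]; positivity
  have hV := hc.V0
  have hq := qq_pos
  obtain ⟨A, hA⟩ : ∃ A : ℕ → Set E, A = fun l => Ann x r l \ ball p ((qq ^ σ) ^ 4) := ⟨_, rfl⟩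
  have hAs : ∀ l, A l ⊆ closedBall x 6 := fun l => by
    rw [hA]; exact Set.sdiff_subset.trans (Ann_subset hc.r2)
  have hAb : ∀ l, Bornology.IsBounded (A l) := fun l => isBounded_closedBall.subset (hAs l)
  have hout : (μ σ).real (A σ) ≤ qq ^ σ * V := by rw [hA]; exact hG.out
  have hD : Ca / (qq ^ σ) ^ 4 ≤ Ca * 2 ^ σ := by
    have h1 : (qq ^ σ) ^ 16 ≤ (qq ^ σ) ^ 4 :=
      pow_le_pow_of_le_one (by positivity) (pow_le_one₀ hq.le qq_lt_one.le) (by norm_num)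
    rw [qq_pow_pow] at h1
    rw [div_le_iff₀ (by positivity), mul_assoc]
    refine le_mul_of_one_le_right (by linarith) ?_
    rw [div_le_iff₀ (by positivity)] at h1
    linarith
  have hb0 : ∀ y, 0 ≤ 1 - a y := fun y => by linarith [(ha.nn y).2]
  -- single scale functions
  have hsl : ∀ (l : ℕ) (k : E → ℝ), σ ≤ l → SL k 20 (20 * 2 ^ l) →
      SL (fun y => k y * (1 - a y)) H (H * 2 ^ l) := by
    intro l k hl' hk
    have h1 : (2 : ℝ) ^ σ ≤ 2 ^ l := pow_le_pow_right₀ one_le_two hl'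
    have h2 : SL (fun y => 1 - a y) 1 (Ca * 2 ^ l) :=
      (SL.of_unit (fun y => ⟨hb0 y, by linarith [(ha.nn y).1]⟩) (fun y z => by
        rw [show 1 - a y - (1 - a z) = a z - a y by ring, abs_sub_comm]
        exact ha.lip y z)).mono le_rfl (hD.trans (mul_le_mul_of_nonneg_left h1 (by linarith)))
    refine (hk.mul h2).mono ?_ (le_of_eq ?_)
    · rw [hHdef]; linarith
    · rw [hHdef]; ring
  have hsupp : ∀ (l : ℕ) (k : E → ℝ), (∀ y, k y ≠ 0 → y ∈ Ann x r l) →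
      ∀ y, y ∉ A l → k y * (1 - a y) = 0 := by
    intro l k hk y hy
    by_cases h1 : k y = 0
    · rw [h1, zero_mul]
    · have h2 : y ∈ ball p ((qq ^ σ) ^ 4) := by
        by_contra h2
        exact hy (by rw [hA]; exact ⟨hk y h1, h2⟩)
      rw [mem_ball, dist_eq_norm] at h2
      rw [ha.one y h2.le, sub_self, mul_zero]
  have hφ : ∀ l, σ ≤ l → l ≤ L → (φ l).real (A l) ≤ 8 * V * qq ^ l := by
    intro l h1 h2
    have hq' : 0 < qq ^ l * V := by positivity
    obtain rfl | rfl | h3 : l = σ ∨ l = σ + 1 ∨ σ + 2 ≤ l := by omega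
    · have := hc.kd.φle l (A l)
      linarith
    · have h4 := hc.kd.φle (σ + 1) (A (σ + 1))
      have h5 := hc.kd.μle σ (A (σ + 1))
      have h6 := hc.kd.μmono σ (S := A (σ + 1)) (T := A σ) (by
        rw [hA]; exact Set.sdiff_subset_sdiff_left (Ann_anti (Nat.le_succ σ)))
      have h7 := mul_le_mul_of_nonneg_left half_lt_qq.le (show 0 ≤ qq ^ σ * V by positivity)
      rw [pow_succ]
      linarith
    · have h4 := hgap.2 l h3 h2
      have h5 := hc.kd.φmono l (S := A l) (T := Ann x r l) (by rw [hA]; exact Set.sdiff_subset)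
      linarith
  have hpiece : ∀ (l : ℕ) (k : E → ℝ), σ ≤ l → l ≤ L → (∀ y, 0 ≤ k y) → SL k 20 (20 * 2 ^ l) →
      (∀ y, k y ≠ 0 → y ∈ Ann x r l) →
      OutR g n κ (fun y => 1 - a y) B H k (8 * V * qq ^ l) := by
    intro l k h1 h2 h0 hk hs
    exact (out_piece hc.kd l (hAb l) hB (fun y => mul_nonneg (h0 y) (hb0 y)) (hsl l k h1 hk)
      (hsupp l k hs) (fun y hy => hκ y (by simpa [dist_eq_norm] using hAs l hy)) hl).mono hB hH
      (hφ l h1 h2)
  have htel : ∀ M, σ ≤ M → M ≤ L →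
      OutR g n κ (fun y => 1 - a y) B H (fun y => Zc x r M y - Zc x r σ y)
        (8 * V * ∑ l ∈ Finset.Ioc σ M, qq ^ l) ∧
      OutR g n κ (fun y => 1 - a y) B H (fun y => Oc x r σ y - Oc x r M y)
        (8 * V * ∑ l ∈ Finset.Ioc σ M, qq ^ l) := by
    intro M hM
    induction M, hM using Nat.le_induction with
    | base =>
      intro _
      simp only [sub_self, Finset.Ioc_self, Finset.sum_empty, mul_zero]
      exact ⟨OutR.zero, OutR.zero⟩
    | succ M hM ih =>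
      intro hML
      obtain ⟨i1, i2⟩ := ih (by omega)
      have hp : (0 : ℝ) ≤ 2 ^ (M + 1) := by positivity
      rw [Finset.sum_Ioc_succ_top hM, mul_add]
      exact ⟨(i1.add (hpiece (M + 1) _ (by omega) hML
          (fun y => sub_nonneg.2 (Zc_mono (Nat.le_succ M) y))
          (SL_dZ.mono (by norm_num) (by linarith)) fun y => mem_Ann_of_Zc)).congr
            fun y => by ring,
        (i2.add (hpiece (M + 1) _ (by omega) hML
          (fun y => sub_nonneg.2 (Oc_anti (Nat.le_succ M) y))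
          (SL_dO.mono (by norm_num) (by linarith)) fun y => mem_Ann_of_Oc)).congr
            fun y => by ring⟩
  obtain ⟨U, hU⟩ : ∃ U : ℝ, U = 8 * Cg * (qq ^ σ * V) := ⟨_, rfl⟩
  have hU1 : ∀ s : Finset ℕ, (∀ l ∈ s, σ ≤ l) → 8 * V * ∑ l ∈ s, qq ^ l ≤ U := fun s hs => by
    have := mul_le_mul_of_nonneg_left (hg σ s hs) (show 0 ≤ 8 * V by positivity)
    rw [hU]
    linarith
  have hU2 := hU1 (Finset.Ioc σ L) fun l hl' => (Finset.mem_Ioc.1 hl').1.le
  have hU3 : 8 * V * qq ^ L ≤ U := by simpa using hU1 {L} (by simpa using hgap.1)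
  have hZ := (htel L hgap.1 le_rfl).1.mono hB hH hU2
  have hO := (htel L hgap.1 le_rfl).2.mono hB hH hU2
  -- the total
  have htot : ∫ y, (Oc x r σ y - Zc x r σ y) * (1 - a y) * ⟪n, g y⟫ ≤ 36 * H * (qq ^ σ * V) := by
    have hp : (0 : ℝ) ≤ 2 ^ σ := by positivity
    have h1 := hsl σ _ le_rfl (((SL_Oc x r σ).sub (SL_Zc x r σ)).mono (by norm_num) (by linarith))
    have h2 := (h1.smul (κ := fun _ => n) (a' := 1) (b' := 0) zero_le_one le_rfl
      (fun _ _ => hc.kd.n1.le) (fun _ _ => by simp)).mono (a' := H) (b' := H * 2 ^ σ)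
        (by linarith) (by linarith)
    have h3 := hc.kd.absle σ h2 (hAb σ) fun y hy => by
      rw [hsupp σ _ (fun y => mem_Ann_of_Oc_Zc) y hy, zero_smul]
    simp only [real_inner_smul_left] at h3
    have h4 := mul_le_mul_of_nonneg_left hout (show 0 ≤ 36 * H by positivity)
    exact (le_abs_self _).trans (h3.trans h4)
  have main : ∀ K : E → ℝ, (∀ y, 0 ≤ K y ∧ K y ≤ Oc x r L y - Zc x r L y) →
      (∀ y z, |K y - K z| ≤ 17 * 2 ^ L * ‖y - z‖) →
      |∫ y, (Zc x r L y - Zc x r σ y) * (1 - a y) * ⟪κ y, g y⟫| ≤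
        H * (144 + 972 * (8 * Cg)) * B * (qq ^ σ * V) ∧
      |∫ y, K y * (1 - a y) * ⟪κ y, g y⟫| ≤ H * (144 + 972 * (8 * Cg)) * B * (qq ^ σ * V) := by
    intro K hK0 hKl
    have hp : (0 : ℝ) ≤ 2 ^ L := by positivity
    have hK1 : SL K 1 (17 * 2 ^ L) := SL.of_unit (fun y => ⟨(hK0 y).1, by
      linarith [(hK0 y).2, (Oc_mem x r L y).2, (Zc_mem x r L y).1]⟩) hKl
    have hK := (hpiece L K hgap.1 le_rfl (fun y => (hK0 y).1)
      (hK1.mono (by norm_num) (by linarith)) fun y hy => mem_Ann_of_Oc_Zc fun h' =>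
        hy (le_antisymm (h' ▸ (hK0 y).2) (hK0 y).1)).mono hB hH hU3
    have hK' := (hpiece L (fun y => Oc x r L y - Zc x r L y - K y) hgap.1 le_rfl
      (fun y => sub_nonneg.2 (hK0 y).2)
      ((((SL_Oc x r L).sub (SL_Zc x r L)).sub hK1).mono (by norm_num) (by linarith))
      fun y hy => mem_Ann_of_Oc_Zc fun h' => hy (by
        have := hK0 y
        rw [h'] at this ⊢
        linarith [this.1, this.2])).mono hB hH hU3
    have e1 := ((hZ.add hK).add hK').add_eq hO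
    rw [(hZ.add hK).add_eq hK', hZ.add_eq hK] at e1
    have e2 : ∫ y, (Zc x r L y - Zc x r σ y + K y + (Oc x r L y - Zc x r L y - K y) +
        (Oc x r σ y - Oc x r L y)) * (1 - a y) * ⟪n, g y⟫ =
        ∫ y, (Oc x r σ y - Zc x r σ y) * (1 - a y) * ⟪n, g y⟫ := by
      congr 1
      funext y
      ring
    rw [e2] at e1
    have l1 := hZ.lo
    have l2 := hK.lo
    have l3 := hK'.lo
    have l4 := hO.lo
    have b1 : ∫ y, (Zc x r L y - Zc x r σ y) * (1 - a y) * ⟪n, g y⟫ ≤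
        36 * H * (qq ^ σ * V) + 27 * H * U := by linarith
    have b2 : ∫ y, K y * (1 - a y) * ⟪n, g y⟫ ≤ 36 * H * (qq ^ σ * V) + 27 * H * U := by linarith
    have c1 := mul_le_mul_of_nonneg_left b1 hB
    have c2 := mul_le_mul_of_nonneg_left b2 hB
    have e3 : H * (144 + 972 * (8 * Cg)) * B * (qq ^ σ * V) =
        4 * (B * (36 * H * (qq ^ σ * V) + 27 * H * U)) + 864 * H * B * U := by
      rw [hU]; ring
    rw [e3]
    exact ⟨hZ.up.trans (by linarith), hK.up.trans (by linarith)⟩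
  exact ⟨(main (fun _ => 0) (fun y => ⟨le_rfl, sub_nonneg.2 (Zc_le_Oc L y)⟩)
    (fun y z => by simp only [sub_self, abs_zero]; positivity)).1, fun K h1 h2 => (main K h1 h2).2⟩

end Crest.Agent.R112
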