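import Crest.Agent.R112.Tool

/-! # Row 112: cutoffs and the tangential identity (task TAN) -/

set_option autoImplicit false

namespace Crest.Agent.R112

open MeasureTheory Metric
open scoped RealInnerProductSpace

/-- `a y = α (D⁻¹ • (y - p))` for a fixed `α : ContDiffBump (0 : E)` with `rIn = 1`, `rOut = 2`;
`α` and `gradient α` are `C¹` with compact support, hence bounded and Lipschitz
(`ContDiff.lipschitzWith_of_hasCompactSupport`). -/
theorem exists_cut : ∃ Ca : ℝ, 1 ≤ Ca ∧ ∀ (p : E) (D : ℝ), 0 < D → ∃ a a', Cut Ca p D a a' := by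
  let α : ContDiffBump (0 : E) := ⟨1, 2, one_pos, one_lt_two⟩
  have hα2 : ContDiff ℝ 2 α := α.contDiff
  have hα1 : ContDiff ℝ 1 α := α.contDiff
  obtain ⟨L₁, hL₁⟩ := hα1.lipschitzWith_of_hasCompactSupport α.hasCompactSupport (by simp)
  have hd1 : ContDiff ℝ 1 (fderiv ℝ α) := hα2.fderiv_right (by norm_num)
  obtain ⟨L₂, hL₂⟩ := hd1.lipschitzWith_of_hasCompactSupport (α.hasCompactSupport.fderiv ℝ)
    (by simp)
  have hdiff : Differentiable ℝ α := hα1.differentiable (by simp)
  have hg1 : ∀ z, ‖gradient α z‖ ≤ L₁ := fun z => by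
    rw [gradient, LinearIsometryEquiv.norm_map]
    exact norm_fderiv_le_of_lipschitz ℝ hL₁
  have hg2 : ∀ z w, ‖gradient α z - gradient α w‖ ≤ L₂ * ‖z - w‖ := fun z w => by
    rw [gradient, gradient, ← map_sub, LinearIsometryEquiv.norm_map]
    exact hL₂.norm_sub_le z w
  have hg0 : ∀ z : E, (‖z‖ < 1 ∨ 2 < ‖z‖) → gradient α z = 0 := by
    intro z hz
    rcases hz with hz | hz
    · have : (α : E → ℝ) =ᶠ[nhds z] fun _ => 1 := by
        filter_upwards [(isOpen_lt continuous_norm continuous_const).mem_nhds hz] with w hw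
        exact α.one_of_mem_closedBall (by simpa using hw.le)
      rw [this.gradient_eq, gradient_fun_const]
    · have : (α : E → ℝ) =ᶠ[nhds z] fun _ => 0 := by
        filter_upwards [(isOpen_lt continuous_const continuous_norm).mem_nhds hz] with w hw
        exact α.zero_of_le_dist (by simpa using hw.le)
      rw [this.gradient_eq, gradient_fun_const]
  have h1 := L₁.coe_nonneg
  have h2 := L₂.coe_nonneg
  refine ⟨1 + L₁ + L₂, by linarith, fun p D hD => ?_⟩
  have hn : ∀ y : E, ‖D⁻¹ • (y - p)‖ = ‖y - p‖ / D := fun y => by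
    rw [norm_smul, norm_inv, Real.norm_eq_abs, abs_of_pos hD]; ring
  have hn2 : ∀ y z : E, ‖D⁻¹ • (y - p) - D⁻¹ • (z - p)‖ = ‖y - z‖ / D := fun y z => by
    rw [← smul_sub, sub_sub_sub_cancel_right, norm_smul, norm_inv, Real.norm_eq_abs, abs_of_pos hD]
    ring
  refine ⟨fun y => α (D⁻¹ • (y - p)), fun y => D⁻¹ • gradient α (D⁻¹ • (y - p)), ?_, ?_, ?_, ?_,
    ?_, ⟨?_, ?_⟩, ?_⟩
  · intro y
    rw [hasGradientAt_iff_hasFDerivAt]
    have h3 := (hdiff (D⁻¹ • (y - p))).hasFDerivAt.comp y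
      (((hasFDerivAt_id y).sub_const p).const_smul D⁻¹)
    refine HasFDerivAt.congr_fderiv h3 ?_
    ext v
    simp
  · exact fun y => ⟨α.nonneg, α.le_one⟩
  · intro y hy
    refine α.one_of_mem_closedBall ?_
    rw [mem_closedBall_zero_iff, hn, div_le_iff₀ hD]
    simpa [α] using hy
  · intro y hy
    refine α.zero_of_le_dist ?_
    rw [dist_zero_right, hn, le_div_iff₀ hD]
    simpa [α] using hy
  · intro y z
    have h3 := hL₁.norm_sub_le (D⁻¹ • (y - p)) (D⁻¹ • (z - p))
    rw [hn2, Real.norm_eq_abs] at h3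
    refine h3.trans ?_
    rw [← mul_div_assoc, div_mul_eq_mul_div]
    gcongr
    linarith
  · intro y
    rw [norm_smul, norm_inv, Real.norm_eq_abs, abs_of_pos hD, ← div_eq_inv_mul]
    gcongr
    linarith [hg1 (D⁻¹ • (y - p))]
  · intro y z
    rw [← smul_sub, norm_smul, norm_inv, Real.norm_eq_abs, abs_of_pos hD]
    have h3 := hg2 (D⁻¹ • (y - p)) (D⁻¹ • (z - p))
    rw [hn2] at h3
    calc _ ≤ D⁻¹ * (L₂ * (‖y - z‖ / D)) := by gcongr
      _ = L₂ / D ^ 2 * ‖y - z‖ := by field_simp
      _ ≤ _ := by gcongr; linarith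
  · intro y hy
    rw [hg0 _ ?_, smul_zero]
    rw [hn, div_lt_iff₀ hD, lt_div_iff₀ hD]
    simpa using hy

/-- Stream function `ψ y = Ψ (‖y - x‖²) a y`, `Ψ s = -(1/2) ∫ u in s..(r+1)², K (r - √u)`, so
`∇ψ = a K(dp y) (y - x) + Ψ a'` and `κ = -Ψ • rot a'`.  `Ψ (‖y-x‖²)` is `3`-Lipschitz (its gradient
is `K (dp y) (y - x)`), vanishes for `dp y < -δ`, and `|Ψ (‖y - x‖²)| ≤ 13 δ M` whenever
`K ≤ M` on `(-∞, dp y]` (the integrand is supported in `(r - 4δ)² ≤ u ≤ (r + δ)²`). -/
theorem tang {g : E → E} (hg : Integrable g) (hc : Curl g) {Ca D δ r : ℝ} {p x : E} {a : E → ℝ}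
    {a' : E → E} (ha : Cut Ca p D a a') (hCa : 1 ≤ Ca) (hr1 : 1 ≤ r) (hr2 : r ≤ 2) (hδ : 0 < δ)
    (hδ4 : δ ≤ 1 / 4) (hδD : δ ≤ D) {K : ℝ → ℝ} (hK : Continuous K) (hK0 : ∀ s, 0 ≤ K s ∧ K s ≤ 1)
    (hKs : ∀ s, K s ≠ 0 → -δ ≤ s ∧ s ≤ 4 * δ) :
    ∃ κ : E → E, SL κ (20 * Ca * δ / D) (20 * Ca / D) ∧
      (∀ y M, 0 ≤ M → (∀ s, s ≤ dp x r y → K s ≤ M) → ‖κ y‖ ≤ 20 * Ca * δ / D * M) ∧
      (∀ y, κ y ≠ 0 → -δ ≤ dp x r y ∧ D ≤ ‖y - p‖ ∧ ‖y - p‖ ≤ 2 * D) ∧
      ∫ y, a y * K (dp x r y) * ⟪rot (y - x), g y⟫ = ∫ y, ⟪κ y, g y⟫ := by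
  have hk : Continuous fun u : ℝ => K (r - √u) := by fun_prop
  set Ψ : ℝ → ℝ := fun s => -(1 / 2) * ∫ u in s..(r + 1) ^ 2, K (r - √u) with hΨ
  have hΨd : ∀ s, HasDerivAt Ψ (1 / 2 * K (r - √s)) s := fun s => by
    have := (intervalIntegral.integral_hasDerivAt_left (hk.intervalIntegrable s ((r + 1) ^ 2))
      (hk.stronglyMeasurableAtFilter _ _) hk.continuousAt).const_mul (-(1 / 2))
    refine HasDerivAt.congr_deriv this ?_
    ring
  set Θ : E → ℝ := fun y => Ψ (‖y - x‖ ^ 2) with hΘ
  have hΘd : ∀ y, HasFDerivAt Θ (InnerProductSpace.toDual ℝ E (K (dp x r y) • (y - x))) y := by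
    intro y
    have h1 := (hΨd (‖y - x‖ ^ 2)).comp_hasFDerivAt y ((hasFDerivAt_id y).sub_const x).norm_sq
    refine HasFDerivAt.congr_fderiv h1 ?_
    ext v
    simp [dp]
    ring
  have hKn : ∀ y, ‖K (dp x r y) • (y - x)‖ ≤ 3 := by
    intro y
    by_cases h : K (dp x r y) = 0
    · simp [h]
    · have h1 := (hKs _ h).1
      rw [norm_smul, Real.norm_eq_abs, abs_of_nonneg (hK0 _).1]
      unfold dp at h1
      calc _ ≤ 1 * ‖y - x‖ := by gcongr; exact (hK0 _).2
        _ ≤ 3 := by linarith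
  have hΘl : ∀ y z, |Θ y - Θ z| ≤ 3 * ‖y - z‖ := by
    intro y z
    have := convex_univ.norm_image_sub_le_of_norm_hasFDerivWithin_le
      (fun w _ => (hΘd w).hasFDerivWithinAt)
      (fun w _ => by rw [LinearIsometryEquiv.norm_map]; exact hKn w) (Set.mem_univ z)
      (Set.mem_univ y)
    simpa using this
  have hΘ0 : ∀ y, dp x r y < -δ → Θ y = 0 := by
    intro y hy
    have : ∫ u in (‖y - x‖ ^ 2)..(r + 1) ^ 2, K (r - √u) = ∫ u in (‖y - x‖ ^ 2)..(r + 1) ^ 2,
        (0 : ℝ) := by
      refine intervalIntegral.integral_congr fun u hu => ?_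
      by_contra hne
      have h1 := (hKs _ hne).1
      unfold dp at hy
      have h2 : r + δ < √u := by
        rw [Real.lt_sqrt (by linarith)]
        have h3 : (r + δ) ^ 2 < ‖y - x‖ ^ 2 := by
          apply pow_lt_pow_left₀ <;> first | linarith | norm_num
        have h4 : (r + δ) ^ 2 < (r + 1) ^ 2 := by
          apply pow_lt_pow_left₀ <;> first | linarith | norm_num
        exact (lt_min h3 h4).trans_le hu.1
      linarith
    simp [hΘ, hΨ, this]
  have hΘb : ∀ y M, 0 ≤ M → (∀ s, s ≤ dp x r y → K s ≤ M) → |Θ y| ≤ 13 * δ * M := by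
    intro y M hM hKM
    rcases lt_or_ge (dp x r y) (-δ) with hy | hy
    · rw [hΘ0 y hy, abs_zero]; positivity
    have hy' : ‖y - x‖ ≤ r + 1 := by unfold dp at hy; linarith
    have hle : ‖y - x‖ ^ 2 ≤ (r + 1) ^ 2 := by gcongr
    have h0 : 0 ≤ ∫ u in (‖y - x‖ ^ 2)..(r + 1) ^ 2, K (r - √u) :=
      intervalIntegral.integral_nonneg hle fun u _ => (hK0 _).1
    have hind : Integrable ((Set.Icc ((r - 4 * δ) ^ 2) ((r + δ) ^ 2)).indicator fun _ : ℝ => M) :=
      (integrable_indicator_iff measurableSet_Icc).2 (integrableOn_const (by simp))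
    have h1 : ∫ u in (‖y - x‖ ^ 2)..(r + 1) ^ 2, K (r - √u) ≤ 20 * δ * M := by
      rw [intervalIntegral.integral_of_le hle]
      calc _ ≤ ∫ u in Set.Ioc (‖y - x‖ ^ 2) ((r + 1) ^ 2),
            (Set.Icc ((r - 4 * δ) ^ 2) ((r + δ) ^ 2)).indicator (fun _ : ℝ => M) u := by
            refine setIntegral_mono_on (hk.integrableOn_Icc.mono_set Set.Ioc_subset_Icc_self)
              hind.integrableOn measurableSet_Ioc fun u hu => ?_
            by_cases hne : K (r - √u) = 0
            · rw [hne]; exact Set.indicator_nonneg (fun _ _ => hM) _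
            have hu0 : 0 ≤ u := (sq_nonneg _).trans hu.1.le
            obtain ⟨h2, h3⟩ := hKs _ hne
            have h4 : u ∈ Set.Icc ((r - 4 * δ) ^ 2) ((r + δ) ^ 2) := by
              constructor
              · rw [← Real.le_sqrt (by linarith) hu0]; linarith
              · rw [← Real.sqrt_le_left (by linarith)]; linarith
            rw [Set.indicator_of_mem h4]
            refine hKM _ ?_
            have : ‖y - x‖ ≤ √u := Real.le_sqrt_of_sq_le hu.1.le
            unfold dp; linarith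
        _ ≤ ∫ u, (Set.Icc ((r - 4 * δ) ^ 2) ((r + δ) ^ 2)).indicator (fun _ : ℝ => M) u :=
            setIntegral_le_integral hind
              (Filter.Eventually.of_forall (Set.indicator_nonneg fun _ _ => hM))
        _ = ((r + δ) ^ 2 - (r - 4 * δ) ^ 2) * M := by
            rw [integral_indicator_const _ measurableSet_Icc, Real.volume_real_Icc_of_le,
              smul_eq_mul]
            nlinarith
        _ ≤ 20 * δ * M := by gcongr; nlinarith
    have h2 : Θ y = -(1 / 2) * ∫ u in (‖y - x‖ ^ 2)..(r + 1) ^ 2, K (r - √u) := rfl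
    have h3 : 0 ≤ δ * M := by positivity
    rw [h2, abs_le]
    constructor <;> nlinarith
  have hD : 0 < D := hδ.trans_le hδD
  have hSΘ : SL (fun y => -Θ y) (13 * δ) 3 := by
    constructor
    · intro y
      rw [norm_neg, Real.norm_eq_abs]
      simpa using hΘb y 1 zero_le_one fun s _ => (hK0 s).2
    · intro y z
      rw [neg_sub_neg, Real.norm_eq_abs, abs_sub_comm]
      exact hΘl y z
  have hκ : SL (fun y => (-Θ y) • rot (a' y)) (13 * δ * (Ca / D))
      (3 * (Ca / D) + 13 * δ * (Ca / D ^ 2)) :=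
    hSΘ.smul (by positivity) (by positivity) (fun y _ => by rw [norm_rot]; exact ha.sl.bd y)
      fun y z => by rw [← rot_sub, norm_rot]; exact ha.sl.lip y z
  have hCD : 0 < Ca / D := by positivity
  have hκ' : SL (fun y => (-Θ y) • rot (a' y)) (20 * Ca * δ / D) (20 * Ca / D) := by
    refine hκ.mono ?_ ?_
    · have : 20 * Ca * δ / D = 20 * δ * (Ca / D) := by ring
      rw [this]; gcongr; norm_num
    · have h1 : δ * (Ca / D ^ 2) ≤ Ca / D := by
        calc δ * (Ca / D ^ 2) ≤ D * (Ca / D ^ 2) := by gcongr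
          _ = Ca / D := by field_simp
      have : 20 * Ca / D = 20 * (Ca / D) := by ring
      rw [this]; linarith
  refine ⟨fun y => (-Θ y) • rot (a' y), hκ', ?_, ?_, ?_⟩
  · intro y M hM hKM
    rw [norm_smul, norm_neg, norm_rot, Real.norm_eq_abs]
    calc _ ≤ 13 * δ * M * (Ca / D) := by
          gcongr
          · exact hΘb y M hM hKM
          · exact ha.sl.bd y
      _ ≤ 20 * δ * M * (Ca / D) := by gcongr; norm_num
      _ = _ := by ring
  · intro y hy
    have h1 : Θ y ≠ 0 := fun h => hy (by simp [h])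
    have h2 : a' y ≠ 0 := fun h => hy (by
      have : rot (0 : E) = 0 := by ext i; fin_cases i <;> simp
      simp [h, this])
    refine ⟨not_lt.1 fun h => h1 (hΘ0 y h), not_lt.1 fun h => h2 (ha.zero' y (Or.inl h)),
      not_lt.1 fun h => h2 (ha.zero' y (Or.inr h))⟩
  · have hac : Continuous a := continuous_iff_continuousAt.2 fun y => (ha.grad y).continuousAt
    have hΘc : Continuous Θ := continuous_iff_continuousAt.2 fun y => (hΘd y).continuousAt
    have hdc : Continuous (dp x r) := by unfold dp; fun_prop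
    have ha'c : Continuous a' := ha.sl.continuous
    have hrc : Continuous rot := by
      have : LipschitzWith 1 rot := LipschitzWith.of_dist_le_mul fun v w => by
        rw [dist_eq_norm, ← rot_sub, norm_rot, dist_eq_norm]; simp
      exact this.continuous
    have hcurl := hc (fun y => Θ y * a y)
      (fun y => Θ y • a' y + a y • (K (dp x r y) • (y - x))) ?_ (by fun_prop) ?_
    · have hA : Integrable fun y => a y * K (dp x r y) * ⟪rot (y - x), g y⟫ := by
        refine (hg.norm.const_mul 3).mono' ?_ (Filter.Eventually.of_forall fun y => ?_)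
        · exact (by fun_prop : Continuous fun y => a y * K (dp x r y)).aestronglyMeasurable.mul
            ((by fun_prop : Continuous fun y => rot (y - x)).aestronglyMeasurable.inner
              hg.aestronglyMeasurable)
        · have e : a y * K (dp x r y) * ⟪rot (y - x), g y⟫ =
              a y * ⟪rot (K (dp x r y) • (y - x)), g y⟫ := by
            rw [rot_smul, real_inner_smul_left]; ring
          rw [e, norm_mul, Real.norm_eq_abs, abs_of_nonneg (ha.nn y).1]
          calc _ ≤ 1 * (‖rot (K (dp x r y) • (y - x))‖ * ‖g y‖) := by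
                gcongr
                · exact (ha.nn y).2
                · exact norm_inner_le_norm _ _
            _ ≤ 3 * ‖g y‖ := by rw [one_mul, norm_rot]; gcongr; exact hKn y
      have hB := hκ'.integrable_inner hg
      rw [← sub_eq_zero, ← integral_sub hA hB, ← hcurl]
      refine integral_congr_ae (Filter.Eventually.of_forall fun y => ?_)
      simp only [rot_add, rot_smul, inner_add_left, real_inner_smul_left]
      ring
    · intro y
      rw [hasGradientAt_iff_hasFDerivAt]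
      have := (hΘd y).mul (hasGradientAt_iff_hasFDerivAt.1 (ha.grad y))
      refine HasFDerivAt.congr_fderiv this ?_
      ext v
      simp
    · refine HasCompactSupport.intro (isCompact_closedBall p (2 * D)) fun y hy => ?_
      rw [mem_closedBall, dist_eq_norm, not_le] at hy
      rw [ha.zero y hy.le, mul_zero]

end Crest.Agent.R112
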