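import Crest.Agent.R112.Out
import Crest.Agent.R112.Tan

/-! # Row 112: the potential is almost constant (task SEG) -/

set_option autoImplicit false

namespace Crest.Agent.R112

open MeasureTheory Metric
open scoped RealInnerProductSpace

theorem seg_s (σ : ℕ) : 0 < qq ^ σ ∧ qq ^ σ ≤ 1 :=
  ⟨pow_pos qq_pos σ, pow_le_one₀ qq_pos.le qq_lt_one.le⟩

theorem seg_D (σ : ℕ) : (1 : ℝ) / 2 ^ σ ≤ (qq ^ σ) ^ 4 := by
  rw [← qq_pow_pow]
  exact pow_le_pow_of_le_one (seg_s σ).1.le (seg_s σ).2 (by norm_num)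

/-- geometry of the cluster: for `σ ≥ 3` -/
theorem Good.geom {g : E → E} {μ : ℕ → Measure E} {V : ℝ} {x : E} {r : ℝ} {σ : ℕ} {p : E}
    (h : Good g μ V x r σ p) (hr1 : 1 ≤ r) (hσ : 3 ≤ σ) :
    1 / 2 ≤ ‖p - x‖ ∧ ‖nu x p‖ = 1 ∧
      ∀ y, ‖y - p‖ ≤ 2 * (qq ^ σ) ^ 4 → ‖y - x - r • nu x p‖ ≤ 4 * (qq ^ σ) ^ 4 := by
  have h1 := h.near
  have h2 : (2 : ℝ) / 2 ^ σ ≤ 1 / 4 := by
    have : (2 : ℝ) ^ 3 ≤ 2 ^ σ := pow_le_pow_right₀ one_le_two hσ
    rw [div_le_div_iff₀ (by positivity) (by norm_num)]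
    linarith
  unfold dp at h1
  have h3 : 1 / 2 ≤ ‖p - x‖ := by
    have := (abs_le.1 h1).2
    linarith
  have h4 : ‖p - x‖ ≠ 0 := by linarith
  have h5 : ‖nu x p‖ = 1 := by
    rw [nu, norm_smul, norm_inv, norm_norm, inv_mul_cancel₀ h4]
  refine ⟨h3, h5, fun y hy => ?_⟩
  have e : y - x - r • nu x p = (y - p) + (‖p - x‖ - r) • nu x p := by
    rw [sub_smul, nu, smul_inv_smul₀ h4]; abel
  have h6 : (2 : ℝ) / 2 ^ σ ≤ 2 * (qq ^ σ) ^ 4 := by
    have := seg_D σ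
    rw [div_eq_mul_one_div]
    linarith
  rw [e]
  refine (norm_add_le _ _).trans ?_
  rw [norm_smul, h5, mul_one, Real.norm_eq_abs, abs_sub_comm]
  linarith

theorem seg_intg {g : E → E} (hg : Integrable g) {h : E → ℝ} {κ : E → E} (hh : Continuous h)
    (hκ : Continuous κ) {x : E} (hs : ∀ y, h y ≠ 0 → ‖y - x‖ ≤ 6) :
    Integrable fun y => h y * ⟪κ y, g y⟫ := by
  have hF : Continuous fun y => h y • κ y := hh.smul hκ
  have hc : HasCompactSupport fun y => h y • κ y := by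
    refine HasCompactSupport.intro (isCompact_closedBall x 6) (fun y hy => ?_)
    have : h y = 0 := by
      by_contra h0
      exact hy (by rw [mem_closedBall, dist_eq_norm]; exact hs y h0)
    rw [this, zero_smul]
  obtain ⟨C, hC⟩ := hF.bounded_above_of_compact_support hc
  have e : (fun y => h y * ⟪κ y, g y⟫) = fun y => ⟪h y • κ y, g y⟫ := by
    ext y; rw [real_inner_smul_left]
  rw [e]
  refine Integrable.mono' (hg.norm.const_mul C)
    (hF.aestronglyMeasurable.inner hg.aestronglyMeasurable) (Filter.Eventually.of_forall fun y => ?_)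
  exact (norm_inner_le_norm _ _).trans (mul_le_mul_of_nonneg_right (hC y) (norm_nonneg _))

theorem seg_supp {x : E} {r : ℝ} (hr : r ≤ 2) {m : ℕ} {y : E} (h : Zc x r m y ≠ 0) :
    ‖y - x‖ ≤ 6 := by
  have := norm_lt_of_Zc h
  linarith

theorem seg_cont_rot (x : E) : Continuous fun y : E => rot (y - x) := by
  refine (LipschitzWith.of_dist_le_mul (K := 1) (fun y z => ?_)).continuous
  rw [dist_eq_norm, dist_eq_norm, ← rot_sub, norm_rot]
  simp

theorem seg_SL_cut {Ca D : ℝ} {p : E} {a : E → ℝ} {a' : E → E} (ha : Cut Ca p D a a') :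
    SL a 1 (Ca / D) := SL.of_unit ha.nn ha.lip

/-- splitting of integrals of differences of cutoffs -/
theorem seg_split {g : E → E} (hg : Integrable g) {b : E → ℝ} {κ : E → E} (hb : Continuous b)
    (hκ : Continuous κ) (x : E) {r : ℝ} (hr : r ≤ 2) (l m : ℕ) :
    ∫ y, (Zc x r m y - Zc x r l y) * b y * ⟪κ y, g y⟫ =
      (∫ y, Zc x r m y * b y * ⟪κ y, g y⟫) - ∫ y, Zc x r l y * b y * ⟪κ y, g y⟫ := by
  have hi : ∀ k, Integrable fun y => Zc x r k y * b y * ⟪κ y, g y⟫ := fun k =>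
    seg_intg hg ((SL_Zc x r k).continuous.mul hb) hκ
      (fun y hy => seg_supp hr (left_ne_zero_of_mul hy))
  rw [← integral_sub (hi m) (hi l)]
  congr 1; ext y; ring

theorem seg_tele {g : E → E} (hg : Integrable g) {b : E → ℝ} {κ : E → E} (hb : Continuous b)
    (hκ : Continuous κ) (x : E) {r : ℝ} (hr : r ≤ 2) {σ L : ℕ} (h : σ ≤ L) :
    ∫ y, (Zc x r L y - Zc x r σ y) * b y * ⟪κ y, g y⟫ =
      ∑ l ∈ Finset.Ico σ L, ∫ y, (Zc x r (l + 1) y - Zc x r l y) * b y * ⟪κ y, g y⟫ := by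
  simp only [seg_split hg hb hκ x hr]
  exact (Finset.sum_Ico_sub (fun l => ∫ y, Zc x r l y * b y * ⟪κ y, g y⟫) h).symm

theorem seg_rem {g : E → E} {n : E} {φ μ : ℕ → Measure E} {V : ℝ} {x : E} {r : ℝ}
    (hc : Ctx g n φ μ V x r) {Ca D : ℝ} {p : E} {a : E → ℝ} {a' : E → E} (ha : Cut Ca p D a a')
    (hCa : 1 ≤ Ca) (hD : 0 < D) {l : ℕ} (hDl : 1 ≤ D * 2 ^ (l + 1)) {ρ : E → E}
    (hρ : ∀ y, ‖y - p‖ ≤ 2 * D → ‖ρ y‖ ≤ 8 * D) (hρl : ∀ y z, ‖ρ y - ρ z‖ ≤ 2 * ‖y - z‖) :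
    |∫ y, (Zc x r (l + 1) y - Zc x r l y) * a y * ⟪ρ y, g y⟫| ≤
      32 * D * (∫ y, (Zc x r (l + 1) y - Zc x r l y) * a y * ⟪n, g y⟫) +
        432 * (36 * Ca * D) * (φ (l + 1)).real (Ann x r (l + 1)) := by
  have hP : (0 : ℝ) < 2 ^ (l + 1) := by positivity
  have h1 : Ca / D ≤ Ca * 2 ^ (l + 1) := by
    rw [div_le_iff₀ hD]; nlinarith
  have h2 : SL (fun y => (Zc x r (l + 1) y - Zc x r l y) * a y) 2 (4 * Ca * 2 ^ (l + 1)) :=
    (SL_dZ.mul (seg_SL_cut ha)).mono (by norm_num) (by nlinarith)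
  have h0 : ∀ y, 0 ≤ (Zc x r (l + 1) y - Zc x r l y) * a y := fun y =>
    mul_nonneg (sub_nonneg.2 (Zc_mono (Nat.le_succ l) y)) (ha.nn y).1
  have hbd : ∀ y, (Zc x r (l + 1) y - Zc x r l y) * a y ≠ 0 → ‖ρ y‖ ≤ 8 * D := by
    intro y hy
    refine hρ y ?_
    by_contra h
    exact right_ne_zero_of_mul hy (ha.zero y (not_le.1 h).le)
  have hCD : D ≤ Ca * D := by nlinarith
  have h3 : SL (fun y => ((Zc x r (l + 1) y - Zc x r l y) * a y) • ρ y) (36 * Ca * D)
      (36 * Ca * D * 2 ^ (l + 1)) :=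
    (h2.smul (by positivity) (by norm_num) hbd hρl).mono (by nlinarith) (by nlinarith)
  have h4 : SL (fun y => 8 * D * ((Zc x r (l + 1) y - Zc x r l y) * a y)) (36 * Ca * D)
      (36 * Ca * D * 2 ^ (l + 1)) :=
    (h2.const_mul (by positivity)).mono (by nlinarith) (by nlinarith)
  have h5 := hc.kd.conele (l + 1) h3 h4 (S := Ann x r (l + 1)) (fun y => by
      rw [norm_smul, Real.norm_eq_abs, abs_of_nonneg (h0 y), mul_comm (8 * D)]
      by_cases hy : (Zc x r (l + 1) y - Zc x r l y) * a y = 0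
      · rw [hy]; simp
      · exact mul_le_mul_of_nonneg_left (hbd y hy) (h0 y))
    (isBounded_closedBall.subset (Ann_subset hc.r2)) (fun y hy => by
      have : Zc x r (l + 1) y - Zc x r l y = 0 := by
        by_contra h
        exact hy (mem_Ann_of_Zc h)
      rw [this]; simp)
  simp only [real_inner_smul_left, mul_assoc (8 * D), integral_const_mul] at h5
  linarith

theorem seg_cl_mono {s t : ℝ} (h : s ≤ t) : cl s ≤ cl t :=
  max_le_max le_rfl (min_le_min le_rfl h)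

theorem seg_cl_mem (s : ℝ) : 0 ≤ cl s ∧ cl s ≤ 1 :=
  ⟨le_max_left _ _, max_le zero_le_one (min_le_left _ _)⟩

theorem seg_cl_zero {s : ℝ} (h : s ≤ 0) : cl s = 0 :=
  max_eq_left ((min_le_right _ _).trans h)

theorem seg_cl_one {s : ℝ} (h : 1 ≤ s) : cl s = 1 := by
  rw [cl, min_eq_left h, max_eq_right zero_le_one]

theorem seg_tan {g : E → E} {n : E} {φ μ : ℕ → Measure E} {V : ℝ} {x : E} {r : ℝ}
    (hc : Ctx g n φ μ V x r) {Ca D : ℝ} {p : E} {a : E → ℝ} {a' : E → E} (ha : Cut Ca p D a a')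
    (hCa : 1 ≤ Ca) (hD : 0 < D) {l : ℕ} (hl : 1 ≤ l) (hDl : 1 / 2 ^ (l + 1) ≤ D) :
    |∫ y, (Zc x r (l + 1) y - Zc x r l y) * a y * ⟪rot (y - x), g y⟫| ≤
      20 * Ca * (1 / 2 ^ (l + 1)) / D * (4 * ⟪n, Phi g x r (l + 1)⟫ + 432 * (V / qq ^ (l + 1))) := by
  have hP : (0 : ℝ) < 2 ^ l := by positivity
  have hδ4 : (1 : ℝ) / 2 ^ (l + 1) ≤ 1 / 4 := by
    have : (2 : ℝ) ^ 2 ≤ 2 ^ (l + 1) := pow_le_pow_right₀ one_le_two (by omega)
    rw [div_le_div_iff₀ (by positivity) (by norm_num)]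
    linarith
  have hneg : ∀ s : ℝ, s ≤ 0 → cl (2 ^ (l + 1) * s - 1) = 0 ∧ cl (2 ^ l * s - 1) = 0 := by
    intro s hs
    have h1 : (2 : ℝ) ^ (l + 1) * s ≤ 0 := mul_nonpos_of_nonneg_of_nonpos (by positivity) hs
    have h2 : (2 : ℝ) ^ l * s ≤ 0 := mul_nonpos_of_nonneg_of_nonpos (by positivity) hs
    exact ⟨seg_cl_zero (by linarith), seg_cl_zero (by linarith)⟩
  obtain ⟨κ, k1, k2, -, k4⟩ := tang (x := x) hc.kd.gi hc.kd.curl ha hCa hc.r1 hc.r2
    (δ := 1 / 2 ^ (l + 1)) (by positivity) hδ4 hDl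
    (K := fun s => cl (2 ^ (l + 1) * s - 1) - cl (2 ^ l * s - 1))
    (by unfold cl; fun_prop)
    (fun s => by
      refine ⟨?_, by linarith [(seg_cl_mem (2 ^ (l + 1) * s - 1)).2, (seg_cl_mem (2 ^ l * s - 1)).1]⟩
      rcases le_total s 0 with hs | hs
      · rw [(hneg s hs).1, (hneg s hs).2]; simp
      · refine sub_nonneg.2 (seg_cl_mono ?_)
        rw [pow_succ]; nlinarith)
    (fun s hs => by
      constructor
      · by_contra h
        have h1 : s ≤ 0 := by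
          have : (0 : ℝ) < 1 / 2 ^ (l + 1) := by positivity
          linarith [not_le.1 h]
        exact hs (by rw [(hneg s h1).1, (hneg s h1).2]; simp)
      · by_contra h
        have h1 : 2 ≤ 2 ^ l * s := by
          have h2 := not_le.1 h
          rw [pow_succ, mul_one_div, div_lt_iff₀ (by positivity)] at h2
          nlinarith
        refine hs ?_
        rw [seg_cl_one (s := 2 ^ l * s - 1) (by linarith),
          seg_cl_one (s := 2 ^ (l + 1) * s - 1) (by rw [pow_succ]; nlinarith), sub_self])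
  set H := 20 * Ca * (1 / 2 ^ (l + 1)) / D with hH
  have hH0 : 0 ≤ H := by positivity
  have e : 20 * Ca / D = H * 2 ^ (l + 1) := by rw [hH]; field_simp
  rw [e] at k1
  have h4 : SL (fun y => H * Zc x r (l + 1) y) H (H * 2 ^ (l + 1)) :=
    ((SL_Zc x r (l + 1)).const_mul hH0).mono (by simp) le_rfl
  have h5 := hc.kd.conele (l + 1) k1 h4 (S := closedBall x 6) (fun y => by
      refine k2 y _ (Zc_mem x r _ y).1 (fun s hs => ?_)
      have h1 : cl (2 ^ (l + 1) * s - 1) ≤ Zc x r (l + 1) y :=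
        seg_cl_mono (by have : (0 : ℝ) < 2 ^ (l + 1) := by positivity
                        nlinarith)
      linarith [(seg_cl_mem (2 ^ l * s - 1)).1])
    isBounded_closedBall (fun y hy => by
      have : Zc x r (l + 1) y = 0 := by
        by_contra h
        exact hy (by rw [mem_closedBall, dist_eq_norm]; exact seg_supp hc.r2 h)
      rw [this, mul_zero])
  have e2 : ∫ y, (Zc x r (l + 1) y - Zc x r l y) * a y * ⟪rot (y - x), g y⟫ = ∫ y, ⟪κ y, g y⟫ := by
    rw [← k4]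
    congr 1; ext y; rw [mul_comm _ (a y)]; rfl
  simp only [mul_assoc H, integral_const_mul] at h5
  rw [← inner_Phi hc.kd.gi] at h5
  have h6 := mul_le_mul_of_nonneg_left (hc.tot (l + 1)) hH0
  rw [e2]
  linarith

/-- Take `a` from `exists_cut`, `ν = nu x p`, a unit vector `v` (`dir` of the difference).
`⟪v, Psi L - Psi σ⟫ = ∫ (Zc L - Zc σ) ⟪κ_v, g⟫`, `κ_v y = v - (⟪v,ν⟫/r) (y - x)`.  Split
`1 = (1 - a) + a`.  Outside: `out_le`.  Inside:
`κ_v y = (⟪v, rot ν⟫ / r) rot (y - x) + rem y`,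
`rem y = -(⟪v,ν⟫/r) w - (⟪v, rot ν⟫/r) rot w`, `w = y - x - r ν` (`expand_rot`), `‖rem‖ ≤ 8 D` where
`a ≠ 0`, `rem` is `2`-Lipschitz.  For each piece `dZ l = Zc (l+1) - Zc l`, `σ ≤ l < L`:
`KD.conele` with `h = 8 D dZ a` gives in total `C D (∫ (Zc L - Zc σ) a ⟪n,g⟫ + SS L)`, and
`∫ (Zc L - Zc σ) a ⟪n,g⟫ ≤ T_L + C V/s` (`lowZ` for `Zc σ`, `out_le` with `κ = n`).  Tangential
term of the piece: `tang` with `δ = 1/2^(l+1)`, `K s = cl (2^(l+1) s - 1) - cl (2^l s - 1)`,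
`M = Zc (l+1) y` (monotonicity of `cl`), then `KD.conele` at level `l+1` with
`h = 20 Ca δ/D * Zc (l+1)`, `S = closedBall x 6`: at most `C δ/D (T_{l+1} + V/qq^(l+1))`,
`T_{l+1} ≤ T_L + C SS L` (`lowZ`), `δ / qq^(l+1) ≤ qq^(15 (l+1))`; `∑ δ ≤ 1/2^σ = s^16`. -/
theorem seg_le : ∃ C : ℝ, 0 < C ∧ ∀ {g : E → E} {n : E} {φ μ : ℕ → Measure E} {V : ℝ} {x : E}
    {r : ℝ} {σ L : ℕ} {p : E}, Ctx g n φ μ V x r → Good g μ V x r σ p → Gap φ V x r σ L → 3 ≤ σ →
    ‖Psi g x r p L - Psi g x r p σ‖ ≤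
      C * (qq ^ σ * V + (qq ^ σ) ^ 4 * (max ⟪n, Phi g x r L⟫ 0 + V / qq ^ σ)) := by
  obtain ⟨Ca, hCa, hcut⟩ := exists_cut
  obtain ⟨Co, hCo, hout⟩ := out_le Ca hCa
  obtain ⟨C1, hC1, hSS⟩ := SS_le
  obtain ⟨Cg, hCg, hgeom⟩ := geom_tail
  refine ⟨39 * Co + 8640 * Ca * Cg + 32 + 80 * Ca * Cg + 1152 * C1 + 15552 * Ca * C1 +
    2880 * Ca * Cg * C1, by positivity, ?_⟩
  intro g n φ μ V x r σ L p hc hgood hgap hσ
  obtain ⟨hs0, hs1⟩ := seg_s σ
  have hD16 := qq_pow_pow σ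
  have hDσ := seg_D σ
  obtain ⟨-, hν, hw⟩ := hgood.geom hc.r1 hσ
  have hg := hc.kd.gi
  have hV := hc.V0
  have hr0 : 0 < r := by linarith [hc.r1]
  have hS := (hSS hc).2 σ L hgap
  have hgm := hgeom σ (Finset.Ico σ L) (fun l hl => (Finset.mem_Ico.1 hl).1)
  have hqs : ∀ l, σ ≤ l → qq ^ l ≤ qq ^ σ := fun l hl =>
    pow_le_pow_of_le_one qq_pos.le qq_lt_one.le hl
  have hδσ : ∀ l, σ ≤ l → (1 : ℝ) / 2 ^ l ≤ 1 / 2 ^ σ := fun l hl =>
    one_div_le_one_div_of_le (by positivity) (pow_le_pow_right₀ one_le_two hl)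
  set s := qq ^ σ with hs
  set D := s ^ 4 with hD
  have hD0 : 0 < D := by positivity
  have hD1 : D ≤ 1 := pow_le_one₀ hs0.le hs1
  obtain ⟨a, a', ha⟩ := hcut p D hD0
  have hac : Continuous a := (seg_SL_cut ha).continuous
  set ν := nu x p
  set v := dir (Psi g x r p L - Psi g x r p σ) with hv
  have hv1 : ‖v‖ = 1 := norm_dir _
  set α := ⟪v, ν⟫ / r with hα
  set β := ⟪v, rot ν⟫ / r with hβ
  have hab : ∀ u : E, ‖u‖ = 1 → |⟪v, u⟫ / r| ≤ 1 := by
    intro u hu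
    have := abs_real_inner_le_norm v u
    rw [hv1, hu, one_mul] at this
    rw [abs_div, abs_of_pos hr0, div_le_one hr0]
    linarith [hc.r1]
  have hα1 : |α| ≤ 1 := hab ν hν
  have hβ1 : |β| ≤ 1 := hab _ (by rw [norm_rot, hν])
  set κ : E → E := fun y => v - α • (y - x) with hκ
  set ρ : E → E := fun y => -(α • (y - x - r • ν)) - β • rot (y - x - r • ν) with hρ
  have hκc : Continuous κ := by fun_prop
  have hρn : ∀ u : E, ‖-(α • u) - β • rot u‖ ≤ 2 * ‖u‖ := by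
    intro u
    refine (norm_sub_le _ _).trans ?_
    rw [norm_neg, norm_smul, norm_smul, norm_rot, Real.norm_eq_abs, Real.norm_eq_abs]
    nlinarith [norm_nonneg u]
  have hρl : ∀ y z, ‖ρ y - ρ z‖ ≤ 2 * ‖y - z‖ := by
    intro y z
    refine le_trans (le_of_eq ?_) (hρn (y - z))
    congr 1
    have : y - z = (y - x - r • ν) - (z - x - r • ν) := by abel
    rw [this, rot_sub (y - x - r • ν), smul_sub α (y - x - r • ν), smul_sub β (rot _)]
    simp only [hρ]
    abel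
  have hρb : ∀ y, ‖y - p‖ ≤ 2 * D → ‖ρ y‖ ≤ 8 * D := fun y hy => by
    linarith [hρn (y - x - r • ν), hw y hy]
  have hρc : Continuous ρ :=
    (LipschitzWith.of_dist_le_mul (K := 2) (fun y z => by
      rw [dist_eq_norm, dist_eq_norm]; exact hρl y z)).continuous
  have hdec : ∀ y, κ y = β • rot (y - x) + ρ y := by
    intro y
    have h1 := expand_rot hν v
    have h2 : ⟪v, ν⟫ = α * r := by rw [hα]; field_simp
    have h3 : ⟪v, rot ν⟫ = β * r := by rw [hβ]; field_simp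
    rw [h2, h3] at h1
    simp only [hκ, hρ]
    rw [rot_sub (y - x), rot_smul, h1]
    module
  -- the potential as an integral
  have hPsi : ∀ l, ⟪v, Psi g x r p l⟫ = ∫ y, Zc x r l y * 1 * ⟪κ y, g y⟫ := by
    intro l
    have i1 : Integrable fun y => Zc x r l y * ⟪v, g y⟫ :=
      seg_intg hg (SL_Zc x r l).continuous continuous_const (fun y hy => seg_supp hc.r2 hy)
    have i2 : Integrable fun y => Zc x r l y * ⟪y - x, g y⟫ :=
      seg_intg hg (SL_Zc x r l).continuous (by fun_prop) (fun y hy => seg_supp hc.r2 hy)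
    rw [Psi, inner_sub_right, inner_Phi hg, real_inner_smul_right]
    have : rho g x r l / r * ⟪v, ν⟫ = α * rho g x r l := by rw [hα]; ring
    rw [this, rho, ← integral_const_mul, ← integral_sub i1 (i2.const_mul α)]
    congr 1; ext y
    simp only [hκ, inner_sub_left, real_inner_smul_left]
    ring
  have hin : ∀ F : E → E, Continuous F → ∀ l m,
      ∫ y, (Zc x r m y - Zc x r l y) * 1 * ⟪F y, g y⟫ =
        (∫ y, (Zc x r m y - Zc x r l y) * (1 - a y) * ⟪F y, g y⟫) +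
          ∫ y, (Zc x r m y - Zc x r l y) * a y * ⟪F y, g y⟫ := by
    intro F hF l m
    have hi : ∀ b : E → ℝ, Continuous b →
        Integrable fun y => (Zc x r m y - Zc x r l y) * b y * ⟪F y, g y⟫ := fun b hb =>
      seg_intg hg (((SL_Zc x r m).continuous.sub (SL_Zc x r l).continuous).mul hb) hF (x := x)
        (fun y hy => by
          by_contra h
          have h1 : ∀ k, Zc x r k y = 0 := fun k => by
            by_contra h2
            exact h (seg_supp hc.r2 h2)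
          exact hy (by rw [h1, h1]; simp))
    rw [← integral_add (hi _ (by fun_prop)) (hi _ hac)]
    congr 1; ext y; ring
  have hΔ : ‖Psi g x r p L - Psi g x r p σ‖ =
      (∫ y, (Zc x r L y - Zc x r σ y) * (1 - a y) * ⟪κ y, g y⟫) +
        ∑ l ∈ Finset.Ico σ L, ∫ y, (Zc x r (l + 1) y - Zc x r l y) * a y * ⟪κ y, g y⟫ := by
    rw [← inner_dir, ← hv, inner_sub_right, hPsi, hPsi,
      ← seg_split hg (b := fun _ => 1) continuous_const hκc x hc.r2, hin κ hκc,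
      seg_tele hg hac hκc x hc.r2 hgap.1]
  -- outside
  have ho1 := (hout (κ := κ) (B := 7) hc hgood hgap ha (by norm_num) (fun y hy => by
      refine (norm_sub_le _ _).trans ?_
      rw [hv1, norm_smul, Real.norm_eq_abs]
      nlinarith [norm_nonneg (y - x)])
    (fun y z => by
      have : κ y - κ z = -(α • (y - z)) := by simp only [hκ]; module
      rw [this, norm_neg, norm_smul, Real.norm_eq_abs]
      nlinarith [norm_nonneg (y - z)])).1
  have ho2 := (hout (κ := fun _ => n) (B := 1) hc hgood hgap ha (by norm_num)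
    (fun y _ => hc.kd.n1.le) (fun y z => by simp)).1
  have hlow : ∀ l m, l ≤ m → -(36 * SS φ x r m) ≤ ⟪n, Phi g x r m⟫ - ⟪n, Phi g x r l⟫ ∧
      -(36 * SS φ x r m) ≤ ⟪n, Phi g x r m⟫ := by
    intro l m hlm
    have := hc.lowZ (ξ := n) (c := 1) (B := 1) one_pos
      (by rw [real_inner_self_eq_norm_sq, hc.kd.n1]; norm_num) hc.kd.n1.le hlm
    norm_num at this ⊢
    exact this
  set T := max ⟪n, Phi g x r L⟫ 0 with hT
  have hT0 : 0 ≤ T := le_max_right _ _
  have hT1 : ⟪n, Phi g x r L⟫ ≤ T := le_max_left _ _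
  set S := SS φ x r L with hSdef
  have hS0 : 0 ≤ S := SS_nonneg _ _ _ _
  -- the mass inside
  have hN : ∑ l ∈ Finset.Ico σ L, ∫ y, (Zc x r (l + 1) y - Zc x r l y) * a y * ⟪n, g y⟫ ≤
      T + 36 * S + Co * (s * V) := by
    have h1 := hin (fun _ => n) continuous_const σ L
    rw [seg_split hg (b := fun _ => 1) continuous_const continuous_const x hc.r2,
      seg_tele hg hac continuous_const x hc.r2 hgap.1] at h1
    simp only [mul_one] at h1 ho2
    rw [← inner_Phi hg, ← inner_Phi hg] at h1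
    have h2 := (hlow σ σ le_rfl).2
    have h3 : SS φ x r σ ≤ S := SS_mono φ x r hgap.1
    linarith [(abs_le.1 ho2).1]
  have hφ : ∑ l ∈ Finset.Ico σ L, (φ (l + 1)).real (Ann x r (l + 1)) ≤ S := by
    rw [Finset.sum_Ico_add' (fun l => (φ l).real (Ann x r l))]
    have h1 : ∑ l ∈ Finset.Ico (σ + 1) (L + 1), (φ l).real (Ann x r l) ≤
        ∑ l ∈ Finset.Icc 1 L, (φ l).real (Ann x r l) :=
      Finset.sum_le_sum_of_subset_of_nonneg
        (fun l hl => by simp only [Finset.mem_Ico, Finset.mem_Icc] at hl ⊢; omega)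
        (fun _ _ _ => measureReal_nonneg)
    have h2 : 0 ≤ (φ 0).real (closedBall x 6) := measureReal_nonneg
    rw [hSdef, SS]
    linarith
  -- one piece
  have hpiece : ∀ l ∈ Finset.Ico σ L, ∫ y, (Zc x r (l + 1) y - Zc x r l y) * a y * ⟪κ y, g y⟫ ≤
      32 * D * (∫ y, (Zc x r (l + 1) y - Zc x r l y) * a y * ⟪n, g y⟫) +
        15552 * Ca * D * (φ (l + 1)).real (Ann x r (l + 1)) +
        qq ^ l * (80 * Ca * s ^ 3 * (T + 36 * S) + 8640 * Ca * V) := by
    intro l hl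
    obtain ⟨hl1, hl2⟩ := Finset.mem_Ico.1 hl
    have hδ : (1 : ℝ) / 2 ^ (l + 1) ≤ D := (hδσ _ (by omega)).trans hDσ
    have hδ' : 1 ≤ D * 2 ^ (l + 1) := by rwa [div_le_iff₀ (by positivity)] at hδ
    have r1 := seg_rem hc ha hCa hD0 hδ' hρb hρl
    have r2 := seg_tan hc ha hCa hD0 (by omega : 1 ≤ l) hδ
    have hi : ∀ F : E → E, Continuous F →
        Integrable fun y => (Zc x r (l + 1) y - Zc x r l y) * a y * ⟪F y, g y⟫ := fun F hF =>
      seg_intg hg (SL_dZ.continuous.mul hac) hF (x := x) (fun y hy => by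
        have := Ann_subset hc.r2 (mem_Ann_of_Zc (left_ne_zero_of_mul hy))
        rwa [mem_closedBall, dist_eq_norm] at this)
    have e : ∫ y, (Zc x r (l + 1) y - Zc x r l y) * a y * ⟪κ y, g y⟫ =
        β * (∫ y, (Zc x r (l + 1) y - Zc x r l y) * a y * ⟪rot (y - x), g y⟫) +
          ∫ y, (Zc x r (l + 1) y - Zc x r l y) * a y * ⟪ρ y, g y⟫ := by
      rw [← integral_const_mul, ← integral_add ((hi _ (seg_cont_rot x)).const_mul β) (hi _ hρc)]
      congr 1; ext y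
      rw [hdec, inner_add_left, real_inner_smul_left]; ring
    have r3 : β * (∫ y, (Zc x r (l + 1) y - Zc x r l y) * a y * ⟪rot (y - x), g y⟫) ≤
        |∫ y, (Zc x r (l + 1) y - Zc x r l y) * a y * ⟪rot (y - x), g y⟫| := by
      refine (le_abs_self _).trans ?_
      rw [abs_mul]
      exact mul_le_of_le_one_left (abs_nonneg _) hβ1
    have r4 : ⟪n, Phi g x r (l + 1)⟫ ≤ T + 36 * S := by
      linarith [(hlow (l + 1) L hl2).1]
    have t0 : 0 < qq ^ (l + 1) := (seg_s _).1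
    have t1 : qq ^ (l + 1) ≤ s := hqs _ (by omega)
    have t2 : qq ^ (l + 1) ≤ qq ^ l := pow_le_pow_of_le_one qq_pos.le qq_lt_one.le (by omega)
    rw [← qq_pow_pow] at r2
    generalize qq ^ (l + 1) = t at r2 t0 t1 t2
    have t5 := (seg_s l).1
    have t3 : t ^ 16 / D ≤ qq ^ l * s ^ 3 := by
      rw [div_le_iff₀ hD0, hD]
      calc t ^ 16 = t * t ^ 15 := by ring
        _ ≤ qq ^ l * s ^ 15 := by gcongr
        _ ≤ qq ^ l * s ^ 7 := by
          gcongr _ * ?_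
          exact pow_le_pow_of_le_one hs0.le hs1 (by norm_num)
        _ = _ := by ring
    have t4 : t ^ 16 / D / t ≤ qq ^ l := by
      rw [div_le_iff₀ t0, div_le_iff₀ hD0, hD]
      calc t ^ 16 = t * t * t ^ 14 := by ring
        _ ≤ qq ^ l * t * s ^ 14 := by gcongr
        _ ≤ qq ^ l * t * s ^ 4 := by
          gcongr _ * ?_
          exact pow_le_pow_of_le_one hs0.le hs1 (by norm_num)
    have r5 : 20 * Ca * t ^ 16 / D * (4 * ⟪n, Phi g x r (l + 1)⟫ + 432 * (V / t)) ≤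
        qq ^ l * (80 * Ca * s ^ 3 * (T + 36 * S) + 8640 * Ca * V) := by
      calc _ ≤ 20 * Ca * t ^ 16 / D * (4 * (T + 36 * S) + 432 * (V / t)) := by gcongr
        _ = 80 * Ca * (t ^ 16 / D) * (T + 36 * S) + 8640 * Ca * (t ^ 16 / D / t) * V := by ring
        _ ≤ 80 * Ca * (qq ^ l * s ^ 3) * (T + 36 * S) + 8640 * Ca * qq ^ l * V := by gcongr
        _ = _ := by ring
    rw [e]
    linarith [le_abs_self (∫ y, (Zc x r (l + 1) y - Zc x r l y) * a y * ⟪ρ y, g y⟫)]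
  have hsum := Finset.sum_le_sum hpiece
  rw [Finset.sum_add_distrib, Finset.sum_add_distrib, ← Finset.mul_sum, ← Finset.mul_sum,
    ← Finset.sum_mul] at hsum
  set W := V / s with hW
  have hW0 : 0 ≤ W := by positivity
  have hSW : S ≤ C1 * W := by rw [hW, ← mul_div_assoc]; exact hS
  have b1 := mul_le_mul_of_nonneg_left hN (by positivity : 0 ≤ 32 * D)
  have b2 := mul_le_mul_of_nonneg_left hφ (by positivity : 0 ≤ 15552 * Ca * D)
  have b3 := mul_le_mul_of_nonneg_right hgm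
    (by positivity : 0 ≤ 80 * Ca * s ^ 3 * (T + 36 * S) + 8640 * Ca * V)
  have b4 : D * (Co * (s * V)) ≤ Co * (s * V) := mul_le_of_le_one_left (by positivity) hD1
  have b5 : D * S ≤ D * (C1 * W) := by gcongr
  have b6 : Ca * (D * S) ≤ Ca * (D * (C1 * W)) := by gcongr
  have b7 : Cg * (Ca * (D * S)) ≤ Cg * (Ca * (D * (C1 * W))) := by gcongr
  have e1 : Cg * s * (80 * Ca * s ^ 3 * (T + 36 * S) + 8640 * Ca * V) =
      80 * Ca * Cg * (D * T) + 2880 * (Cg * (Ca * (D * S))) + 8640 * Ca * Cg * (s * V) := by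
    rw [hD]; ring
  have hA : 0 ≤ s * V := by positivity
  have hB : 0 ≤ D * T := by positivity
  have hC : 0 ≤ D * W := by positivity
  have fin : ‖Psi g x r p L - Psi g x r p σ‖ ≤ (39 * Co + 8640 * Ca * Cg) * (s * V) +
      (32 + 80 * Ca * Cg) * (D * T) +
      (1152 * C1 + 15552 * Ca * C1 + 2880 * Ca * Cg * C1) * (D * W) := by
    rw [hΔ]
    linarith [(abs_le.1 ho1).2]
  refine fin.trans ?_
  have p1 : 0 ≤ 39 * Co + 8640 * Ca * Cg := by positivity
  have p2 : 0 ≤ 32 + 80 * Ca * Cg := by positivity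
  have p3 : 0 ≤ 1152 * C1 + 15552 * Ca * C1 + 2880 * Ca * Cg * C1 := by positivity
  have e2 : 39 * Co + 8640 * Ca * Cg + 32 + 80 * Ca * Cg + 1152 * C1 + 15552 * Ca * C1 +
      2880 * Ca * Cg * C1 = (39 * Co + 8640 * Ca * Cg) + (32 + 80 * Ca * Cg) +
      (1152 * C1 + 15552 * Ca * C1 + 2880 * Ca * Cg * C1) := by ring
  rw [e2, mul_add D]
  generalize 39 * Co + 8640 * Ca * Cg = k1 at *
  generalize 32 + 80 * Ca * Cg = k2 at *
  generalize 1152 * C1 + 15552 * Ca * C1 + 2880 * Ca * Cg * C1 = k3 at *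
  generalize s * V = A at *
  generalize D * T = B at *
  generalize D * W = C at *
  nlinarith [mul_nonneg p1 hB, mul_nonneg p1 hC, mul_nonneg p2 hA, mul_nonneg p2 hC,
    mul_nonneg p3 hA, mul_nonneg p3 hB]

end Crest.Agent.R112
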