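import Crest.Agent.R112.Win

/-! # Row 112: a priori bounds and transitions (task TRANS) -/

set_option autoImplicit false

namespace Crest.Agent.R112

open MeasureTheory Metric
open scoped RealInnerProductSpace

theorem exists_qq_pow_le {ε : ℝ} (hε : 0 < ε) : ∃ σ₀ : ℕ, ∀ σ, σ₀ ≤ σ → qq ^ σ ≤ ε := by
  obtain ⟨σ₀, h⟩ := exists_pow_lt_of_lt_one hε qq_lt_one
  exact ⟨σ₀, fun σ hσ => (pow_le_pow_of_le_one qq_pos.le qq_lt_one.le hσ).trans h.le⟩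

theorem qq_pow_le_one (σ : ℕ) : qq ^ σ ≤ 1 := pow_le_one₀ qq_pos.le qq_lt_one.le

theorem trans_norm_dir_sub {a b : E} (ha : a ≠ 0) (hb : b ≠ 0) :
    ‖‖a‖⁻¹ • a - ‖b‖⁻¹ • b‖ ≤ 2 * ‖a - b‖ / ‖a‖ := by
  have ha' : 0 < ‖a‖ := norm_pos_iff.2 ha
  have hb' : 0 < ‖b‖ := norm_pos_iff.2 hb
  have e : ‖a‖⁻¹ • a - ‖b‖⁻¹ • b = ‖a‖⁻¹ • (a - b) + (‖a‖⁻¹ - ‖b‖⁻¹) • b := by
    rw [smul_sub, sub_smul]; abel
  have h1 : ‖‖a‖⁻¹ • (a - b)‖ = ‖a - b‖ / ‖a‖ := by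
    rw [norm_smul, norm_inv, norm_norm]; ring
  have h2 : ‖(‖a‖⁻¹ - ‖b‖⁻¹) • b‖ ≤ ‖a - b‖ / ‖a‖ := by
    rw [norm_smul, Real.norm_eq_abs]
    have : ‖a‖⁻¹ - ‖b‖⁻¹ = (‖b‖ - ‖a‖) / (‖a‖ * ‖b‖) := by field_simp
    rw [this, abs_div, abs_of_pos (mul_pos ha' hb')]
    have h3 : |‖b‖ - ‖a‖| ≤ ‖a - b‖ := by
      rw [abs_sub_comm]; exact abs_norm_sub_norm_le a b
    calc |‖b‖ - ‖a‖| / (‖a‖ * ‖b‖) * ‖b‖ = |‖b‖ - ‖a‖| / ‖a‖ := by field_simp
      _ ≤ ‖a - b‖ / ‖a‖ := by gcongr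
  rw [e]
  calc _ ≤ _ := norm_add_le _ _
    _ ≤ ‖a - b‖ / ‖a‖ + ‖a - b‖ / ‖a‖ := by rw [h1]; linarith
    _ = _ := by ring

theorem SS_split (φ : ℕ → Measure E) (x : E) (r : ℝ) {σ L : ℕ} (h : σ ≤ L) :
    SS φ x r L = SS φ x r σ + ∑ l ∈ Finset.Ico σ L, (φ (l + 1)).real (Ann x r (l + 1)) := by
  induction L, h using Nat.le_induction with
  | base => simp
  | succ L hL ih =>
    rw [Finset.sum_Ico_succ_top hL, ← add_assoc, ← ih]
    unfold SS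
    rw [Finset.sum_Icc_succ_top (by omega), add_assoc]

theorem bnd_arith {Cw Cg Cs P W T a Q u y D : ℝ} (hCw : 0 < Cw) (hCg : 0 < Cg) (hCs : 0 < Cs)
    (hP0 : 0 ≤ P) (hW0 : 0 < W) (hT0 : 0 ≤ T) (ha : 0 ≤ a) (hQ0 : 0 ≤ Q) (hu : 0 < u) (hy : 0 ≤ y)
    (hKs : (2401 * Cg + Cw) * u ≤ 1 / 2) (hQle : Q ≤ P + Cg * (2 * W + u * T))
    (hρa : a ≤ Cw * ((Cs + 2) * W + u * T) + 800 * (216 * Cs * W + 3 * Q)) (hTle : T ≤ Q + a)
    (hseg : D ≤ Cg * (y + u * (T + W))) :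
    T + a ≤ (4 * (2401 * (1 + 2 * Cg) + Cw * (Cs + 2) + 800 * 216 * Cs) +
        Cg * (2 * (2401 * (1 + 2 * Cg) + Cw * (Cs + 2) + 800 * 216 * Cs) + 1)) * (P + W) ∧
      D ≤ (4 * (2401 * (1 + 2 * Cg) + Cw * (Cs + 2) + 800 * 216 * Cs) +
        Cg * (2 * (2401 * (1 + 2 * Cg) + Cw * (Cs + 2) + 800 * 216 * Cs) + 1)) *
          (y + u * (P + W)) := by
  have hsum : Q + a ≤ (2401 * (1 + 2 * Cg) + Cw * (Cs + 2) + 800 * 216 * Cs) * (P + W) +
      (2401 * Cg + Cw) * u * T := by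
    have h1 : 0 ≤ Cg * P := by positivity
    have h2 : 0 ≤ Cw * (Cs + 2) * P := by positivity
    have h3 : 0 ≤ Cs * P := by positivity
    nlinarith
  have hA0 : 0 < 2401 * (1 + 2 * Cg) + Cw * (Cs + 2) + 800 * 216 * Cs := by positivity
  generalize 2401 * (1 + 2 * Cg) + Cw * (Cs + 2) + 800 * 216 * Cs = A at *
  have hKT : (2401 * Cg + Cw) * u * T ≤ T / 2 := by nlinarith
  have hTA : T ≤ 2 * A * (P + W) := by linarith
  have hPW : 0 ≤ P + W := by positivity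
  constructor
  · have h1 : 0 ≤ Cg * (2 * A + 1) * (P + W) := by positivity
    nlinarith
  · refine hseg.trans ?_
    have h1 : T + W ≤ (2 * A + 1) * (P + W) := by nlinarith
    have h2 : y + u * (T + W) ≤ (2 * A + 1) * (y + u * (P + W)) := by
      have h3 := mul_le_mul_of_nonneg_left h1 hu.le
      have h4 : 0 ≤ A * y := by positivity
      nlinarith
    have h5 := mul_le_mul_of_nonneg_left h2 hCg.le
    have h6 : 0 ≤ A * (y + u * (P + W)) := by positivity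
    nlinarith

/-- `ς = ±1` with `ς ⟪n, ν⟫ ≥ 0`, `v = n + (ς/400) ν`.  Upper bound for `ς ρ_L`: `win_le` with
`b_L ≤ SS L ≤ C V/s`.  Lower bound: `(ρ_L/r) ⟪v,ν⟫ = ⟪v, Phi L⟫ - ⟪v, Psi L⟫`, `lowZ`.
`T_L ≤ ‖Psi L‖ + |ρ_L|`, `seg_le`; absorb the terms `C s^4 T⁺` for `σ ≥ σ₀`. -/
theorem bnd_le : ∃ C : ℝ, 0 < C ∧ ∃ σ₀ : ℕ, ∀ {g : E → E} {n : E} {φ μ : ℕ → Measure E} {V : ℝ}
    {x : E} {r : ℝ} {σ L : ℕ} {p : E}, Ctx g n φ μ V x r → Good g μ V x r σ p →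
    Gap φ V x r σ L → σ₀ ≤ σ →
    max ⟪n, Phi g x r L⟫ 0 + |rho g x r L| ≤ C * (‖Psi g x r p σ‖ + V / qq ^ σ) ∧
    ‖Psi g x r p L - Psi g x r p σ‖ ≤
      C * (qq ^ σ * V + (qq ^ σ) ^ 4 * (‖Psi g x r p σ‖ + V / qq ^ σ)) := by
  obtain ⟨Cw, hCw, σw, hw⟩ := win_le
  obtain ⟨Cg, hCg, hg⟩ := seg_le
  obtain ⟨Cs, hCs, hs⟩ := SS_le
  set K : ℝ := 2401 * Cg + Cw with hK
  set A : ℝ := 2401 * (1 + 2 * Cg) + Cw * (Cs + 2) + 800 * 216 * Cs with hA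
  have hK0 : 0 < K := by positivity
  have hA0 : 0 < A := by positivity
  obtain ⟨σ₁, hσ₁⟩ := exists_qq_pow_le (ε := 1 / (2 * K)) (by positivity)
  refine ⟨4 * A + Cg * (2 * A + 1), by positivity, max (max σw σ₁) 3, ?_⟩
  intro g n φ μ V x r σ L p hc hG hgap hσ
  have hσw : σw ≤ σ := le_trans (le_trans (le_max_left _ _) (le_max_left _ _)) hσ
  have hσ1 : σ₁ ≤ σ := le_trans (le_trans (le_max_right _ _) (le_max_left _ _)) hσ
  have hσ3 : 3 ≤ σ := le_trans (le_max_right _ _) hσ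
  obtain ⟨-, hν, -⟩ := hG.geom hc.r1 hσ3
  have hn := hc.kd.n1
  have hV := hc.V0
  have hr1 := hc.r1
  have hr2 := hc.r2
  have hs0 : 0 < qq ^ σ := pow_pos qq_pos _
  have hs1 : qq ^ σ ≤ 1 := qq_pow_le_one σ
  have hsK : qq ^ σ ≤ 1 / (2 * K) := hσ₁ σ hσ1
  have hseg := hg hc hG hgap hσ3
  have hSS := (hs hc).2 σ L hgap
  have hbL := hc.le_SS L
  set ν := nu x p with hνdef
  set s := qq ^ σ with hsdef
  set T := max ⟪n, Phi g x r L⟫ 0 with hT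
  set W := V / s with hW
  set P := ‖Psi g x r p σ‖ with hP
  set ρ := rho g x r L with hρ
  have hT0 : 0 ≤ T := le_max_right _ _
  have hP0 : 0 ≤ P := norm_nonneg _
  have hW0 : 0 < W := by positivity
  have hsV : s * V ≤ W := by
    rw [hW, le_div_iff₀ hs0]
    have : s * s ≤ 1 := mul_le_one₀ hs1 hs0.le hs1
    nlinarith
  have hs4 : s ^ 4 ≤ s := by
    calc s ^ 4 ≤ s ^ 1 := pow_le_pow_of_le_one hs0.le hs1 (by norm_num)
      _ = s := pow_one _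
  have hs40 : 0 < s ^ 4 := by positivity
  have hs41 : s ^ 4 ≤ 1 := hs4.trans hs1
  have hKs : K * s ^ 4 ≤ 1 / 2 := by
    have : s ^ 4 ≤ 1 / (2 * K) := hs4.trans hsK
    rw [le_div_iff₀ (by positivity)] at this
    linarith
  have hSS' : SS φ x r L ≤ Cs * W := by rw [hW, ← mul_div_assoc]; exact hSS
  -- the sign
  obtain ⟨ς, hς, hςn⟩ : ∃ ς : ℝ, (ς = 1 ∨ ς = -1) ∧ 0 ≤ ς * ⟪n, ν⟫ := by
    rcases le_total 0 ⟪n, ν⟫ with h | h
    · exact ⟨1, Or.inl rfl, by linarith⟩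
    · exact ⟨-1, Or.inr rfl, by linarith⟩
  have hς2 : ς * ς = 1 := by rcases hς with h | h <;> rw [h] <;> norm_num
  have hςa : |ς| = 1 := by rcases hς with h | h <;> rw [h] <;> norm_num
  set v := n + (ς / 400) • ν with hv
  have hv3 : ‖v‖ ≤ 3 := by
    calc ‖v‖ ≤ ‖n‖ + ‖(ς / 400) • ν‖ := norm_add_le _ _
      _ = 1 + 1 / 400 := by
        rw [hn, norm_smul, hν, Real.norm_eq_abs, abs_div, hςa]; norm_num
      _ ≤ 3 := by norm_num
  have hnv : 1 ≤ ⟪n, v⟫ := by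
    rw [hv, inner_add_right, real_inner_smul_right, real_inner_self_eq_norm_sq, hn]
    linarith
  have hγ : 1 / 400 ≤ ς * ⟪v, ν⟫ := by
    rw [hv, inner_add_left, real_inner_smul_left, real_inner_self_eq_norm_sq, hν]
    nlinarith
  have hup := hw hc hG hgap hσw hς hv3 (by linarith) hγ
  have hlow := (hc.lowZ (ξ := v) (c := 1) (B := 3) one_pos hnv hv3 (le_refl L)).2
  have hPsi : Psi g x r p L = Phi g x r L - (ρ / r) • ν := rfl
  set Q := ‖Psi g x r p L‖ with hQ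
  have hQ0 : 0 ≤ Q := norm_nonneg _
  have hQle : Q ≤ P + Cg * (2 * W + s ^ 4 * T) := by
    have h1 : Q ≤ P + ‖Psi g x r p L - Psi g x r p σ‖ := by
      have := norm_add_le (Psi g x r p σ) (Psi g x r p L - Psi g x r p σ)
      rwa [add_sub_cancel] at this
    have h2 : s * V + s ^ 4 * (T + W) ≤ 2 * W + s ^ 4 * T := by nlinarith
    have h3 := mul_le_mul_of_nonneg_left h2 hCg.le
    linarith
  have hvPsi : ⟪v, Psi g x r p L⟫ ≤ 3 * Q := by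
    calc _ ≤ ‖v‖ * Q := real_inner_le_norm _ _
      _ ≤ 3 * Q := by gcongr
  have hid : ς * ρ / r * (ς * ⟪v, ν⟫) = ⟪v, Phi g x r L⟫ - ⟪v, Psi g x r p L⟫ := by
    rw [hPsi, inner_sub_right, real_inner_smul_right]
    have : ς * ρ / r * (ς * ⟪v, ν⟫) = (ς * ς) * (ρ / r * ⟪v, ν⟫) := by ring
    rw [this, hς2]; ring
  have hX : -(216 * Cs * W + 3 * Q) ≤ ς * ρ / r * (ς * ⟪v, ν⟫) := by
    rw [hid]; norm_num at hlow; nlinarith
  have hlo : -(800 * (216 * Cs * W + 3 * Q)) ≤ ς * ρ := by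
    rcases le_total 0 (ς * ρ) with h | h
    · have : 0 ≤ 800 * (216 * Cs * W + 3 * Q) := by positivity
      linarith
    · have h1 : ς * ρ / r * (ς * ⟪v, ν⟫) ≤ ς * ρ / r * (1 / 400) :=
        mul_le_mul_of_nonpos_left hγ (div_nonpos_of_nonpos_of_nonneg h (by linarith))
      have h2 : ς * ρ / r ≤ ς * ρ / 2 := by
        rw [div_le_div_iff₀ (by linarith) (by norm_num)]
        nlinarith
      linarith
  have hup' : ς * ρ ≤ Cw * ((Cs + 2) * W + s ^ 4 * T) := by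
    refine hup.trans (mul_le_mul_of_nonneg_left ?_ hCw.le)
    have h1 : s ^ 4 * W ≤ W := mul_le_of_le_one_left hW0.le hs41
    rw [mul_add (s ^ 4), add_mul]
    linarith
  have hρa : |ρ| ≤ Cw * ((Cs + 2) * W + s ^ 4 * T) + 800 * (216 * Cs * W + 3 * Q) := by
    have e : |ρ| = |ς * ρ| := by rw [abs_mul, hςa, one_mul]
    rw [e, abs_le]
    have h1 : 0 ≤ 800 * (216 * Cs * W + 3 * Q) := by positivity
    have h2 : 0 ≤ Cw * ((Cs + 2) * W + s ^ 4 * T) := by positivity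
    constructor <;> linarith
  have hTle : T ≤ Q + |ρ| := by
    refine max_le ?_ (by positivity)
    have e : Phi g x r L = Psi g x r p L + (ρ / r) • ν := by rw [hPsi]; abel
    rw [e, inner_add_right, real_inner_smul_right]
    have h1 : ⟪n, Psi g x r p L⟫ ≤ Q := by
      have := real_inner_le_norm n (Psi g x r p L)
      rwa [hn, one_mul] at this
    have h2 : ρ / r * ⟪n, ν⟫ ≤ |ρ| := by
      have h3 : |⟪n, ν⟫| ≤ 1 := by
        have := abs_real_inner_le_norm n ν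
        rwa [hn, hν, one_mul] at this
      calc ρ / r * ⟪n, ν⟫ ≤ |ρ / r * ⟪n, ν⟫| := le_abs_self _
        _ = |ρ| / r * |⟪n, ν⟫| := by rw [abs_mul, abs_div, abs_of_pos (by linarith : 0 < r)]
        _ ≤ |ρ| / 1 * 1 := by gcongr
        _ = |ρ| := by ring
    linarith
  exact bnd_arith hCw hCg hCs hP0 hW0 hT0 (abs_nonneg _) hQ0 hs40 (by positivity) hKs hQle hρa hTle
    hseg

/-- `Psi p' L - Psi p L = (ρ_L/r) (ν - ν')`.  Far clusters: `far_le`.  Near clusters: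
`‖ν - ν'‖ ≤ 2 ‖p - p'‖ / ‖p - x‖ ≤ 12 s^4` and `bnd_le`. -/
theorem trans_le : ∃ C : ℝ, 0 < C ∧ ∃ σ₀ : ℕ, ∀ {g : E → E} {n : E} {φ μ : ℕ → Measure E} {V : ℝ}
    {x : E} {r : ℝ} {σ L : ℕ} {p p' : E}, Ctx g n φ μ V x r → Good g μ V x r σ p →
    Gap φ V x r σ L → Good g μ V x r L p' → σ₀ ≤ σ →
    ‖Psi g x r p' L - Psi g x r p σ‖ ≤
      C * (qq ^ σ * V + (qq ^ σ) ^ 4 * (‖Psi g x r p σ‖ + V / qq ^ σ)) := by
  obtain ⟨Cb, hCb, σb, hb⟩ := bnd_le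
  obtain ⟨Cf, hCf, hf⟩ := far_le
  refine ⟨13 * Cb + 2 * Cf, by positivity, max σb 3, ?_⟩
  intro g n φ μ V x r σ L p p' hc hG hgap hG' hσ
  have hσb : σb ≤ σ := le_trans (le_max_left _ _) hσ
  have hσ3 : 3 ≤ σ := le_trans (le_max_right _ _) hσ
  obtain ⟨h1, h2⟩ := hb hc hG hgap hσb
  obtain ⟨hp, hν, -⟩ := hG.geom hc.r1 hσ3
  obtain ⟨hp', hν', -⟩ := hG'.geom hc.r1 (hσ3.trans hgap.1)
  have hV := hc.V0
  have hr1 := hc.r1
  have hs0 : 0 < qq ^ σ := pow_pos qq_pos _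
  have hLs : qq ^ L ≤ qq ^ σ := pow_le_pow_of_le_one qq_pos.le qq_lt_one.le hgap.1
  have hL0 : 0 < qq ^ L := pow_pos qq_pos _
  set s := qq ^ σ with hsdef
  set W := V / s with hW
  set P := ‖Psi g x r p σ‖ with hP
  have hP0 : 0 ≤ P := norm_nonneg _
  have hW0 : 0 < W := by positivity
  have e : Psi g x r p' L - Psi g x r p σ =
      (Psi g x r p L - Psi g x r p σ) + (rho g x r L / r) • (nu x p - nu x p') := by
    unfold Psi; rw [smul_sub]; abel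
  have h3 : ‖(rho g x r L / r) • (nu x p - nu x p')‖ ≤ |rho g x r L| * ‖nu x p - nu x p'‖ := by
    rw [norm_smul, Real.norm_eq_abs, abs_div, abs_of_pos (by linarith : 0 < r)]
    gcongr
    exact div_le_self (abs_nonneg _) hr1
  have hA : 0 ≤ s * V := by positivity
  have hB : 0 ≤ s ^ 4 * (P + W) := by positivity
  have h4 : |rho g x r L| * ‖nu x p - nu x p'‖ ≤
      2 * Cf * (s * V) + 12 * Cb * (s ^ 4 * (P + W)) := by
    rcases le_or_gt (2 * s ^ 4 + (qq ^ L) ^ 4) ‖p - p'‖ with hfar | hnear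
    · have h5 := hf hc hG hgap hG' hfar
      have h6 : ‖nu x p - nu x p'‖ ≤ 2 := by
        have := norm_sub_le (nu x p) (nu x p')
        rw [hν, hν'] at this; linarith
      have h7 : |rho g x r L| * ‖nu x p - nu x p'‖ ≤ Cf * (s * V) * 2 := by gcongr
      have : 0 ≤ Cb * (s ^ 4 * (P + W)) := by positivity
      linarith
    · have h5 : (qq ^ L) ^ 4 ≤ s ^ 4 := by gcongr
      have hne : p - x ≠ 0 := by
        intro h; rw [h, norm_zero] at hp; linarith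
      have hne' : p' - x ≠ 0 := by
        intro h; rw [h, norm_zero] at hp'; linarith
      have h6 := trans_norm_dir_sub hne hne'
      rw [sub_sub_sub_cancel_right] at h6
      have h7 : ‖nu x p - nu x p'‖ ≤ 12 * s ^ 4 := by
        refine h6.trans ?_
        rw [div_le_iff₀ (by linarith)]
        have : 0 < s ^ 4 := by positivity
        nlinarith
      have h8 : |rho g x r L| ≤ Cb * (P + W) := by
        have := le_max_right ⟪n, Phi g x r L⟫ 0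
        linarith
      have h9 : |rho g x r L| * ‖nu x p - nu x p'‖ ≤ Cb * (P + W) * (12 * s ^ 4) := by gcongr
      have : 0 ≤ Cf * (s * V) := by positivity
      nlinarith
  rw [e]
  refine (norm_add_le _ _).trans ?_
  have h10 : 0 ≤ Cb * (s * V) := by positivity
  have h11 : 0 ≤ Cf * (s ^ 4 * (P + W)) := by positivity
  nlinarith

/-- Before the first active level.  For `σ < l ≤ L` either `b_l ≤ qq^l V` or
`b_l ≤ V / qq^l ≤ qq^(l-2) T_{l-1}`, `T_{l-1} ≤ T_L + 36 SS L` (`lowZ`, `ξ = n`); so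
`SS L ≤ C V/qq^σ + η' (T_L⁺ + 36 SS L)` with `η' = C qq^(σ-2)` (`geom_tail`), absorb. -/
theorem pre_le : ∃ C : ℝ, 0 < C ∧ ∀ η : ℝ, 0 < η → ∃ σ₀ : ℕ, ∀ {g : E → E} {n : E}
    {φ μ : ℕ → Measure E} {V : ℝ} {x : E} {r : ℝ} {σ L : ℕ}, Ctx g n φ μ V x r → σ₀ ≤ σ →
    (∀ l, σ ≤ l → l < L → (φ (l + 1)).real (Ann x r (l + 1)) ≤ qq ^ (l + 1) * V ∨
      V / (qq ^ l) ^ 2 < ⟪n, Phi g x r l⟫) →
    SS φ x r L ≤ C * V / qq ^ σ + η * max ⟪n, Phi g x r L⟫ 0 := by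
  obtain ⟨Cs, hCs, hs⟩ := SS_le
  obtain ⟨Cg, hCg, hg⟩ := geom_tail
  refine ⟨2 * (Cs + Cg), by positivity, fun η hη => ?_⟩
  obtain ⟨σ₁, hσ₁⟩ := exists_qq_pow_le (ε := 1 / (144 * Cg)) (by positivity)
  obtain ⟨σ₂, hσ₂⟩ := exists_qq_pow_le (ε := η / (4 * Cg)) (by positivity)
  refine ⟨max σ₁ σ₂, ?_⟩
  intro g n φ μ V x r σ L hc hσ hl
  have h1 := hσ₁ σ (le_trans (le_max_left _ _) hσ)
  have h2 := hσ₂ σ (le_trans (le_max_right _ _) hσ)
  have hV := hc.V0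
  have hs0 : 0 < qq ^ σ := pow_pos qq_pos _
  have hs1 : qq ^ σ ≤ 1 := qq_pow_le_one σ
  have hT0 : 0 ≤ max ⟪n, Phi g x r L⟫ 0 := le_max_right _ _
  have hSσ := (hs hc).1 σ
  have hW0 : 0 < V / qq ^ σ := by positivity
  rw [mul_div_assoc] at hSσ ⊢
  rcases le_total L σ with hL | hL
  · have := SS_mono φ x r hL
    have h3 : 0 ≤ η * max ⟪n, Phi g x r L⟫ 0 := by positivity
    have h4 : 0 ≤ Cs * (V / qq ^ σ) := by positivity
    have h5 : 0 ≤ Cg * (V / qq ^ σ) := by positivity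
    nlinarith
  have hS0 := SS_nonneg φ x r L
  set T := max ⟪n, Phi g x r L⟫ 0 with hT
  set S := SS φ x r L with hS
  have hn := hc.kd.n1
  have hterm : ∀ l ∈ Finset.Ico σ L,
      (φ (l + 1)).real (Ann x r (l + 1)) ≤ qq ^ l * (V + 2 * (T + 36 * S)) := by
    intro l hl'
    obtain ⟨hl1, hl2⟩ := Finset.mem_Ico.1 hl'
    have hq0 : 0 < qq ^ l := pow_pos qq_pos _
    rcases hl l hl1 hl2 with h | h
    · refine h.trans ?_
      have h3 : qq ^ (l + 1) ≤ qq ^ l := pow_le_pow_of_le_one qq_pos.le qq_lt_one.le (by omega)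
      have h4 : 0 ≤ qq ^ l * (2 * (T + 36 * S)) := by positivity
      nlinarith
    · have h3 := hc.ann_le (l + 1)
      have h4 := (hc.lowZ (ξ := n) (c := 1) (B := 1) one_pos
        (by rw [real_inner_self_eq_norm_sq, hn]; norm_num) hn.le hl2.le).1
      have h5 : ⟪n, Phi g x r l⟫ ≤ T + 36 * S := by
        have := le_max_left ⟪n, Phi g x r L⟫ 0
        norm_num at h4
        linarith
      have h6 : V ≤ (qq ^ l) ^ 2 * (T + 36 * S) := by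
        rw [div_lt_iff₀ (by positivity)] at h
        nlinarith [sq_nonneg (qq ^ l)]
      have h7 : V / qq ^ (l + 1) ≤ qq ^ l * (2 * (T + 36 * S)) := by
        rw [div_le_iff₀ (pow_pos qq_pos _), pow_succ]
        have h8 := half_lt_qq
        have h9 : 0 ≤ (qq ^ l) ^ 2 * (T + 36 * S) := by positivity
        nlinarith
      have h8 : 0 ≤ qq ^ l * V := by positivity
      nlinarith
  have hsum : ∑ l ∈ Finset.Ico σ L, (φ (l + 1)).real (Ann x r (l + 1)) ≤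
      Cg * qq ^ σ * (V + 2 * (T + 36 * S)) := by
    refine (Finset.sum_le_sum hterm).trans ?_
    rw [← Finset.sum_mul]
    have := hg σ (Finset.Ico σ L) fun l hl => (Finset.mem_Ico.1 hl).1
    gcongr
  have hsp := SS_split φ x r hL
  have hsV : qq ^ σ * V ≤ V / qq ^ σ := by
    rw [le_div_iff₀ hs0]
    have : qq ^ σ * qq ^ σ ≤ 1 := mul_le_one₀ hs1 hs0.le hs1
    nlinarith
  rw [le_div_iff₀ (by positivity)] at h1 h2
  have h3 : Cg * qq ^ σ * (72 * S) ≤ S / 2 := by nlinarith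
  have h4 : Cg * qq ^ σ * (2 * T) ≤ η * T / 2 := by nlinarith
  have h5 : Cg * qq ^ σ * V ≤ Cg * (V / qq ^ σ) := by
    rw [mul_assoc]; gcongr
  nlinarith

end Crest.Agent.R112
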