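import Crest.Agent.R112.EA

/-! # Row 112: small radii (task UI) -/

set_option autoImplicit false

namespace Crest.Agent.R112

open MeasureTheory Metric
open scoped RealInnerProductSpace

/-- mean value property: `∫_{ball x r} (y - x) = 0` by the reflection `y ↦ 2x - y` -/
theorem uu_affine (c : ℝ) (ξ p x : E) {r : ℝ} (hr : 0 < r) :
    uu (fun y => c + ⟪ξ, y - p⟫) x r = c + ⟪ξ, x - p⟫ := by
  have hA : 0 < Real.pi * r ^ 2 := by positivity
  have h0 : ∫ y in ball (0 : E) r, ⟪ξ, y⟫ = 0 := by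
    have h := (Measure.measurePreserving_neg (volume : Measure E)).setIntegral_preimage_emb
      measurableEmbedding_neg (fun y => ⟪ξ, y⟫) (ball (0 : E) r)
    have h2 : (Neg.neg ⁻¹' ball (0 : E) r) = ball (0 : E) r := by
      ext y
      simp
    rw [h2] at h
    simp only [inner_neg_right, integral_neg] at h
    linarith
  have h1 := SM_shift (fun y => c + ⟪ξ, y - p⟫) 0 x r
  rw [zero_add] at h1
  unfold uu
  rw [h1]
  have h3 : ∀ y : E, c + ⟪ξ, y + x - p⟫ = (c + ⟪ξ, x - p⟫) + ⟪ξ, y⟫ := fun y => by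
    rw [add_sub_assoc, inner_add_right]
    ring
  simp only [h3]
  have hi : IntegrableOn (fun y : E => ⟪ξ, y⟫) (ball (0 : E) r) :=
    (((continuous_const.inner continuous_id : Continuous fun y : E => ⟪ξ, y⟫)).continuousOn.integrableOn_compact
      (isCompact_closedBall (0 : E) r)).mono_set ball_subset_closedBall
  have hi0 : IntegrableOn (fun _ : E => c + ⟪ξ, x - p⟫) (ball (0 : E) r) :=
    integrableOn_const measure_ball_lt_top.ne
  rw [integral_add hi0 hi, h0, setIntegral_const,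
    volume_real_ball _ hr.le, smul_eq_mul, add_zero, ← mul_assoc, inv_mul_cancel₀ hA.ne', one_mul]

theorem UI_grad_aff (c : ℝ) (ξ p x : E) : HasGradientAt (fun y => c + ⟪ξ, y - p⟫) ξ x := by
  rw [hasGradientAt_iff_hasFDerivAt]
  have h1 : HasFDerivAt (fun y : E => y - p) (ContinuousLinearMap.id ℝ E) x :=
    (hasFDerivAt_id x).sub_const p
  have h2 := ((InnerProductSpace.toDual ℝ E ξ).hasFDerivAt.comp x h1).const_add c
  rw [ContinuousLinearMap.comp_id] at h2
  exact h2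

/-- If `P` is affine on `ball p (4δ)` then `ww (f - P) a b = ww f a b - P` on `ball p (2δ)`
(`uu_sub`, `setIntegral_congr_fun`, `uu_affine`, maximisers agree); so the gradients differ by `ξ`
wherever `ww f a b` is differentiable. -/
theorem gradient_ww_sub {f P : E → ℝ} (hf : Integrable f) (hP : Integrable P) {c a b δ : ℝ}
    {ξ p x : E} (ha : 0 < a) (hab : a ≤ b) (hb : b ≤ 2 * δ)
    (h : ∀ y, ‖y - p‖ < 4 * δ → P y = c + ⟪ξ, y - p⟫) (hx : ‖x - p‖ < 2 * δ)
    (hd : DifferentiableAt ℝ (ww f a b) x) :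
    gradient (ww (fun y => f y - P y) a b) x = gradient (ww f a b) x - ξ := by
  have key : ∀ x', ‖x' - p‖ < 2 * δ → ∀ r ∈ Set.Icc a b,
      uu (fun y => f y - P y) x' r = uu f x' r - (c + ⟪ξ, x' - p⟫) := by
    intro x' hx' r hr
    have hr0 : 0 < r := ha.trans_le hr.1
    rw [uu_sub hf hP, ← uu_affine c ξ p x' hr0]
    congr 1
    unfold uu
    congr 1
    refine setIntegral_congr_fun measurableSet_ball fun y hy => h y ?_
    have h1 : ‖y - x'‖ < r := by simpa [dist_eq_norm] using hy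
    calc ‖y - p‖ = ‖(y - x') + (x' - p)‖ := by congr 1; abel
      _ ≤ ‖y - x'‖ + ‖x' - p‖ := norm_add_le _ _
      _ < 4 * δ := by linarith [hr.2]
  have hev : ww (fun y => f y - P y) a b =ᶠ[nhds x] fun x' => ww f a b x' - (c + ⟪ξ, x' - p⟫) := by
    have hn : ball p (2 * δ) ∈ nhds x :=
      isOpen_ball.mem_nhds (by simpa [dist_eq_norm] using hx)
    filter_upwards [hn] with x' hx'
    have hx'' : ‖x' - p‖ < 2 * δ := by simpa [dist_eq_norm] using hx'
    obtain ⟨r, hr⟩ := exists_isMx hf ha hab x'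
    have hr' : IsMx (fun y => f y - P y) a b x' r := ⟨hr.1, fun s hs => by
      rw [key x' hx'' s hs, key x' hx'' r hr.1]
      linarith [hr.2 s hs]⟩
    rw [hr'.ww_eq, hr.ww_eq, key x' hx'' r hr.1]
  rw [hev.gradient_eq]
  have h1 := (hd.hasGradientAt.hasFDerivAt).sub (UI_grad_aff c ξ p x).hasFDerivAt
  rw [← map_sub] at h1
  exact (hasGradientAt_iff_hasFDerivAt.2 h1).gradient

/-- One separated family.  `ζ_p` from `exists_cut2` with `D = 4δ`, `A_p y = u p + ⟪∇u p, y - p⟫`,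
`P = u + ∑_{p ∈ T} ζ_p (A_p - u)` is `Sm` and equals `A_p` on `ball p (4δ)`;
`‖∇(ζ_p (A_p - u))‖ ≤ C Λ δ` and vanishes off `closedBall p (8δ)` (`gradient_mul'`).  `EA` for
`Apx.sub_sm`, `gradient_ww_sub`, `Apx.ww_lip` + Rademacher; the balls `ball p (2δ)` are disjoint
(`integral_finset_biUnion` / `setIntegral_le_integral`). -/
theorem UI_family : ∃ C : ℝ, 0 < C ∧ ∀ (f u : E → ℝ) (g : E → E) (Λ δ : ℝ) (T : Finset E)
    (k₀ k : ℤ), Apx f g → Sm u → 0 ≤ Λ → 0 < δ →
    (∀ y z, ‖gradient u y - gradient u z‖ ≤ Λ * ‖y - z‖) →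
    (∀ y v, |u (y + v) - u y - ⟪gradient u y, v⟫| ≤ Λ * ‖v‖ ^ 2) →
    (∀ p ∈ T, ∀ p' ∈ T, p ≠ p' → 12 * δ ≤ ‖p - p'‖) → k₀ ≤ k → (2 : ℝ) ^ k ≤ δ →
    ∑ p ∈ T, ∫ x in ball p (2 * δ), ‖gradient (ww f (2 ^ k₀) (2 * 2 ^ k)) x - g x‖ ≤
      C * ((∫ y, ‖g y - gradient u y‖) + Λ * δ ^ 3 * T.card) := by
  obtain ⟨Ca, hCa, hcut⟩ := exists_cut2
  obtain ⟨C, hC, hEA⟩ := EA
  refine ⟨(C + 1) * (1 + (8 + 16 * Ca) * (Real.pi * 64)), by positivity, ?_⟩
  intro f u g Λ δ T k₀ k hfg hu hΛ hδ hl1 hl2 hsep hk hkδ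
  have hδ4 : 0 < 4 * δ := by positivity
  choose ζ hζs hζ01 hζ1 hζ0 hζg hζg0 using fun p : E => hcut p (4 * δ) hδ4
  set A : E → E → ℝ := fun p y => u p + ⟪gradient u p, y - p⟫ with hA
  have hAc : ∀ p, ContDiff ℝ 2 (A p) := fun p =>
    contDiff_const.add (ContDiff.inner ℝ contDiff_const (contDiff_id.sub contDiff_const))
  set Q : E → E → ℝ := fun p y => ζ p y * (A p y - u y) with hQ
  have hQs : ∀ p, Sm (Q p) := fun p => (hζs p).mul ((hAc p).sub hu.cd)
  have hQg : ∀ p y, gradient (Q p) y =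
      ζ p y • (gradient u p - gradient u y) + (A p y - u y) • gradient (ζ p) y := by
    intro p y
    have h1 : HasGradientAt (fun y => A p y - u y) (gradient u p - gradient u y) y := by
      rw [hasGradientAt_iff_hasFDerivAt, map_sub]
      exact (UI_grad_aff (u p) (gradient u p) p y).hasFDerivAt.sub (hu.hasGradientAt y).hasFDerivAt
    rw [← h1.gradient]
    exact gradient_mul' ((hζs p).hasGradientAt y).differentiableAt h1.differentiableAt
  have hQb : ∀ p y, ‖gradient (Q p) y‖ ≤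
      (closedBall p (8 * δ)).indicator (fun _ => Λ * δ * (8 + 16 * Ca)) y := by
    intro p y
    rw [hQg]
    by_cases hy : y ∈ closedBall p (8 * δ)
    · rw [Set.indicator_of_mem hy]
      have hy' : ‖y - p‖ ≤ 8 * δ := by simpa [dist_eq_norm] using hy
      have h1 : ‖ζ p y • (gradient u p - gradient u y)‖ ≤ Λ * (8 * δ) := by
        rw [norm_smul, Real.norm_eq_abs, abs_of_nonneg (hζ01 p y).1]
        calc ζ p y * ‖gradient u p - gradient u y‖ ≤ 1 * (Λ * ‖p - y‖) :=
              mul_le_mul (hζ01 p y).2 (hl1 p y) (norm_nonneg _) zero_le_one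
          _ ≤ Λ * (8 * δ) := by
              rw [one_mul, norm_sub_rev]
              exact mul_le_mul_of_nonneg_left hy' hΛ
      have h2 : |A p y - u y| ≤ Λ * (8 * δ) ^ 2 := by
        have h3 := hl2 p (y - p)
        rw [add_sub_cancel] at h3
        have h4 : A p y - u y = -(u y - u p - ⟪gradient u p, y - p⟫) := by simp only [hA]; ring
        rw [h4, abs_neg]
        exact h3.trans (mul_le_mul_of_nonneg_left (pow_le_pow_left₀ (norm_nonneg _) hy' 2) hΛ)
      have h3 : ‖(A p y - u y) • gradient (ζ p) y‖ ≤ Λ * (8 * δ) ^ 2 * (Ca / (4 * δ)) := by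
        rw [norm_smul, Real.norm_eq_abs]
        exact mul_le_mul h2 (hζg p y) (norm_nonneg _) (by positivity)
      have h4 : Λ * (8 * δ) ^ 2 * (Ca / (4 * δ)) = Λ * δ * (16 * Ca) := by
        field_simp
        ring
      calc _ ≤ _ := norm_add_le _ _
        _ ≤ Λ * (8 * δ) + Λ * δ * (16 * Ca) := add_le_add h1 (h3.trans h4.le)
        _ = Λ * δ * (8 + 16 * Ca) := by ring
    · rw [Set.indicator_of_notMem hy]
      have hy' : 8 * δ < ‖y - p‖ := by simpa [dist_eq_norm] using hy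
      rw [hζ0 p y (by linarith), hζg0 p y (by linarith)]
      simp
  have hQi : ∀ p, ∫ y, ‖gradient (Q p) y‖ ≤ Λ * δ ^ 3 * ((8 + 16 * Ca) * (Real.pi * 64)) := by
    intro p
    have h1 : ∫ y, ‖gradient (Q p) y‖ ≤
        ∫ y, (closedBall p (8 * δ)).indicator (fun _ => Λ * δ * (8 + 16 * Ca)) y :=
      integral_mono (hQs p).integrable_grad.norm
        ((integrable_indicator_iff measurableSet_closedBall).2
          (integrableOn_const measure_closedBall_lt_top.ne)) (hQb p)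
    rw [integral_indicator measurableSet_closedBall, setIntegral_const, smul_eq_mul,
      measureReal_def, Measure.addHaar_closedBall_eq_addHaar_ball, ← measureReal_def,
      volume_real_ball _ (by positivity)] at h1
    exact h1.trans (le_of_eq (by ring))
  obtain ⟨hSs, hSg⟩ := Sm.sum T (u := Q) fun p _ => hQs p
  set P : E → ℝ := fun y => u y + ∑ p ∈ T, Q p y with hP
  have hPs : Sm P := hu.add hSs
  have hPg : ∀ y, gradient P y = gradient u y + ∑ p ∈ T, gradient (Q p) y := fun y => by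
    rw [← hSg y]
    exact hu.gradient_add hSs y
  have hPA : ∀ p ∈ T, ∀ y, ‖y - p‖ < 4 * δ → P y = u p + ⟪gradient u p, y - p⟫ := by
    intro p hp y hy
    have h1 : ∑ q ∈ T, Q q y = Q p y := by
      refine Finset.sum_eq_single_of_mem p hp fun q hq hqp => ?_
      have h2 := hsep q hq p hp hqp
      have h3 : ‖q - p‖ ≤ ‖y - q‖ + ‖y - p‖ := by
        calc ‖q - p‖ = ‖(y - p) - (y - q)‖ := by congr 1; abel
          _ ≤ ‖y - p‖ + ‖y - q‖ := norm_sub_le _ _
          _ = _ := add_comm _ _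
      simp only [hQ]
      rw [hζ0 q y (by linarith), zero_mul]
    simp only [hP]
    rw [h1]
    simp only [hQ]
    rw [hζ1 p y hy.le]
    simp only [hA]
    ring
  have hPg' : ∀ p ∈ T, ∀ x, ‖x - p‖ < 2 * δ → gradient P x = gradient u p := by
    intro p hp x hx
    have hev : P =ᶠ[nhds x] fun y => u p + ⟪gradient u p, y - p⟫ := by
      have hn : ball p (4 * δ) ∈ nhds x :=
        isOpen_ball.mem_nhds (by rw [mem_ball, dist_eq_norm]; linarith)
      filter_upwards [hn] with y hy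
      exact hPA p hp y (by simpa [dist_eq_norm] using hy)
    rw [hev.gradient_eq, (UI_grad_aff _ _ _ _).gradient]
  have hap := hfg.sub_sm hPs
  obtain ⟨hi1, hle1⟩ := hEA _ _ k₀ k hap hk
  have hi2 := (hEA _ _ k₀ k hfg hk).1
  have ha : (0 : ℝ) < 2 ^ k₀ := by positivity
  have hab : (2 : ℝ) ^ k₀ ≤ 2 * 2 ^ k := by
    have h1 : (2 : ℝ) ^ k₀ ≤ 2 ^ k := zpow_le_zpow_right₀ one_le_two hk
    have h2 : (0 : ℝ) < 2 ^ k := by positivity
    linarith
  obtain ⟨L, hL⟩ := hfg.ww_lip ha hab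
  set W : E → ℝ := fun x => ‖gradient (ww (fun y => f y - P y) (2 ^ k₀) (2 * 2 ^ k)) x‖ +
    ‖g x - gradient P x‖ with hW
  have hWi : Integrable W := hi1.norm.add hap.gi.norm
  have h1 : ∀ p ∈ T, ∫ x in ball p (2 * δ), ‖gradient (ww f (2 ^ k₀) (2 * 2 ^ k)) x - g x‖ ≤
      ∫ x in ball p (2 * δ), W x := by
    intro p hp
    refine setIntegral_mono_on_ae (hi2.sub hfg.gi).norm.integrableOn hWi.integrableOn
      measurableSet_ball ?_
    filter_upwards [hL.ae_differentiableAt (μ := volume)] with x hx hxp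
    have hxp' : ‖x - p‖ < 2 * δ := by simpa [dist_eq_norm] using hxp
    have h2 := gradient_ww_sub hfg.fi hPs.integrable ha hab (by linarith) (hPA p hp) hxp' hx
    simp only [hW]
    rw [h2, hPg' p hp x hxp']
    calc _ = ‖(gradient (ww f (2 ^ k₀) (2 * 2 ^ k)) x - gradient u p) - (g x - gradient u p)‖ := by
          congr 1; abel
      _ ≤ _ := norm_sub_le _ _
  have h2 : ∑ p ∈ T, ∫ x in ball p (2 * δ), W x ≤ ∫ x, W x := by
    rw [← integral_biUnion_finset T (fun _ _ => measurableSet_ball) ?_ fun _ _ => hWi.integrableOn]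
    · exact setIntegral_le_integral hWi (Filter.Eventually.of_forall fun x => by positivity)
    · intro p hp q hq hpq
      refine ball_disjoint_ball ?_
      rw [dist_eq_norm]
      linarith [hsep p hp q hq hpq]
  have h3 : ∫ x, W x ≤ (C + 1) * ∫ x, ‖g x - gradient P x‖ := by
    simp only [hW]
    rw [integral_add hi1.norm hap.gi.norm]
    linarith
  have h4 : ∫ x, ‖g x - gradient P x‖ ≤
      (∫ y, ‖g y - gradient u y‖) + ∑ p ∈ T, ∫ y, ‖gradient (Q p) y‖ := by
    have hi3 : Integrable fun y => ‖g y - gradient u y‖ := (hfg.gi.sub hu.integrable_grad).norm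
    rw [← integral_finsetSum T fun p _ => (hQs p).integrable_grad.norm,
      ← integral_add hi3 (integrable_finsetSum T fun p _ => (hQs p).integrable_grad.norm)]
    refine integral_mono hap.gi.norm
      (hi3.add (integrable_finsetSum T fun p _ => (hQs p).integrable_grad.norm)) fun y => ?_
    simp only
    rw [hPg, ← sub_sub]
    exact (norm_sub_le _ _).trans (add_le_add le_rfl (norm_sum_le _ _))
  have h5 : ∑ p ∈ T, ∫ y, ‖gradient (Q p) y‖ ≤
      T.card * (Λ * δ ^ 3 * ((8 + 16 * Ca) * (Real.pi * 64))) := by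
    have := Finset.sum_le_card_nsmul T _ _ fun p _ => hQi p
    rwa [nsmul_eq_mul] at this
  have h6 : 0 ≤ ∫ y, ‖g y - gradient u y‖ := integral_nonneg fun _ => norm_nonneg _
  have h7 : 0 ≤ Λ * δ ^ 3 * T.card := by positivity
  have h8 : 0 ≤ (8 + 16 * Ca) * (Real.pi * 64) := by positivity
  calc _ ≤ ∑ p ∈ T, ∫ x in ball p (2 * δ), W x := Finset.sum_le_sum h1
    _ ≤ (C + 1) * ∫ x, ‖g x - gradient P x‖ := h2.trans h3
    _ ≤ (C + 1) * ((1 + (8 + 16 * Ca) * (Real.pi * 64)) *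
        ((∫ y, ‖g y - gradient u y‖) + Λ * δ ^ 3 * T.card)) := by
        refine mul_le_mul_of_nonneg_left (h4.trans ?_) (by positivity)
        nlinarith [mul_nonneg h8 h6]
    _ = _ := by ring

/-- Choose `u` with `∫ ‖g - ∇u‖ ≤ ε'`, `Λ` from `Sm.lip_grad`, `δ = 2^k₁ ≤ 1` small.  The balls
`ball (pos k₁ a) (2δ)`, `a ∈ Icc (-N) N ×ˢ Icc (-N) N`, `N = ⌈R/δ⌉`, cover `closedBall 0 R`
(`a = (⌊x 0/δ⌋, ⌊x 1/δ⌋)`); split the index set into the `144` residue classes mod `12`
(`Finset.sum_fiberwise_of_maps_to`); `δ² (2N+1)² ≤ (2|R| + 3)²`. -/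
theorem UI {f : E → ℝ} {g : E → E} (h : Apx f g) (R : ℝ) {ε : ℝ} (hε : 0 < ε) :
    ∃ k₁ : ℤ, ∀ k₀ k : ℤ, k₀ ≤ k → k ≤ k₁ →
      ∫ x in closedBall (0 : E) R, ‖gradient (ww f (2 ^ k₀) (2 * 2 ^ k)) x - g x‖ ≤ ε := by
  obtain ⟨C, hC, hfam⟩ := UI_family
  obtain ⟨C', -, hEA⟩ := EA
  obtain ⟨u, hu, -, hug⟩ := h.ap (ε / (288 * C)) (by positivity)
  obtain ⟨Λ, hΛ, hl1, hl2⟩ := hu.lip_grad
  set M : ℝ := C * Λ * (2 * |R| + 3) ^ 2 with hM
  have hM0 : 0 ≤ M := by positivity
  obtain ⟨k₁, hk₁⟩ : ∃ k₁ : ℤ, (2 : ℝ) ^ k₁ ≤ min 1 (ε / (2 * M + 1)) := by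
    obtain ⟨n, hn⟩ := exists_pow_lt_of_lt_one (x := min 1 (ε / (2 * M + 1))) (y := (1 / 2 : ℝ))
      (by positivity) (by norm_num)
    refine ⟨-(n : ℤ), le_of_eq_of_le ?_ hn.le⟩
    rw [zpow_neg, zpow_natCast, one_div, inv_pow]
  refine ⟨k₁, fun k₀ k hk hkk => ?_⟩
  set δ : ℝ := 2 ^ k₁ with hδ
  have hδ0 : 0 < δ := by positivity
  have hδ1 : δ ≤ 1 := hk₁.trans (min_le_left _ _)
  have hδ2 : δ * (2 * M + 1) ≤ ε := by
    have := hk₁.trans (min_le_right _ _)
    rwa [le_div_iff₀ (by positivity)] at this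
  have hkδ : (2 : ℝ) ^ k ≤ δ := zpow_le_zpow_right₀ one_le_two hkk
  set W : E → ℝ := fun x => ‖gradient (ww f (2 ^ k₀) (2 * 2 ^ k)) x - g x‖ with hW
  have hWi : Integrable W := ((hEA _ _ k₀ k h hk).1.sub h.gi).norm
  set N : ℕ := ⌈|R| / δ⌉₊ with hN
  have hN1 : |R| / δ ≤ N := Nat.le_ceil _
  have hN2 : (N : ℝ) < |R| / δ + 1 := Nat.ceil_lt_add_one (by positivity)
  set I : Finset (ℤ × ℤ) := Finset.Icc (-(N : ℤ)) N ×ˢ Finset.Icc (-(N : ℤ)) N with hI
  have hcard : (I.card : ℝ) = (2 * N + 1) ^ 2 := by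
    have : (Finset.Icc (-(N : ℤ)) N).card = 2 * N + 1 := by
      rw [Int.card_Icc]
      omega
    rw [hI, Finset.card_product, this]
    push_cast
    ring
  have hcov : ∀ x ∈ closedBall (0 : E) R, ∃ a ∈ I, x ∈ ball (pos k₁ a) (2 * δ) := by
    intro x hx
    have hx' : ‖x‖ ≤ |R| := (mem_closedBall_zero_iff.1 hx).trans (le_abs_self R)
    have hfl : ∀ i, ⌊x i / δ⌋ ∈ Finset.Icc (-(N : ℤ)) N ∧ |x i - δ * (⌊x i / δ⌋ : ℝ)| < δ := by
      intro i
      have h1 : |x i / δ| ≤ N := by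
        rw [abs_div, abs_of_pos hδ0]
        exact (div_le_div_of_nonneg_right ((abs_apply_le x i).trans hx') hδ0.le).trans hN1
      rw [abs_le] at h1
      refine ⟨Finset.mem_Icc.2 ⟨Int.le_floor.2 (by push_cast; exact h1.1), ?_⟩, ?_⟩
      · have h2 : ((⌊x i / δ⌋ : ℤ) : ℝ) ≤ ((N : ℤ) : ℝ) := by
          push_cast
          exact (Int.floor_le _).trans h1.2
        exact_mod_cast h2
      · have h2 := Int.floor_le (x i / δ)
        have h3 := Int.lt_floor_add_one (x i / δ)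
        rw [le_div_iff₀ hδ0] at h2
        rw [div_lt_iff₀ hδ0] at h3
        rw [abs_lt]
        constructor <;> nlinarith
    refine ⟨(⌊x 0 / δ⌋, ⌊x 1 / δ⌋), Finset.mem_product.2 ⟨(hfl 0).1, (hfl 1).1⟩, ?_⟩
    rw [mem_ball, dist_eq_norm]
    refine (norm_le_E _).trans_lt ?_
    simp only [PiLp.sub_apply, pos_zero_apply, pos_one_apply]
    linarith [(hfl 0).2, (hfl 1).2]
  have h1 : ∫ x in closedBall (0 : E) R, W x ≤ ∑ a ∈ I, ∫ x in ball (pos k₁ a) (2 * δ), W x := by
    have hind : ∀ a, Integrable ((ball (pos k₁ a) (2 * δ)).indicator W) := fun a =>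
      hWi.indicator measurableSet_ball
    simp only [← integral_indicator measurableSet_ball, ← integral_indicator measurableSet_closedBall]
    rw [← integral_finsetSum I fun a _ => hind a]
    refine integral_mono (hWi.indicator measurableSet_closedBall)
      (integrable_finsetSum I fun a _ => hind a) fun x => ?_
    have hnn : ∀ a ∈ I, 0 ≤ (ball (pos k₁ a) (2 * δ)).indicator W x := fun a _ =>
      Set.indicator_nonneg (fun _ _ => norm_nonneg _) x
    by_cases hx : x ∈ closedBall (0 : E) R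
    · obtain ⟨a, ha, hxa⟩ := hcov x hx
      rw [Set.indicator_of_mem hx]
      refine le_trans ?_ (Finset.single_le_sum hnn ha)
      rw [Set.indicator_of_mem hxa]
    · rw [Set.indicator_of_notMem hx]
      exact Finset.sum_nonneg hnn
  set cl' : ℤ × ℤ → ℤ × ℤ := fun a => (a.1 % 12, a.2 % 12) with hcl
  obtain ⟨J, hmaps, hJc⟩ : ∃ J : Finset (ℤ × ℤ), (∀ a ∈ I, cl' a ∈ J) ∧ J.card = 144 := by
    refine ⟨Finset.Icc (0 : ℤ) 11 ×ˢ Finset.Icc (0 : ℤ) 11, fun a _ => ?_, ?_⟩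
    · simp only [hcl, Finset.mem_product, Finset.mem_Icc]
      omega
    · rw [Finset.card_product, Int.card_Icc]
      rfl
  have hsep : ∀ a b : ℤ × ℤ, a ≠ b → cl' a = cl' b → 12 * δ ≤ ‖pos k₁ a - pos k₁ b‖ := by
    intro a b hab hc
    simp only [hcl, Prod.mk.injEq] at hc
    have key : ∀ (m n : ℤ), m ≠ n → m % 12 = n % 12 → 12 * δ ≤ |δ * m - δ * n| := by
      intro m n hmn hc
      have h12 : (12 : ℤ) ≤ |m - n| := by
        rcases le_total m n with h | h
        · rw [abs_of_nonpos (by omega)]; omega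
        · rw [abs_of_nonneg (by omega)]; omega
      have h13 : (12 : ℝ) ≤ |(m : ℝ) - n| := by exact_mod_cast h12
      rw [← mul_sub, abs_mul, abs_of_pos hδ0]
      nlinarith
    by_cases h0 : a.1 = b.1
    · have h1 : a.2 ≠ b.2 := fun h1 => hab (Prod.ext h0 h1)
      exact (key _ _ h1 hc.2).trans (abs_apply_le (pos k₁ a - pos k₁ b) 1)
    · exact (key _ _ h0 hc.1).trans (abs_apply_le (pos k₁ a - pos k₁ b) 0)
  have h2 : ∀ c ∈ J, ∑ a ∈ I with cl' a = c, ∫ x in ball (pos k₁ a) (2 * δ), W x ≤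
      C * (ε / (288 * C)) + C * Λ * δ ^ 3 * ((I.filter fun a => cl' a = c).card : ℝ) := by
    classical
    intro c _
    have hinj : Set.InjOn (pos k₁) (I.filter fun a => cl' a = c) := by
      intro a ha b hb hab
      by_contra hne
      have h3 := hsep a b hne (by
        rw [(Finset.mem_filter.1 ha).2, (Finset.mem_filter.1 hb).2])
      rw [hab, sub_self, norm_zero] at h3
      linarith
    have h3 := hfam f u g Λ δ ((I.filter fun a => cl' a = c).image (pos k₁)) k₀ k h hu hΛ hδ0 hl1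
      hl2 (by
        intro p hp q hq hpq
        obtain ⟨a, ha, rfl⟩ := Finset.mem_image.1 hp
        obtain ⟨b, hb, rfl⟩ := Finset.mem_image.1 hq
        exact hsep a b (fun hab => hpq (by rw [hab])) (by
          rw [(Finset.mem_filter.1 ha).2, (Finset.mem_filter.1 hb).2])) hk hkδ
    rw [Finset.sum_image hinj, Finset.card_image_of_injOn hinj] at h3
    refine h3.trans ?_
    have := mul_le_mul_of_nonneg_left hug hC.le
    nlinarith
  have h3 : ∑ c ∈ J, (((I.filter fun a => cl' a = c).card : ℕ) : ℝ) = I.card := by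
    rw [Finset.card_eq_sum_card_fiberwise (f := cl') (s := I) (t := J) fun a ha => hmaps a ha]
    push_cast
    rfl
  have h4 : δ * (2 * N + 1) ≤ 2 * |R| + 3 := by
    have : δ * N ≤ |R| + δ := by
      have h5 := mul_le_mul_of_nonneg_left hN2.le hδ0.le
      rwa [mul_add, mul_div_cancel₀ _ hδ0.ne', mul_one] at h5
    nlinarith
  have h5 : C * Λ * δ ^ 3 * I.card ≤ δ * M := by
    rw [hcard, hM]
    have h6 : (δ * (2 * N + 1)) ^ 2 ≤ (2 * |R| + 3) ^ 2 := pow_le_pow_left₀ (by positivity) h4 2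
    have h7 : 0 ≤ C * Λ * δ := by positivity
    nlinarith [mul_le_mul_of_nonneg_left h6 h7]
  calc _ ≤ ∑ a ∈ I, ∫ x in ball (pos k₁ a) (2 * δ), W x := h1
    _ = ∑ c ∈ J, ∑ a ∈ I with cl' a = c, ∫ x in ball (pos k₁ a) (2 * δ), W x :=
        (Finset.sum_fiberwise_of_maps_to hmaps _).symm
    _ ≤ ∑ c ∈ J, (C * (ε / (288 * C)) +
        C * Λ * δ ^ 3 * ((I.filter fun a => cl' a = c).card : ℝ)) := Finset.sum_le_sum h2
    _ = 144 * (C * (ε / (288 * C))) + C * Λ * δ ^ 3 * I.card := by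
        rw [Finset.sum_add_distrib, Finset.sum_const, ← Finset.mul_sum, h3, hJc, nsmul_eq_mul]
        norm_num
    _ ≤ ε := by
        have h6 : 144 * (C * (ε / (288 * C))) = ε / 2 := by
          field_simp
          ring
        rw [h6]
        nlinarith

end Crest.Agent.R112
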