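import Crest.Agent.R112.Seg

/-! # Row 112: windows of optimality (task WIN) -/

set_option autoImplicit false

namespace Crest.Agent.R112

open MeasureTheory Metric
open scoped RealInnerProductSpace

theorem win_cl_lip (a b : ℝ) : |cl a - cl b| ≤ |a - b| := by
  unfold cl
  simp only [max_def, min_def]
  split_ifs <;> rw [abs_le] <;> constructor <;> cases abs_cases (a - b) <;> linarith

theorem win_cl_mem (a : ℝ) : 0 ≤ cl a ∧ cl a ≤ 1 :=
  ⟨le_max_left _ _, max_le zero_le_one (min_le_left _ _)⟩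

theorem win_cl_zero {a : ℝ} (h : a ≤ 0) : cl a = 0 :=
  max_eq_left ((min_le_right _ _).trans h)

theorem win_cl_one {a : ℝ} (h : 1 ≤ a) : cl a = 1 := by
  unfold cl; rw [min_eq_left h, max_eq_right zero_le_one]

theorem win_sub_lip (x y z : E) : ‖(y - x) - (z - x)‖ ≤ 1 * ‖y - z‖ := by
  rw [sub_sub_sub_cancel_right, one_mul]

/-- the profile of the window kernel -/
theorem win_K {g : E → E} (hg : Integrable g) {x : E} {r : ℝ} (hr2 : r ≤ 2) {L : ℕ}
    (hw : Win g x r (1 / 2 ^ L)) {ς : ℝ} (hς : ς = 1 ∨ ς = -1) :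
    ∃ k : ℝ → ℝ, Continuous k ∧ (∀ s, 0 ≤ k s ∧ k s ≤ 1) ∧
      (∀ s, k s ≠ 0 → -(1 / 2 ^ L) ≤ s ∧ s ≤ 4 * (1 / 2 ^ L)) ∧
      (∀ y, k (dp x r y) ≤ Oc x r L y - Zc x r L y) ∧
      (∀ y z, |k (dp x r y) - k (dp x r z)| ≤ 17 * 2 ^ L * ‖y - z‖) ∧
      ς * rho g x r L ≤ -(ς * ∫ y, k (dp x r y) * ⟪y - x, g y⟫) := by
  obtain ⟨H, h01, hl, h1, h0, hi⟩ := hw ς hς
  have hp : (0 : ℝ) < 2 ^ L := by positivity
  have hδ : (2 : ℝ) ^ L * (1 / 2 ^ L) = 1 := by field_simp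
  have hδ0 : (0 : ℝ) < 1 / 2 ^ L := by positivity
  have hδ1 : (1 : ℝ) / 2 ^ L ≤ 1 := by
    rw [div_le_one hp]; exact one_le_pow₀ one_le_two
  have hl' : ∀ s t, |H s - H t| ≤ 16 * 2 ^ L * |s - t| := fun s t => by
    have := hl s t
    rwa [div_div_eq_mul_div, div_one] at this
  have hlip : ∀ s t, |(H s - cl (2 ^ L * s - 1)) - (H t - cl (2 ^ L * t - 1))| ≤
      17 * 2 ^ L * |s - t| := by
    intro s t
    have e1 := hl' s t
    have e2 := win_cl_lip (2 ^ L * s - 1) (2 ^ L * t - 1)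
    have e3 : (2 : ℝ) ^ L * s - 1 - (2 ^ L * t - 1) = 2 ^ L * (s - t) := by ring
    rw [e3, abs_mul, abs_of_pos hp] at e2
    have e4 : (H s - cl (2 ^ L * s - 1)) - (H t - cl (2 ^ L * t - 1)) =
        (H s - H t) - (cl (2 ^ L * s - 1) - cl (2 ^ L * t - 1)) := by ring
    rw [e4]
    refine (abs_sub _ _).trans ?_
    linarith
  refine ⟨fun s => H s - cl (2 ^ L * s - 1), ?_, fun s => ⟨?_, ?_⟩, fun s hs => ⟨?_, ?_⟩,
    fun y => ?_, fun y z => ?_, ?_⟩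
  · refine (LipschitzWith.of_dist_le_mul (K := ⟨17 * 2 ^ L, by positivity⟩) fun s t => ?_).continuous
    exact hlip s t
  · show 0 ≤ H s - cl (2 ^ L * s - 1)
    rcases le_total s (1 / 2 ^ L) with h | h
    · rw [win_cl_zero (by nlinarith)]; linarith [(h01 s).1]
    · rw [h1 s h]; linarith [(win_cl_mem (2 ^ L * s - 1)).2]
  · linarith [(h01 s).2, (win_cl_mem (2 ^ L * s - 1)).1]
  · by_contra h
    push Not at h
    apply hs
    show H s - cl (2 ^ L * s - 1) = 0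
    rw [h0 s h.le, win_cl_zero (by nlinarith), sub_zero]
  · by_contra h
    push Not at h
    apply hs
    show H s - cl (2 ^ L * s - 1) = 0
    rw [h1 s (by linarith), win_cl_one (by nlinarith), sub_self]
  · show H (dp x r y) - Zc x r L y ≤ Oc x r L y - Zc x r L y
    rcases le_total (dp x r y) (-(1 / 2 ^ L)) with h | h
    · rw [h0 _ h]; linarith [(Oc_mem x r L y).1]
    · rw [Oc_eq_one h]; linarith [(h01 (dp x r y)).2]
  · exact (hlip _ _).trans (mul_le_mul_of_nonneg_left (dp_lip x r y z) (by positivity))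
  · have i1 : Integrable fun y => H (dp x r y) * ⟪y - x, g y⟫ := by
      refine integrable_mul_inner (a' := 3) (b' := 1) (SL.of_unit (b := 16 * 2 ^ L)
        (fun y => h01 _) fun y z => (hl' _ _).trans
          (mul_le_mul_of_nonneg_left (dp_lip x r y z) (by positivity))) (by norm_num)
        zero_le_one (fun y hy => ?_) (win_sub_lip x) hg
      by_contra h
      push Not at h
      exact hy (h0 _ (by unfold dp; linarith))
    have i2 : Integrable fun y => Zc x r L y * ⟪y - x, g y⟫ :=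
      integrable_mul_inner (a' := 2) (b' := 1) (SL_Zc x r L) (by norm_num) zero_le_one
        (fun y hy => (norm_lt_of_Zc hy).le.trans hr2) (win_sub_lip x) hg
    have e : ∫ y, (H (dp x r y) - cl (2 ^ L * dp x r y - 1)) * ⟪y - x, g y⟫ =
        (∫ y, H (dp x r y) * ⟪y - x, g y⟫) - rho g x r L := by
      rw [rho, ← integral_sub i1 i2]
      refine integral_congr_ae (ae_of_all _ fun y => ?_)
      simp only [Zc]; ring
    rw [e]
    linarith

theorem win_D_ge {σ L : ℕ} (h : σ ≤ L) : 1 / 2 ^ L ≤ (qq ^ σ) ^ 16 := by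
  rw [qq_pow_pow]
  exact one_div_le_one_div_of_le (by positivity) (pow_le_pow_right₀ one_le_two h)

theorem win_s_mem (σ : ℕ) : 0 < qq ^ σ ∧ qq ^ σ ≤ 1 :=
  ⟨pow_pos qq_pos _, pow_le_one₀ qq_pos.le qq_lt_one.le⟩

theorem win_δ_le {σ L : ℕ} (h : σ ≤ L) : 1 / 2 ^ L ≤ (qq ^ σ) ^ 4 :=
  (win_D_ge h).trans (pow_le_pow_of_le_one (win_s_mem σ).1.le (win_s_mem σ).2 (by norm_num))

theorem win_one_le {σ L : ℕ} (h : σ ≤ L) : 1 ≤ (qq ^ σ) ^ 4 * 2 ^ L := by
  have := win_δ_le h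
  rwa [div_le_iff₀ (by positivity)] at this

/-- the kernel cut off near the cluster -/
theorem win_SL {Ca : ℝ} (hCa : 1 ≤ Ca) {σ L : ℕ} (h : σ ≤ L) {p : E} {a : E → ℝ} {a' : E → E}
    (ha : Cut Ca p ((qq ^ σ) ^ 4) a a') {K : E → ℝ} (hK : ∀ y, 0 ≤ K y ∧ K y ≤ 1)
    (hl : ∀ y z, |K y - K z| ≤ 17 * 2 ^ L * ‖y - z‖) :
    SL (fun y => K y * a y) 1 ((17 + Ca) * 2 ^ L) := by
  have h1 := (SL.of_unit hK hl).mul (SL.of_unit ha.nn ha.lip)
  refine h1.mono (by norm_num) ?_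
  have h2 : Ca / (qq ^ σ) ^ 4 ≤ Ca * 2 ^ L := by
    rw [div_le_iff₀ (pow_pos (win_s_mem σ).1 _)]
    have := win_one_le h
    nlinarith
  linarith

theorem win_mem_Ann {x : E} {r : ℝ} {L : ℕ} {K : E → ℝ}
    (hK : ∀ y, 0 ≤ K y ∧ K y ≤ Oc x r L y - Zc x r L y) {y : E} (hy : K y ≠ 0) :
    y ∈ Ann x r L :=
  mem_Ann_of_Oc_Zc (((hK y).1.lt_of_ne' hy).trans_le (hK y).2).ne'

theorem win_norm_le {x : E} {r : ℝ} (hr : r ≤ 2) {L : ℕ} {y : E} (hy : y ∈ Ann x r L) :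
    ‖y - x‖ ≤ 6 := by
  have := Ann_subset hr hy
  rwa [mem_closedBall, dist_eq_norm] at this

theorem win_bdd (x : E) {r : ℝ} (hr : r ≤ 2) (L : ℕ) : Bornology.IsBounded (Ann x r L) :=
  isBounded_closedBall.subset (Ann_subset hr)

/-- splitting `K = K (1 - a) + K a` -/
theorem win_split {g : E → E} (hg : Integrable g) {x : E} {r : ℝ} (hr : r ≤ 2) {L : ℕ}
    {K a : E → ℝ} {b : ℝ} (hK : ∀ y, 0 ≤ K y ∧ K y ≤ Oc x r L y - Zc x r L y)
    (hK1 : ∀ y, K y ≤ 1) (hl : ∀ y z, |K y - K z| ≤ 17 * 2 ^ L * ‖y - z‖)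
    (hKa : SL (fun y => K y * a y) 1 b) :
    ∫ y, K y * ⟪y - x, g y⟫ =
      (∫ y, K y * (1 - a y) * ⟪y - x, g y⟫) + ∫ y, K y * a y * ⟪y - x, g y⟫ := by
  have i1 : Integrable fun y => K y * ⟪y - x, g y⟫ :=
    integrable_mul_inner (a' := 6) (b' := 1) (SL.of_unit (fun y => ⟨(hK y).1, hK1 y⟩) hl)
      (by norm_num) zero_le_one (fun y hy => win_norm_le hr (win_mem_Ann hK hy)) (win_sub_lip x) hg
  have i2 : Integrable fun y => K y * a y * ⟪y - x, g y⟫ :=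
    integrable_mul_inner (a' := 6) (b' := 1) hKa (by norm_num) zero_le_one
      (fun y hy => win_norm_le hr (win_mem_Ann hK (left_ne_zero_of_mul hy))) (win_sub_lip x) hg
  have e : ∫ y, K y * (1 - a y) * ⟪y - x, g y⟫ =
      (∫ y, K y * ⟪y - x, g y⟫) - ∫ y, K y * a y * ⟪y - x, g y⟫ := by
    rw [← integral_sub i1 i2]
    exact integral_congr_ae (ae_of_all _ fun y => by ring)
  rw [e]; ring

/-- the tangential term -/
theorem win_tan {g : E → E} {n : E} {φ μ : ℕ → Measure E} {V : ℝ} {x : E} {r : ℝ} {σ L : ℕ}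
    {p : E} (hc : Ctx g n φ μ V x r) (hG : Good g μ V x r σ p) (hL : σ ≤ L) (hσ : 3 ≤ σ)
    {Ca : ℝ} (hCa : 1 ≤ Ca) {a : E → ℝ} {a' : E → E} (ha : Cut Ca p ((qq ^ σ) ^ 4) a a')
    {k : ℝ → ℝ} (hk : Continuous k) (hk0 : ∀ s, 0 ≤ k s ∧ k s ≤ 1)
    (hks : ∀ s, k s ≠ 0 → -(1 / 2 ^ L) ≤ s ∧ s ≤ 4 * (1 / 2 ^ L)) :
    |∫ y, k (dp x r y) * a y * ⟪rot (y - x), g y⟫| ≤
      80 * Ca * ((qq ^ σ) ^ 4 * max ⟪n, Phi g x r L⟫ 0) + 18720 * Ca * (qq ^ σ * V) := by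
  have hg := hc.kd.gi
  obtain ⟨hs0, hs1⟩ := win_s_mem σ
  have hV := hc.V0
  have hp : (0 : ℝ) < 2 ^ L := by positivity
  have hδ4 : (1 : ℝ) / 2 ^ L ≤ 1 / 4 := by
    refine one_div_le_one_div_of_le (by norm_num) ?_
    calc (4 : ℝ) = 2 ^ 2 := by norm_num
      _ ≤ 2 ^ L := pow_le_pow_right₀ one_le_two (by omega)
  obtain ⟨κ, hκ, -, hsupp, hint⟩ := tang (x := x) hg hc.kd.curl ha hCa hc.r1 hc.r2
    (by positivity : (0 : ℝ) < 1 / 2 ^ L) hδ4 (win_δ_le hL) hk hk0 hks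
  set A : ℝ := 20 * Ca * (1 / 2 ^ L) / (qq ^ σ) ^ 4 with hA
  have hA0 : 0 ≤ A := by positivity
  have hA2 : 20 * Ca / (qq ^ σ) ^ 4 = A * 2 ^ L := by rw [hA]; field_simp
  rw [hA2] at hκ
  have hZ := SL_Zc x r L
  have hZ' : SL (fun y => 1 - Zc x r L y) 1 (2 ^ L) :=
    SL.of_unit (fun y => ⟨by linarith [(Zc_mem x r L y).2], by linarith [(Zc_mem x r L y).1]⟩)
      fun y z => by
        have := hZ.lip z y
        rw [Real.norm_eq_abs, norm_sub_rev] at this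
        rwa [sub_sub_sub_cancel_left]
  have s1 : SL (fun y => Zc x r L y • κ y) (2 * A) (2 * A * 2 ^ L) :=
    (hZ.smul hA0 (by positivity) (fun y _ => hκ.bd y) hκ.lip).mono (by linarith) (by linarith)
  have s2 : SL (fun y => (1 - Zc x r L y) • κ y) (2 * A) (2 * A * 2 ^ L) :=
    (hZ'.smul hA0 (by positivity) (fun y _ => hκ.bd y) hκ.lip).mono (by linarith) (by linarith)
  have s3 : SL (fun y => A * Zc x r L y) (2 * A) (2 * A * 2 ^ L) :=
    (hZ.const_mul hA0).mono (by linarith) (by nlinarith)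
  have e1 := hc.kd.conele L s1 s3 (S := closedBall x 6) (fun y => by
      rw [norm_smul, Real.norm_of_nonneg (Zc_mem x r L y).1, mul_comm]
      exact mul_le_mul_of_nonneg_right (hκ.bd y) (Zc_mem x r L y).1) isBounded_closedBall
    (fun y hy => by
      by_contra h
      refine hy ?_
      rw [mem_closedBall, dist_eq_norm]
      linarith [norm_lt_of_Zc (right_ne_zero_of_mul h), hc.r2])
  have e2 := hc.kd.absle L s2 (S := Ann x r L \ ball p ((qq ^ σ) ^ 4))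
    ((win_bdd x hc.r2 L).subset Set.sdiff_subset) (fun y hy => by
      by_contra h
      have h1 := hsupp y (right_ne_zero_of_smul h)
      have h2 : dp x r y < 2 / 2 ^ L := by
        by_contra h3
        exact left_ne_zero_of_smul h (by rw [Zc_eq_one (not_lt.1 h3), sub_self])
      refine hy ⟨?_, ?_⟩
      · show |dp x r y| ≤ 4 / 2 ^ L
        have h4 : (4 : ℝ) / 2 ^ L = 4 * (1 / 2 ^ L) := by ring
        have h5 : (2 : ℝ) / 2 ^ L = 2 * (1 / 2 ^ L) := by ring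
        have h6 : (0 : ℝ) < 1 / 2 ^ L := by positivity
        rw [abs_le]
        constructor <;> linarith [h1.1]
      · rw [mem_ball, dist_eq_norm, not_lt]
        exact h1.2.1)
  have e3 : ∫ y, A * Zc x r L y * ⟪n, g y⟫ = A * ⟪n, Phi g x r L⟫ := by
    rw [inner_Phi hg, ← integral_const_mul]
    exact integral_congr_ae (ae_of_all _ fun y => by ring)
  have e4 : ∫ y, k (dp x r y) * a y * ⟪rot (y - x), g y⟫ =
      (∫ y, ⟪Zc x r L y • κ y, g y⟫) + ∫ y, ⟪(1 - Zc x r L y) • κ y, g y⟫ := by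
    rw [← integral_add (s1.integrable_inner hg) (s2.integrable_inner hg)]
    have : ∫ y, k (dp x r y) * a y * ⟪rot (y - x), g y⟫ = ∫ y, ⟪κ y, g y⟫ := by
      rw [← hint]
      exact integral_congr_ae (ae_of_all _ fun y => by ring)
    rw [this]
    refine integral_congr_ae (ae_of_all _ fun y => ?_)
    simp only [real_inner_smul_left]; ring
  rw [e3] at e1
  -- sizes of the constants
  have hD : 0 < (qq ^ σ) ^ 4 := by positivity
  have a1 : A ≤ 20 * Ca * (qq ^ σ) ^ 4 := by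
    rw [hA, div_le_iff₀ hD]
    have h1 := win_D_ge hL
    have h2 : (qq ^ σ) ^ 16 ≤ (qq ^ σ) ^ 8 := pow_le_pow_of_le_one hs0.le hs1 (by norm_num)
    have h3 : (qq ^ σ) ^ 4 * (qq ^ σ) ^ 4 = (qq ^ σ) ^ 8 := by ring
    rw [mul_assoc (20 * Ca), h3]
    exact mul_le_mul_of_nonneg_left (h1.trans h2) (by positivity)
  have a2 : A * (φ L).real (closedBall x 6) ≤ 20 * Ca * (qq ^ σ * V) := by
    refine (mul_le_mul_of_nonneg_left (hc.tot L) hA0).trans ?_
    obtain ⟨ht0, -⟩ := win_s_mem L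
    have h1 : qq ^ L ≤ qq ^ σ := pow_le_pow_of_le_one qq_pos.le qq_lt_one.le hL
    have h2 : (qq ^ L) ^ 15 ≤ (qq ^ σ) ^ 5 :=
      (pow_le_pow_left₀ ht0.le h1 _).trans (pow_le_pow_of_le_one hs0.le hs1 (by norm_num))
    have h3 : A * (V / qq ^ L) = 20 * Ca * V * ((qq ^ L) ^ 15 / (qq ^ σ) ^ 4) := by
      rw [hA, ← qq_pow_pow]; field_simp
    have h4 : (qq ^ L) ^ 15 / (qq ^ σ) ^ 4 ≤ qq ^ σ := by
      rw [div_le_iff₀ hD]
      exact h2.trans (le_of_eq (by ring))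
    rw [h3]
    calc 20 * Ca * V * ((qq ^ L) ^ 15 / (qq ^ σ) ^ 4) ≤ 20 * Ca * V * qq ^ σ :=
          mul_le_mul_of_nonneg_left h4 (by positivity)
      _ = _ := by ring
  have a3 : A * (μ L).real (Ann x r L \ ball p ((qq ^ σ) ^ 4)) ≤ 20 * Ca * (qq ^ σ * V) := by
    obtain ⟨j, rfl⟩ := Nat.exists_eq_add_of_le hL
    have h1 := hc.kd.μle_pow σ j (Ann x r (σ + j) \ ball p ((qq ^ σ) ^ 4))
    have h2 := hc.kd.μmono σ (Set.sdiff_subset_sdiff_left (t := ball p ((qq ^ σ) ^ 4))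
      (Ann_anti (x := x) (r := r) hL))
    have h3 : (μ (σ + j)).real (Ann x r (σ + j) \ ball p ((qq ^ σ) ^ 4)) ≤ 2 ^ j * (qq ^ σ * V) :=
      h1.trans (mul_le_mul_of_nonneg_left (h2.trans hG.out) (by positivity))
    refine (mul_le_mul_of_nonneg_left h3 hA0).trans ?_
    have h4 : A * 2 ^ j ≤ 20 * Ca := by
      have h5 : A * 2 ^ j = 20 * Ca * (1 / 2 ^ σ / (qq ^ σ) ^ 4) := by
        rw [hA, pow_add]; field_simp
      have h6 : 1 / 2 ^ σ / (qq ^ σ) ^ 4 ≤ 1 := by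
        rw [div_le_one hD]; exact win_δ_le le_rfl
      rw [h5]
      exact mul_le_of_le_one_right (by positivity) h6
    rw [← mul_assoc]
    exact mul_le_mul_of_nonneg_right h4 (by positivity)
  have a4 : A * ⟪n, Phi g x r L⟫ ≤ 20 * Ca * ((qq ^ σ) ^ 4 * max ⟪n, Phi g x r L⟫ 0) := by
    refine (mul_le_mul_of_nonneg_left (le_max_left _ 0) hA0).trans ?_
    rw [← mul_assoc]
    exact mul_le_mul_of_nonneg_right a1 (le_max_right _ _)
  rw [e4]
  refine (abs_add_le _ _).trans ?_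
  linarith

/-- the decomposition of the radial field near the cluster -/
theorem win_dec {ν v : E} (hν : ‖ν‖ = 1) {ς : ℝ} (hς : ς = 1 ∨ ς = -1) (hγ : ς * ⟪v, ν⟫ ≠ 0)
    (r : ℝ) (z : E) :
    ς • z = (r / (ς * ⟪v, ν⟫)) • v - (⟪v, rot ν⟫ / (ς * ⟪v, ν⟫)) • rot z +
      (ς • (z - r • ν) + (⟪v, rot ν⟫ / (ς * ⟪v, ν⟫)) • rot (z - r • ν)) := by
  have h := expand_rot hν v
  have hγ' : ⟪v, ν⟫ ≠ 0 := right_ne_zero_of_mul hγ
  generalize ⟪v, ν⟫ = c at *
  generalize ⟪v, rot ν⟫ = β at *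
  subst h
  rw [rot_sub, rot_smul]
  ext i
  simp only [PiLp.add_apply, PiLp.sub_apply, PiLp.smul_apply, smul_eq_mul]
  rcases hς with rfl | rfl <;> field_simp <;> ring

/-- the non tangential part of the inside integral -/
theorem win_in {g : E → E} {n : E} {φ μ : ℕ → Measure E} (hk : KD g n φ μ) {L : ℕ} {S : Set E}
    (hS : Bornology.IsBounded S) {h : E → ℝ} {Hh D : ℝ} (hH : 1 ≤ Hh) (h0 : ∀ y, 0 ≤ h y)
    (hh : SL h 1 (Hh * 2 ^ L)) (hs : ∀ y, y ∉ S → h y = 0) (hD : 0 < D)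
    (hD1 : D ≤ 1 / (2400 * 19216)) (hDL : 1 ≤ D * 2 ^ L) {v : E} (hv : ‖v‖ ≤ 3)
    (hnv : 1 / 400 ≤ ⟪n, v⟫) {c : ℝ} (hc1 : 1 / 3 ≤ c) (hc2 : c ≤ 800) {ρ : E → E}
    (hρ : ∀ y, h y ≠ 0 → ‖ρ y‖ ≤ 4804 * D) (hρl : ∀ y z, ‖ρ y - ρ z‖ ≤ 1201 * ‖y - z‖) :
    -(10 ^ 9 * Hh * (φ L).real S) ≤ c * (∫ y, h y * ⟪v, g y⟫) + ∫ y, h y * ⟪ρ y, g y⟫ := by
  have hg := hk.gi
  have hh' : SL h Hh (Hh * 2 ^ L) := hh.mono hH le_rfl
  have hb : 0 ≤ (φ L).real S := measureReal_nonneg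
  have hp : (0 : ℝ) < 2 ^ L := by positivity
  have e1 := hk.lown L h0 hh' hS hs
  have hnn : ⟪n, n⟫ = 1 := by rw [real_inner_self_eq_norm_sq, hk.n1]; norm_num
  have e2 := hk.lowc L (ξ := v - (1 / 800 : ℝ) • n) (c := 1 / 800) (B := 4) (by norm_num)
    (by rw [inner_sub_right, real_inner_smul_right, hnn]; linarith)
    ((norm_sub_le _ _).trans (by rw [norm_smul, hk.n1]; norm_num; linarith)) h0 hh' hS hs
  have e3 : ∫ y, h y * ⟪v - (1 / 800 : ℝ) • n, g y⟫ =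
      (∫ y, h y * ⟪v, g y⟫) - 1 / 800 * ∫ y, h y * ⟪n, g y⟫ := by
    rw [← integral_const_mul, ← integral_sub (hh.integrable_mul_inner hg v)
      ((hh.integrable_mul_inner hg n).const_mul _)]
    refine integral_congr_ae (ae_of_all _ fun y => ?_)
    simp only [inner_sub_left, real_inner_smul_left]; ring
  have s1 : SL (fun y => h y • ρ y) (6005 * Hh * D) (6005 * Hh * D * 2 ^ L) := by
    refine (hh.smul (by positivity) (by norm_num) hρ hρl).mono (by nlinarith) ?_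
    have : D * 2 ^ L ≤ Hh * (D * 2 ^ L) := le_mul_of_one_le_left (by positivity) hH
    nlinarith
  have s2 : SL (fun y => 4804 * D * h y) (6005 * Hh * D) (6005 * Hh * D * 2 ^ L) := by
    refine (hh.const_mul (by positivity)).mono (by nlinarith) ?_
    have : 0 ≤ Hh * (D * 2 ^ L) := by positivity
    nlinarith
  have e4 := hk.conele L s1 s2 (fun y => by
      rw [norm_smul, Real.norm_of_nonneg (h0 y), mul_comm]
      by_cases hy : h y = 0
      · simp [hy]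
      · exact mul_le_mul_of_nonneg_right (hρ y hy) (h0 y)) hS
    (fun y hy => by rw [hs y hy, mul_zero])
  have e5 : ∫ y, 4804 * D * h y * ⟪n, g y⟫ = 4804 * D * ∫ y, h y * ⟪n, g y⟫ := by
    rw [← integral_const_mul]
    exact integral_congr_ae (ae_of_all _ fun y => by ring)
  have e6 : ∫ y, ⟪h y • ρ y, g y⟫ = ∫ y, h y * ⟪ρ y, g y⟫ :=
    integral_congr_ae (ae_of_all _ fun y => real_inner_smul_left _ _ _)
  rw [e5, e6] at e4
  rw [e3] at e2
  generalize ∫ y, h y * ⟪n, g y⟫ = N at *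
  generalize ∫ y, h y * ⟪v, g y⟫ = P at *
  generalize ∫ y, h y * ⟪ρ y, g y⟫ = Q at *
  have hB : 0 ≤ Hh * (φ L).real S := by positivity
  have e7 : 9 * Hh * (φ L).real S = 9 * (Hh * (φ L).real S) := by ring
  have e8 : 9 * (4 + 4 ^ 2 / (1 / 800)) * Hh * (φ L).real S = 115236 * (Hh * (φ L).real S) := by
    ring
  have e9 : 432 * (6005 * Hh * D) * (φ L).real S = 2594160 * (D * (Hh * (φ L).real S)) := by ring
  have e10 : 10 ^ 9 * Hh * (φ L).real S = 10 ^ 9 * (Hh * (φ L).real S) := by ring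
  rw [e7] at e1
  rw [e8] at e2
  rw [e9] at e4
  rw [e10]
  generalize Hh * (φ L).real S = B at *
  have f1 := (abs_le.1 e4).1
  have f2 : D * B ≤ B := mul_le_of_le_one_left hB (by linarith)
  have f3 : c * (1 / 800 * N - 115236 * B) ≤ c * P :=
    mul_le_mul_of_nonneg_left (by linarith) (by linarith)
  have f4 : c * B ≤ 800 * B := mul_le_mul_of_nonneg_right hc2 hB
  have f5 : 0 ≤ (c / 800 - 19216 * D) * (N + 9 * B) := mul_nonneg (by linarith) (by linarith)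
  have f6 : 0 ≤ D * B := by positivity
  nlinarith

/-- Let `δ = 1/2^L`, `H` from `Good.win`, `K y = H (dp y) - Zc L y` (`0 ≤ K ≤ Oc L - Zc L`,
`17 * 2^L`-Lipschitz, profile `s ↦ H s - cl (2^L s - 1)` supported in `[-δ, 2δ]`).  Then
`ς rho L ≤ - ∫ K ⟪ς (y - x), g⟫`.  Outside part: `out_le`.  Inside: with `γ = ς ⟪v,ν⟫ ∈ [1/400, 3]`,
`β = ⟪v, rot ν⟫`, `w = y - x - r ν`:
`ς (y - x) = (r/γ) v - (β/γ) rot (y - x) + rem`, `rem = ς w + (β/γ) rot w`, `‖rem‖ ≤ C D` where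
`a ≠ 0` (`Good.geom`).  `∫ K a ⟪v,g⟫ ≥ (1/800) ∫ K a ⟪n,g⟫ - C b_L` (`KD.lowc` for `v - n/800`),
`|∫ K a ⟪rem,g⟫| ≤ C D (∫ K a ⟪n,g⟫ + b_L)` (`KD.conele`), `∫ K a ⟪n,g⟫ ≥ -C b_L`; for `σ ≥ σ₀`
the credit absorbs `C D`.  Tangential term: `tang`, `κ = Zc L • κ + (1 - Zc L) • κ`; the first by
`KD.conele` (`h = 20 Ca δ/D Zc L`, `S = closedBall x 6`), the second by `KD.absle` on
`Ann L \ ball p D` with `δ μ L ≤ 2^(-σ) μ σ` (`KD.μle_pow`). -/
theorem win_le : ∃ C : ℝ, 0 < C ∧ ∃ σ₀ : ℕ, ∀ {g : E → E} {n : E} {φ μ : ℕ → Measure E} {V : ℝ}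
    {x : E} {r : ℝ} {σ L : ℕ} {p : E} {ς : ℝ} {v : E}, Ctx g n φ μ V x r → Good g μ V x r σ p →
    Gap φ V x r σ L → σ₀ ≤ σ → (ς = 1 ∨ ς = -1) → ‖v‖ ≤ 3 → 1 / 400 ≤ ⟪n, v⟫ →
    1 / 400 ≤ ς * ⟪v, nu x p⟫ →
    ς * rho g x r L ≤ C * ((φ L).real (Ann x r L) + qq ^ σ * V +
      (qq ^ σ) ^ 4 * (max ⟪n, Phi g x r L⟫ 0 + V / qq ^ σ)) := by
  obtain ⟨Ca, hCa, hcut⟩ := exists_cut
  obtain ⟨Co, hCo, hout⟩ := out_le Ca hCa
  obtain ⟨σ₁, hσ₁⟩ := exists_pow_lt_of_lt_one (show (0 : ℝ) < 1 / (2400 * 19216) by norm_num)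
    qq_lt_one
  refine ⟨6 * Co + 10 ^ 9 * (17 + Ca), by positivity, max σ₁ 3, ?_⟩
  intro g n φ μ V x r σ L p ς v hc hG hgap hσ hς hv hnv hγ
  have hg := hc.kd.gi
  have hL := hgap.1
  have hσ3 : 3 ≤ σ := (le_max_right _ _).trans hσ
  obtain ⟨hs0, hs1⟩ := win_s_mem σ
  have hV := hc.V0
  have hD : 0 < (qq ^ σ) ^ 4 := by positivity
  have hD1 : (qq ^ σ) ^ 4 ≤ 1 / (2400 * 19216) := by
    have h1 : (qq ^ σ) ^ 4 ≤ (qq ^ σ) ^ 1 := pow_le_pow_of_le_one hs0.le hs1 (by norm_num)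
    have h2 : qq ^ σ ≤ qq ^ σ₁ :=
      pow_le_pow_of_le_one qq_pos.le qq_lt_one.le ((le_max_left _ _).trans hσ)
    rw [pow_one] at h1
    linarith
  obtain ⟨a, a', ha⟩ := hcut p _ hD
  obtain ⟨k, hk, hk0, hks, hkO, hkl, hρ⟩ := win_K hg hc.r2 (hG.win L hL) hς
  obtain ⟨-, hν, hgeo⟩ := hG.geom hc.r1 hσ3
  have hK : ∀ y, 0 ≤ k (dp x r y) ∧ k (dp x r y) ≤ Oc x r L y - Zc x r L y :=
    fun y => ⟨(hk0 _).1, hkO y⟩
  have hsl := win_SL hCa hL ha (K := fun y => k (dp x r y)) (fun y => hk0 _) hkl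
  have hsplit := win_split hg hc.r2 hK (fun y => (hk0 _).2) hkl hsl
  have ho := (hout (κ := fun y => y - x) (B := 6) hc hG hgap ha (by norm_num) (fun y hy => hy)
    (fun y z => (win_sub_lip x y z).trans
      (mul_le_mul_of_nonneg_right (by norm_num) (norm_nonneg _)))).2 _ hK hkl
  have ht := win_tan hc hG hL hσ3 hCa ha hk hk0 hks
  have hς1 : |ς| = 1 := by rcases hς with rfl | rfl <;> simp
  set ν := nu x p with hνdef
  set γ := ς * ⟪v, ν⟫ with hγdef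
  set β := ⟪v, rot ν⟫ with hβdef
  have hγ0 : 0 < γ := by linarith
  have hγ3 : γ ≤ 3 := by
    have h1 := abs_real_inner_le_norm v ν
    rw [hν, mul_one] at h1
    have h2 : |γ| ≤ 3 := by rw [hγdef, abs_mul, hς1, one_mul]; linarith
    exact (le_abs_self _).trans h2
  have hβ : |β / γ| ≤ 1200 := by
    have h1 := abs_real_inner_le_norm v (rot ν)
    rw [norm_rot, hν, mul_one] at h1
    rw [abs_div, abs_of_pos hγ0, div_le_iff₀ hγ0]
    linarith
  have hnorm : ∀ w : E, ‖ς • w + (β / γ) • rot w‖ ≤ 1201 * ‖w‖ := by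
    intro w
    refine (norm_add_le _ _).trans ?_
    rw [norm_smul, norm_smul, norm_rot, Real.norm_eq_abs, Real.norm_eq_abs, hς1]
    nlinarith [norm_nonneg w]
  have hrem1 : ∀ y, k (dp x r y) * a y ≠ 0 →
      ‖ς • (y - x - r • ν) + (β / γ) • rot (y - x - r • ν)‖ ≤ 4804 * (qq ^ σ) ^ 4 := by
    intro y hy
    have h1 : ‖y - p‖ ≤ 2 * (qq ^ σ) ^ 4 := by
      by_contra h
      exact right_ne_zero_of_mul hy (ha.zero y (not_le.1 h).le)
    have h2 := hgeo y h1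
    have h3 := hnorm (y - x - r • ν)
    linarith
  have hrem2 : ∀ y z : E, ‖(ς • (y - x - r • ν) + (β / γ) • rot (y - x - r • ν)) -
      (ς • (z - x - r • ν) + (β / γ) • rot (z - x - r • ν))‖ ≤ 1201 * ‖y - z‖ := by
    intro y z
    have h1 : (ς • (y - x - r • ν) + (β / γ) • rot (y - x - r • ν)) -
        (ς • (z - x - r • ν) + (β / γ) • rot (z - x - r • ν)) =
        ς • (y - z) + (β / γ) • rot (y - z) := by
      simp only [rot_sub, smul_sub]; abel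
    rw [h1]; exact hnorm _
  have hsupp : ∀ y, y ∉ Ann x r L → k (dp x r y) * a y = 0 := fun y hy => by
    by_contra h
    exact hy (win_mem_Ann hK (left_ne_zero_of_mul h))
  have hin := win_in hc.kd (win_bdd x hc.r2 L) (Hh := 17 + Ca) (by linarith)
    (fun y => mul_nonneg (hk0 _).1 (ha.nn y).1) hsl hsupp hD hD1 (win_one_le hL) hv hnv
    (c := r / γ) (by rw [le_div_iff₀ hγ0]; linarith [hc.r1])
    (by rw [div_le_iff₀ hγ0]; linarith [hc.r2]) hrem1 hrem2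
  have i1 := hsl.integrable_mul_inner hg v
  have i2 : Integrable fun y => k (dp x r y) * a y * ⟪rot (y - x), g y⟫ :=
    integrable_mul_inner (a' := 6) (b' := 1) hsl (by norm_num) zero_le_one
      (fun y hy => by
        rw [norm_rot]; exact win_norm_le hc.r2 (win_mem_Ann hK (left_ne_zero_of_mul hy)))
      (fun y z => by rw [← rot_sub, norm_rot]; exact win_sub_lip x y z) hg
  have i3 := integrable_mul_inner hsl (by positivity) (by norm_num) hrem1 hrem2 hg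
  have hdec : ς * ∫ y, k (dp x r y) * a y * ⟪y - x, g y⟫ =
      r / γ * (∫ y, k (dp x r y) * a y * ⟪v, g y⟫) -
        β / γ * (∫ y, k (dp x r y) * a y * ⟪rot (y - x), g y⟫) +
        ∫ y, k (dp x r y) * a y *
          ⟪ς • (y - x - r • ν) + (β / γ) • rot (y - x - r • ν), g y⟫ := by
    have i4 : Integrable fun y => r / γ * (k (dp x r y) * a y * ⟪v, g y⟫) -
        β / γ * (k (dp x r y) * a y * ⟪rot (y - x), g y⟫) := (i1.const_mul _).sub (i2.const_mul _)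
    rw [← integral_const_mul, ← integral_const_mul, ← integral_const_mul,
      ← integral_sub (i1.const_mul _) (i2.const_mul _), ← integral_add i4 i3]
    refine integral_congr_ae (ae_of_all _ fun y => ?_)
    have h1 := congrArg (fun u => ⟪u, g y⟫) (win_dec hν hς hγ0.ne' r (y - x))
    simp only [← hγdef, ← hβdef] at h1
    rw [inner_add_left, inner_sub_left, real_inner_smul_left, real_inner_smul_left,
      real_inner_smul_left] at h1
    beta_reduce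
    linear_combination (k (dp x r y) * a y) * h1
  rw [hsplit, mul_add, hdec] at hρ
  generalize ∫ y, k (dp x r y) * (1 - a y) * ⟪y - x, g y⟫ = I₁ at *
  generalize ∫ y, k (dp x r y) * a y * ⟪rot (y - x), g y⟫ = I₂ at *
  have f1 : -(ς * I₁) ≤ Co * 6 * (qq ^ σ * V) := by
    refine (neg_le_abs _).trans ?_
    rw [abs_mul, hς1, one_mul]; exact ho
  have f2 : β / γ * I₂ ≤ 1200 * (80 * Ca * ((qq ^ σ) ^ 4 * max ⟪n, Phi g x r L⟫ 0) +
      18720 * Ca * (qq ^ σ * V)) := by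
    refine (le_abs_self _).trans ?_
    rw [abs_mul]
    exact mul_le_mul hβ ht (abs_nonneg _) (by norm_num)
  have hb : 0 ≤ (φ L).real (Ann x r L) := measureReal_nonneg
  have hT : 0 ≤ (qq ^ σ) ^ 4 * max ⟪n, Phi g x r L⟫ 0 := mul_nonneg hD.le (le_max_right _ _)
  have hW : 0 ≤ (qq ^ σ) ^ 4 * (V / qq ^ σ) := by positivity
  have hX : 0 ≤ qq ^ σ * V := by positivity
  rw [mul_add ((qq ^ σ) ^ 4)]
  generalize (φ L).real (Ann x r L) = b at *
  generalize (qq ^ σ) ^ 4 * max ⟪n, Phi g x r L⟫ 0 = T at *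
  generalize (qq ^ σ) ^ 4 * (V / qq ^ σ) = W at *
  generalize qq ^ σ * V = X at *
  have g1 := mul_nonneg hCo.le hb
  have g2 := mul_nonneg hCo.le hT
  have g3 := mul_nonneg hCo.le hW
  have hCa0 : 0 ≤ Ca := by linarith
  have g4 := mul_nonneg hCa0 hT
  have g5 := mul_nonneg hCa0 hW
  have g6 := mul_nonneg hCa0 hX
  nlinarith

/-- Two distant clusters.  For both signs `ς rho L ≤ |∫ K ⟪y - x, g⟫|`, `K = K (1 - a) + K a`; the
first part by `out_le`, the second is supported in `Ann L \ ball p' ((qq^L)^4)`: `KD.absle` and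
`Good.out` for `p'`. -/
theorem far_le : ∃ C : ℝ, 0 < C ∧ ∀ {g : E → E} {n : E} {φ μ : ℕ → Measure E} {V : ℝ}
    {x : E} {r : ℝ} {σ L : ℕ} {p p' : E}, Ctx g n φ μ V x r → Good g μ V x r σ p →
    Gap φ V x r σ L → Good g μ V x r L p' → 2 * (qq ^ σ) ^ 4 + (qq ^ L) ^ 4 ≤ ‖p - p'‖ →
    |rho g x r L| ≤ C * (qq ^ σ * V) := by
  obtain ⟨Ca, hCa, hcut⟩ := exists_cut
  obtain ⟨Co, hCo, hout⟩ := out_le Ca hCa
  refine ⟨6 * Co + 36 * (6 * (17 + Ca) + 1), by positivity, ?_⟩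
  intro g n φ μ V x r σ L p p' hc hG hgap hG' hfar
  have hg := hc.kd.gi
  have hL := hgap.1
  obtain ⟨hs0, hs1⟩ := win_s_mem σ
  have hV := hc.V0
  have hD : 0 < (qq ^ σ) ^ 4 := by positivity
  obtain ⟨a, a', ha⟩ := hcut p _ hD
  have key : ∀ ς : ℝ, (ς = 1 ∨ ς = -1) →
      ς * rho g x r L ≤ (6 * Co + 36 * (6 * (17 + Ca) + 1)) * (qq ^ σ * V) := by
    intro ς hς
    obtain ⟨k, hk, hk0, hks, hkO, hkl, hρ⟩ := win_K hg hc.r2 (hG.win L hL) hς
    have hK : ∀ y, 0 ≤ k (dp x r y) ∧ k (dp x r y) ≤ Oc x r L y - Zc x r L y :=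
      fun y => ⟨(hk0 _).1, hkO y⟩
    have hsl := win_SL hCa hL ha (K := fun y => k (dp x r y)) (fun y => hk0 _) hkl
    have hsplit := win_split hg hc.r2 hK (fun y => (hk0 _).2) hkl hsl
    have ho := (hout (κ := fun y => y - x) (B := 6) hc hG hgap ha (by norm_num) (fun y hy => hy)
      (fun y z => (win_sub_lip x y z).trans
        (mul_le_mul_of_nonneg_right (by norm_num) (norm_nonneg _)))).2 _ hK hkl
    have hς1 : |ς| = 1 := by rcases hς with rfl | rfl <;> simp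
    have h1 : (1 : ℝ) ≤ 2 ^ L := one_le_pow₀ one_le_two
    have s1 : SL (fun y => (k (dp x r y) * a y) • (y - x)) (6 * (17 + Ca) + 1)
        ((6 * (17 + Ca) + 1) * 2 ^ L) :=
      (hsl.smul (a' := 6) (b' := 1) (by norm_num) zero_le_one
        (fun y hy => win_norm_le hc.r2 (win_mem_Ann hK (left_ne_zero_of_mul hy)))
        (win_sub_lip x)).mono (by linarith) (by nlinarith)
    have e1 := hc.kd.absle L s1 (S := Ann x r L \ ball p' ((qq ^ L) ^ 4))
      ((win_bdd x hc.r2 L).subset Set.sdiff_subset) (fun y hy => by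
        by_contra h
        have h2 := left_ne_zero_of_smul h
        refine hy ⟨win_mem_Ann hK (left_ne_zero_of_mul h2), fun h3 => ?_⟩
        rw [mem_ball, dist_eq_norm] at h3
        refine right_ne_zero_of_mul h2 (ha.zero y ?_)
        have h4 := norm_sub_le_norm_sub_add_norm_sub p y p'
        rw [norm_sub_rev p y] at h4
        linarith)
    have e2 : ∫ y, ⟪(k (dp x r y) * a y) • (y - x), g y⟫ =
        ∫ y, k (dp x r y) * a y * ⟪y - x, g y⟫ :=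
      integral_congr_ae (ae_of_all _ fun y => real_inner_smul_left _ _ _)
    have e3 : (μ L).real (Ann x r L \ ball p' ((qq ^ L) ^ 4)) ≤ qq ^ σ * V :=
      hG'.out.trans (mul_le_mul_of_nonneg_right
        (pow_le_pow_of_le_one qq_pos.le qq_lt_one.le hL) hV.le)
    rw [e2] at e1
    have e4 := e1.trans (mul_le_mul_of_nonneg_left e3 (by positivity))
    refine hρ.trans ((neg_le_abs _).trans ?_)
    rw [abs_mul, hς1, one_mul, hsplit]
    refine (abs_add_le _ _).trans ?_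
    linarith
  rw [abs_le]
  have k1 := key 1 (Or.inl rfl)
  have k2 := key (-1) (Or.inr rfl)
  constructor <;> linarith

end Crest.Agent.R112
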