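import Crest.Agent.R112.Tool

/-! # Row 112: radial cutoffs (task ZED) -/

set_option autoImplicit false

namespace Crest.Agent.R112

open MeasureTheory Metric
open scoped RealInnerProductSpace

theorem zed_cl_mem (t : ℝ) : 0 ≤ cl t ∧ cl t ≤ 1 :=
  ⟨le_max_left _ _, max_le zero_le_one (min_le_left _ _)⟩

theorem zed_cl_mono {s t : ℝ} (h : s ≤ t) : cl s ≤ cl t :=
  max_le_max le_rfl (min_le_min le_rfl h)

theorem zed_cl_lip (s t : ℝ) : |cl s - cl t| ≤ |s - t| := by
  have h1 := abs_max_sub_max_le_abs (min 1 s) (min 1 t) 0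
  have h2 := abs_min_sub_min_le_max 1 s 1 t
  rw [sub_self, abs_zero, max_eq_right (abs_nonneg _)] at h2
  unfold cl
  rw [max_comm 0, max_comm 0]
  exact h1.trans h2

theorem zed_cl_one {t : ℝ} (h : 1 ≤ t) : cl t = 1 := by
  unfold cl
  rw [min_eq_left h, max_eq_right zero_le_one]

theorem zed_cl_zero {t : ℝ} (h : t ≤ 0) : cl t = 0 :=
  max_eq_left ((min_le_right _ _).trans h)

section
variable (x : E) (r : ℝ) (m : ℕ)

theorem dp_lip (y z : E) : |dp x r y - dp x r z| ≤ ‖y - z‖ := by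
  unfold dp
  rw [show r - ‖y - x‖ - (r - ‖z - x‖) = ‖z - x‖ - ‖y - x‖ by ring, abs_sub_comm]
  simpa using abs_norm_sub_norm_le (y - x) (z - x)

theorem Zc_mem (y : E) : 0 ≤ Zc x r m y ∧ Zc x r m y ≤ 1 := zed_cl_mem _

theorem Oc_mem (y : E) : 0 ≤ Oc x r m y ∧ Oc x r m y ≤ 1 := zed_cl_mem _

theorem zed_SL (c : ℝ) : SL (fun y => cl (2 ^ m * dp x r y + c)) 1 (2 ^ m) :=
  SL.of_unit (fun _ => zed_cl_mem _) fun y z => (zed_cl_lip _ _).trans (by
    rw [add_sub_add_right_eq_sub, ← mul_sub, abs_mul, abs_of_nonneg (by positivity)]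
    exact mul_le_mul_of_nonneg_left (dp_lip x r y z) (by positivity))

theorem SL_Zc : SL (Zc x r m) 1 (2 ^ m) := zed_SL x r m (-1)

theorem SL_Oc : SL (Oc x r m) 1 (2 ^ m) := zed_SL x r m 2

variable {x r m}

theorem Zc_mono {l : ℕ} (h : l ≤ m) (y : E) : Zc x r l y ≤ Zc x r m y := by
  have h1 : (2 : ℝ) ^ l ≤ 2 ^ m := pow_le_pow_right₀ one_le_two h
  rcases le_total 0 (dp x r y) with h0 | h0
  · exact zed_cl_mono (by nlinarith)
  · have : (2 : ℝ) ^ l * dp x r y ≤ 0 := mul_nonpos_of_nonneg_of_nonpos (by positivity) h0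
    exact (zed_cl_zero (by linarith)).trans_le (Zc_mem x r m y).1

theorem Oc_anti {l : ℕ} (h : l ≤ m) (y : E) : Oc x r m y ≤ Oc x r l y := by
  have h1 : (2 : ℝ) ^ l ≤ 2 ^ m := pow_le_pow_right₀ one_le_two h
  rcases le_total 0 (dp x r y) with h0 | h0
  · have : 0 ≤ (2 : ℝ) ^ l * dp x r y := by positivity
    exact (Oc_mem x r m y).2.trans_eq (zed_cl_one (by linarith)).symm
  · exact zed_cl_mono (by nlinarith)

theorem Zc_le_Oc (l : ℕ) (y : E) : Zc x r l y ≤ Oc x r m y := by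
  rcases le_total 0 (dp x r y) with h0 | h0
  · have : 0 ≤ (2 : ℝ) ^ m * dp x r y := by positivity
    exact (Zc_mem x r l y).2.trans_eq (zed_cl_one (by linarith)).symm
  · have : (2 : ℝ) ^ l * dp x r y ≤ 0 := mul_nonpos_of_nonneg_of_nonpos (by positivity) h0
    exact (zed_cl_zero (by linarith)).trans_le (Oc_mem x r m y).1

theorem Zc_eq_one {y : E} (h : 2 / 2 ^ m ≤ dp x r y) : Zc x r m y = 1 := by
  rw [div_le_iff₀ (by positivity)] at h
  exact zed_cl_one (by linarith)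

theorem Zc_eq_zero {y : E} (h : dp x r y ≤ 1 / 2 ^ m) : Zc x r m y = 0 := by
  rw [le_div_iff₀ (by positivity)] at h
  exact zed_cl_zero (by linarith)

theorem Oc_eq_one {y : E} (h : -(1 / 2 ^ m) ≤ dp x r y) : Oc x r m y = 1 := by
  rw [← neg_div, div_le_iff₀ (by positivity)] at h
  exact zed_cl_one (by linarith)

theorem Oc_eq_zero {y : E} (h : dp x r y ≤ -(2 / 2 ^ m)) : Oc x r m y = 0 := by
  rw [← neg_div, le_div_iff₀ (by positivity)] at h
  exact zed_cl_zero (by linarith)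

theorem Ann_anti {l : ℕ} (h : l ≤ m) : Ann x r m ⊆ Ann x r l := by
  intro y hy
  have h1 : |dp x r y| ≤ 4 / 2 ^ m := hy
  exact h1.trans (div_le_div_of_nonneg_left (by norm_num) (by positivity)
    (pow_le_pow_right₀ one_le_two h))

theorem Ann_subset (hr : r ≤ 2) : Ann x r m ⊆ closedBall x 6 := by
  intro y hy
  have h1 : |dp x r y| ≤ 4 := by simpa [Ann] using Ann_anti (Nat.zero_le m) hy
  have h2 := (abs_le.1 h1).1
  unfold dp at h2
  rw [mem_closedBall, dist_eq_norm]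
  linarith

theorem zed_half : (2 : ℝ) / 2 ^ (m + 1) = 1 / 2 ^ m ∧ (4 : ℝ) / 2 ^ (m + 1) = 2 / 2 ^ m ∧
    (1 : ℝ) / 2 ^ m = 2 * (1 / 2 ^ (m + 1)) ∧ (2 : ℝ) / 2 ^ m = 2 * (1 / 2 ^ m) ∧
    (4 : ℝ) / 2 ^ m = 4 * (1 / 2 ^ m) ∧ (0 : ℝ) < 1 / 2 ^ (m + 1) := by
  refine ⟨?_, ?_, ?_, ?_, ?_, by positivity⟩ <;> field_simp <;> ring

theorem mem_Ann_of_Zc {y : E} (h : Zc x r (m + 1) y - Zc x r m y ≠ 0) : y ∈ Ann x r (m + 1) := by
  obtain ⟨e1, e2, e3, e4, e5, e6⟩ := zed_half (m := m)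
  by_contra hc
  rcases lt_abs.1 (not_le.1 (show ¬ |dp x r y| ≤ _ from hc)) with h1 | h1
  · exact h (by rw [Zc_eq_one (by linarith), Zc_eq_one (by linarith), sub_self])
  · exact h (by rw [Zc_eq_zero (by linarith), Zc_eq_zero (by linarith), sub_self])

theorem mem_Ann_of_Oc {y : E} (h : Oc x r m y - Oc x r (m + 1) y ≠ 0) : y ∈ Ann x r (m + 1) := by
  obtain ⟨e1, e2, e3, e4, e5, e6⟩ := zed_half (m := m)
  by_contra hc
  rcases lt_abs.1 (not_le.1 (show ¬ |dp x r y| ≤ _ from hc)) with h1 | h1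
  · exact h (by rw [Oc_eq_one (by linarith), Oc_eq_one (by linarith), sub_self])
  · exact h (by rw [Oc_eq_zero (by linarith), Oc_eq_zero (by linarith), sub_self])

theorem mem_Ann_of_Oc_Zc {y : E} (h : Oc x r m y - Zc x r m y ≠ 0) : y ∈ Ann x r m := by
  obtain ⟨e1, e2, e3, e4, e5, e6⟩ := zed_half (m := m)
  by_contra hc
  rcases lt_abs.1 (not_le.1 (show ¬ |dp x r y| ≤ _ from hc)) with h1 | h1
  · exact h (by rw [Oc_eq_one (by linarith), Zc_eq_one (by linarith), sub_self])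
  · exact h (by rw [Oc_eq_zero (by linarith), Zc_eq_zero (by linarith), sub_self])

theorem norm_lt_of_Zc {y : E} (h : Zc x r m y ≠ 0) : ‖y - x‖ < r := by
  by_contra hc
  refine h (Zc_eq_zero (le_trans ?_ (by positivity : (0 : ℝ) ≤ 1 / 2 ^ m)))
  unfold dp
  linarith

theorem SL_dZ : SL (fun y => Zc x r (m + 1) y - Zc x r m y) 2 (2 * 2 ^ (m + 1)) := by
  have : (2 : ℝ) ^ m ≤ 2 ^ (m + 1) := pow_le_pow_right₀ one_le_two (Nat.le_succ m)
  exact ((SL_Zc x r (m + 1)).sub (SL_Zc x r m)).mono (by norm_num) (by linarith)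

theorem SL_dO : SL (fun y => Oc x r m y - Oc x r (m + 1) y) 2 (2 * 2 ^ (m + 1)) := by
  have : (2 : ℝ) ^ m ≤ 2 ^ (m + 1) := pow_le_pow_right₀ one_le_two (Nat.le_succ m)
  exact ((SL_Oc x r m).sub (SL_Oc x r (m + 1))).mono (by norm_num) (by linarith)

end

variable {g : E → E} {n : E} {φ μ : ℕ → Measure E} {V : ℝ} {x : E} {r : ℝ}

theorem inner_Phi (hg : Integrable g) (ξ x : E) (r : ℝ) (m : ℕ) :
    ⟪ξ, Phi g x r m⟫ = ∫ y, Zc x r m y * ⟪ξ, g y⟫ := by
  rw [Phi, ← integral_inner ((SL_Zc x r m).integrable_smul hg)]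
  simp only [real_inner_smul_right]

theorem SS_nonneg (φ : ℕ → Measure E) (x : E) (r : ℝ) (L : ℕ) : 0 ≤ SS φ x r L :=
  add_nonneg measureReal_nonneg (Finset.sum_nonneg fun _ _ => measureReal_nonneg)

theorem zed_SS_zero (φ : ℕ → Measure E) (x : E) (r : ℝ) :
    SS φ x r 0 = (φ 0).real (closedBall x 6) := by
  simp [SS]

theorem zed_SS_succ (φ : ℕ → Measure E) (x : E) (r : ℝ) (L : ℕ) :
    SS φ x r (L + 1) = SS φ x r L + (φ (L + 1)).real (Ann x r (L + 1)) := by
  unfold SS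
  rw [Finset.sum_Icc_succ_top (by omega), add_assoc]

theorem SS_mono (φ : ℕ → Measure E) (x : E) (r : ℝ) {l L : ℕ} (h : l ≤ L) :
    SS φ x r l ≤ SS φ x r L :=
  monotone_nat_of_le_succ (f := SS φ x r)
    (fun n => by rw [zed_SS_succ]; exact le_add_of_nonneg_right measureReal_nonneg) h

theorem Ctx.le_SS (h : Ctx g n φ μ V x r) (L : ℕ) : (φ L).real (Ann x r L) ≤ SS φ x r L := by
  cases L with
  | zero => rw [zed_SS_zero]; exact h.kd.φmono 0 (Ann_subset h.r2)
  | succ L => rw [zed_SS_succ]; exact le_add_of_nonneg_left (SS_nonneg _ _ _ _)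

theorem Ctx.ann_le (h : Ctx g n φ μ V x r) (L : ℕ) : (φ L).real (Ann x r L) ≤ V / qq ^ L :=
  (h.kd.φmono L (Ann_subset h.r2)).trans (h.tot L)

theorem zed_ann_bdd (hr : r ≤ 2) (L : ℕ) : Bornology.IsBounded (Ann x r L) :=
  isBounded_closedBall.subset (Ann_subset hr)

theorem zed_Z0 (hr : r ≤ 2) (y : E) (hy : y ∉ closedBall x 6) : Zc x r 0 y = 0 := by
  by_contra hc
  have := norm_lt_of_Zc hc
  exact hy (by rw [mem_closedBall, dist_eq_norm]; linarith)

/-- telescoping over the pieces `Zc (l+1) - Zc l` (`KD.lowc`, `SL_dZ`, `mem_Ann_of_Zc`) -/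
theorem Ctx.lowZ (h : Ctx g n φ μ V x r) {ξ : E} {c B : ℝ} (hc : 0 < c) (hξ : c ≤ ⟪n, ξ⟫)
    (hB : ‖ξ‖ ≤ B) {l L : ℕ} (hl : l ≤ L) :
    -(18 * (B + B ^ 2 / c) * SS φ x r L) ≤ ⟪ξ, Phi g x r L⟫ - ⟪ξ, Phi g x r l⟫ ∧
    -(18 * (B + B ^ 2 / c) * SS φ x r L) ≤ ⟪ξ, Phi g x r L⟫ := by
  have hB0 : 0 ≤ B := (norm_nonneg _).trans hB
  have hK : 0 ≤ B + B ^ 2 / c := by positivity
  have step : ∀ m, -(18 * (B + B ^ 2 / c) * (φ (m + 1)).real (Ann x r (m + 1))) ≤
      ⟪ξ, Phi g x r (m + 1)⟫ - ⟪ξ, Phi g x r m⟫ := by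
    intro m
    have := h.kd.lowc (m + 1) hc hξ hB (fun y => sub_nonneg.2 (Zc_mono (Nat.le_succ m) y))
      (SL_dZ (x := x) (r := r) (m := m)) (zed_ann_bdd h.r2 _) fun y hy => by
        by_contra hc'
        exact hy (mem_Ann_of_Zc hc')
    rw [inner_Phi h.kd.gi, inner_Phi h.kd.gi,
      ← integral_sub ((SL_Zc x r _).integrable_mul_inner h.kd.gi ξ)
        ((SL_Zc x r _).integrable_mul_inner h.kd.gi ξ)]
    simp only [sub_mul] at this
    linarith
  have tel : ∀ l L, l ≤ L → -(18 * (B + B ^ 2 / c) * (SS φ x r L - SS φ x r l)) ≤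
      ⟪ξ, Phi g x r L⟫ - ⟪ξ, Phi g x r l⟫ := by
    intro l L hl
    induction L, hl using Nat.le_induction with
    | base => simp
    | succ L _ ih =>
      have := step L
      rw [zed_SS_succ]
      linarith
  have base := h.kd.lowc 0 hc hξ hB (fun y => (Zc_mem x r 0 y).1)
    ((SL_Zc x r 0).mono le_rfl (one_mul _).ge) isBounded_closedBall (zed_Z0 h.r2)
  rw [← inner_Phi h.kd.gi, ← zed_SS_zero φ x r] at base
  have h1 := mul_nonneg hK (SS_nonneg φ x r l)
  have h2 := mul_nonneg hK (SS_nonneg φ x r 0)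
  have h3 := tel l L hl
  have h4 := tel 0 L (Nat.zero_le _)
  constructor <;> linarith

theorem zed_piece (hk : KD g n φ μ) (m : ℕ) {k : E → ℝ} {κ : E → E} {S : Set E}
    (h0 : ∀ y, 0 ≤ k y) (hh : SL k 2 (2 * 2 ^ m)) (hS : Bornology.IsBounded S)
    (hs : ∀ y, y ∉ S → k y = 0) (hbd : ∀ y, k y ≠ 0 → ‖κ y‖ ≤ 2)
    (hl : ∀ y z, ‖κ y - κ z‖ ≤ 1 * ‖y - z‖) :
    |∫ y, k y * ⟪κ y, g y⟫| ≤ 8 * (∫ y, k y * ⟪n, g y⟫) + 3456 * (φ m).real S := by
  have h2 : (1 : ℝ) ≤ 2 ^ m := one_le_pow₀ one_le_two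
  have := hk.conele m (H := 8) (S := S) (κ := fun y => k y • κ y) (h := fun y => 2 * k y)
    ((hh.smul zero_le_two zero_le_one hbd hl).mono (by norm_num) (by linarith))
    ((hh.const_mul zero_le_two).mono (by norm_num) (by linarith)) (fun y => by
      rw [norm_smul, Real.norm_of_nonneg (h0 y), mul_comm]
      by_cases hy : k y = 0
      · simp [hy]
      · exact mul_le_mul_of_nonneg_right (hbd y hy) (h0 y)) hS (fun y hy => by
      rw [hs y hy, mul_zero])
  simp only [real_inner_smul_left, mul_assoc (2 : ℝ), integral_const_mul] at this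
  linarith

theorem zed_bd (h : Ctx g n φ μ V x r) {κ : E → E} (hbd : ∀ y, ‖y - x‖ < r → ‖κ y‖ ≤ 2)
    (hl : ∀ y z, ‖κ y - κ z‖ ≤ 1 * ‖y - z‖) (L : ℕ) :
    |∫ y, Zc x r L y * ⟪κ y, g y⟫| ≤ 8 * ⟪n, Phi g x r L⟫ + 3456 * SS φ x r L := by
  have hi : ∀ m, Integrable fun y => Zc x r m y * ⟪κ y, g y⟫ := fun m =>
    integrable_mul_inner (SL_Zc x r m) zero_le_two zero_le_one
      (fun y hy => hbd y (norm_lt_of_Zc hy)) hl h.kd.gi
  induction L with
  | zero =>
    rw [inner_Phi h.kd.gi, zed_SS_zero]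
    exact zed_piece h.kd 0 (fun y => (Zc_mem x r 0 y).1)
      ((SL_Zc x r 0).mono one_le_two (by norm_num)) isBounded_closedBall (zed_Z0 h.r2)
      (fun y hy => hbd y (norm_lt_of_Zc hy)) hl
  | succ m ih =>
    have := zed_piece h.kd (m + 1) (fun y => sub_nonneg.2 (Zc_mono (Nat.le_succ m) y))
      (SL_dZ (x := x) (r := r) (m := m)) (zed_ann_bdd h.r2 _) (fun y hy => by
        by_contra hc'
        exact hy (mem_Ann_of_Zc hc')) (fun y hy => hbd y (norm_lt_of_Zc (m := m + 1) fun h' => hy (by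
          have h1 := Zc_mono (x := x) (r := r) (Nat.le_succ m) y
          have h2 := (Zc_mem x r m y).1
          rw [h'] at h1 ⊢
          linarith))) hl
    simp only [sub_mul] at this
    rw [integral_sub (hi _) (hi _), integral_sub ((SL_Zc x r _).integrable_mul_inner h.kd.gi n)
      ((SL_Zc x r _).integrable_mul_inner h.kd.gi n), ← inner_Phi h.kd.gi,
      ← inner_Phi h.kd.gi] at this
    rw [zed_SS_succ]
    have h3 := abs_sub_abs_le_abs_sub (∫ y, Zc x r (m + 1) y * ⟪κ y, g y⟫)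
      (∫ y, Zc x r m y * ⟪κ y, g y⟫)
    linarith

/-- `KD.conele` for the pieces `Zc 0`, `Zc (l+1) - Zc l` times the fields `v` (unit, e.g.
`v = dir (Phi ..)`) and `y - x` (norm `≤ 2` on the supports) -/
theorem bdZ : ∃ C : ℝ, 0 < C ∧ ∀ {g : E → E} {n : E} {φ μ : ℕ → Measure E} {V : ℝ} {x : E} {r : ℝ},
    Ctx g n φ μ V x r → ∀ L, ‖Phi g x r L‖ + |rho g x r L| ≤
      C * (max ⟪n, Phi g x r L⟫ 0 + SS φ x r L) := by
  refine ⟨6912, by norm_num, fun {g n φ μ V x r} h L => ?_⟩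
  have h1 := zed_bd h (κ := fun _ => dir (Phi g x r L)) (fun _ _ => by rw [norm_dir]; norm_num)
    (fun _ _ => by simp) L
  have h2 := zed_bd h (κ := fun y => y - x) (fun y hy => hy.le.trans h.r2)
    (fun _ _ => by simp) L
  rw [← inner_Phi h.kd.gi, inner_dir, abs_norm] at h1
  have h3 := le_max_left ⟪n, Phi g x r L⟫ 0
  have h4 := le_max_right ⟪n, Phi g x r L⟫ 0
  unfold rho
  linarith

theorem zed_geom (σ : ℕ) (s : Finset ℕ) (hs : ∀ l ∈ s, σ ≤ l) :
    ∑ l ∈ s, qq ^ l ≤ (1 - qq)⁻¹ * qq ^ σ := by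
  have h1 : s ⊆ Finset.Ico σ (s.sup id + 1) := fun l hl =>
    Finset.mem_Ico.2 ⟨hs l hl, Nat.lt_succ_of_le (Finset.le_sup (f := id) hl)⟩
  refine (Finset.sum_le_sum_of_subset_of_nonneg h1 fun _ _ _ => pow_nonneg qq_pos.le _).trans ?_
  rw [mul_comm, ← div_eq_mul_inv]
  exact geom_sum_Ico_le_of_lt_one qq_pos.le qq_lt_one

/-- geometric sums `∑_{l ≤ L} qq^(-l) ≤ C qq^(-L)`, `∑_{l ≥ σ} qq^l ≤ C qq^σ` -/
theorem SS_le : ∃ C : ℝ, 0 < C ∧ ∀ {g : E → E} {n : E} {φ μ : ℕ → Measure E} {V : ℝ} {x : E}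
    {r : ℝ}, Ctx g n φ μ V x r → (∀ L, SS φ x r L ≤ C * V / qq ^ L) ∧
      ∀ σ L, Gap φ V x r σ L → SS φ x r L ≤ C * V / qq ^ σ := by
  have hq := qq_pos
  have hq1 := qq_lt_one
  obtain ⟨C, hC⟩ : ∃ C : ℝ, C = (1 - qq)⁻¹ := ⟨_, rfl⟩
  have hC1 : C * (1 - qq) = 1 := by rw [hC]; exact inv_mul_cancel₀ (by linarith)
  have hC0 : 0 < C := by rw [hC]; exact inv_pos.2 (by linarith)
  refine ⟨3 * C, by positivity, fun {g n φ μ V x r} h => ?_⟩
  have hV := h.V0
  have A : ∀ L, SS φ x r L ≤ C * (V / qq ^ L) := by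
    intro L
    induction L with
    | zero =>
      rw [zed_SS_zero]
      refine (h.tot 0).trans (le_mul_of_one_le_left (by positivity) ?_)
      nlinarith
    | succ L ih =>
      have h1 := h.ann_le (L + 1)
      have h2 : V / qq ^ L = qq * (V / qq ^ (L + 1)) := by rw [pow_succ]; field_simp
      rw [zed_SS_succ]
      rw [h2] at ih
      have h3 : C * (V / qq ^ (L + 1)) = C * (qq * (V / qq ^ (L + 1))) + V / qq ^ (L + 1) := by
        linear_combination (V / qq ^ (L + 1)) * hC1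
      linarith
  refine ⟨fun L => ?_, fun σ L hg => ?_⟩
  · have h1 := A L
    have h2 : 0 ≤ C * (V / qq ^ L) := by positivity
    rw [mul_div_assoc]
    linarith
  · have h0 : 0 ≤ C * (V / qq ^ σ) := by positivity
    have h1 : SS φ x r (σ + 1) ≤ 2 * (C * (V / qq ^ σ)) := by
      refine (A _).trans ?_
      have h2 : V / qq ^ σ = qq * (V / qq ^ (σ + 1)) := by rw [pow_succ]; field_simp
      have h3 : 0 ≤ C * (V / qq ^ (σ + 1)) := by positivity
      have h4 := mul_le_mul_of_nonneg_left half_lt_qq.le h3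
      rw [h2]
      linarith
    rw [mul_div_assoc]
    rcases le_total L (σ + 1) with hL | hL
    · have := SS_mono φ x r hL
      linarith
    · have B : ∀ M, σ + 1 ≤ M → M ≤ L →
          SS φ x r M ≤ SS φ x r (σ + 1) + V * ∑ l ∈ Finset.Ioc (σ + 1) M, qq ^ l := by
        intro M hM
        induction M, hM using Nat.le_induction with
        | base => intro _; simp
        | succ M hM ih =>
          intro hML
          have h2 := ih (by omega)
          have h3 := hg.2 (M + 1) (by omega) hML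
          rw [zed_SS_succ, Finset.sum_Ioc_succ_top hM]
          linarith
      have h2 := B L hL le_rfl
      have h3 := zed_geom σ (Finset.Ioc (σ + 1) L) fun l hl => by
        have := (Finset.mem_Ioc.1 hl).1
        omega
      rw [← hC] at h3
      have h4 := mul_le_mul_of_nonneg_left h3 hV.le
      have h5 : qq ^ σ ≤ 1 := pow_le_one₀ hq.le hq1.le
      have h6 : V * qq ^ σ ≤ V / qq ^ σ :=
        (mul_le_of_le_one_right hV.le h5).trans (le_div_self hV.le (by positivity) h5)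
      have h7 := mul_le_mul_of_nonneg_left h6 hC0.le
      linarith

theorem geom_tail : ∃ C : ℝ, 0 < C ∧ ∀ (σ : ℕ) (s : Finset ℕ), (∀ l ∈ s, σ ≤ l) →
    ∑ l ∈ s, qq ^ l ≤ C * qq ^ σ :=
  ⟨(1 - qq)⁻¹, inv_pos.2 (sub_pos.2 qq_lt_one), zed_geom⟩

theorem zed_ev (c : ℝ) {d : ℝ} (hd : 0 < d) : ∀ᶠ L : ℕ in Filter.atTop, c / 2 ^ L ≤ d :=
  ((tendsto_const_nhds.div_atTop (tendsto_pow_atTop_atTop_of_one_lt one_lt_two)).eventually
    (gt_mem_nhds hd)).mono fun _ h => h.le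

/-- dominated convergence: `Zc x r L y → indicator (ball x r)` for every `y` -/
theorem tendsto_Phi (hg : Integrable g) (x : E) (r : ℝ) :
    Filter.Tendsto (Phi g x r) Filter.atTop (nhds (∫ y in ball x r, g y)) := by
  rw [← integral_indicator measurableSet_ball]
  refine tendsto_integral_of_dominated_convergence (fun y => ‖g y‖)
    (fun m => ((SL_Zc x r m).integrable_smul hg).aestronglyMeasurable) hg.norm
    (fun m => Filter.Eventually.of_forall fun y => ?_) (Filter.Eventually.of_forall fun y => ?_)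
  · rw [norm_smul, Real.norm_of_nonneg (Zc_mem x r m y).1]
    exact mul_le_of_le_one_left (norm_nonneg _) (Zc_mem x r m y).2
  · by_cases hy : y ∈ ball x r
    · rw [Set.indicator_of_mem hy]
      rw [mem_ball, dist_eq_norm] at hy
      refine tendsto_const_nhds.congr' ((zed_ev 2 (sub_pos.2 hy)).mono fun m hm => ?_)
      simp only [Zc_eq_one hm, one_smul]
    · rw [Set.indicator_of_notMem hy]
      rw [mem_ball, dist_eq_norm] at hy
      refine tendsto_const_nhds.congr fun m => ?_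
      have : Zc x r m y = 0 := by
        by_contra hc
        exact hy (norm_lt_of_Zc hc)
      simp only [this, zero_smul]

theorem zed_dct (hg : Integrable g) {x : E} {r : ℝ} {K : ℕ → E → ℝ} (hK : ∀ j, Continuous (K j))
    (h01 : ∀ j y, 0 ≤ K j y ∧ K j y ≤ 1) (hs : ∀ j y, dp x r y ≤ -1 → K j y = 0)
    (h1 : ∀ y, 0 < dp x r y → ∀ᶠ j in Filter.atTop, K j y = 1)
    (h0 : ∀ y, dp x r y < 0 → ∀ᶠ j in Filter.atTop, K j y = 0) :
    Filter.Tendsto (fun j => ∫ y, K j y * ⟪y - x, g y⟫) Filter.atTop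
      (nhds (∫ y in ball x r, ⟪y - x, g y⟫)) := by
  rw [← integral_indicator measurableSet_ball]
  refine tendsto_integral_of_dominated_convergence (fun y => (|r| + 1) * ‖g y‖)
    (fun j => (hK j).aestronglyMeasurable.mul
      ((continuous_id.sub continuous_const).aestronglyMeasurable.inner hg.aestronglyMeasurable))
    (hg.norm.const_mul _) (fun j => Filter.Eventually.of_forall fun y => ?_) ?_
  · rw [norm_mul, Real.norm_of_nonneg (h01 j y).1]
    rcases le_total (dp x r y) (-1) with h | h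
    · rw [hs j y h, zero_mul]
      positivity
    · refine (mul_le_of_le_one_left (norm_nonneg _) (h01 j y).2).trans
        ((norm_inner_le_norm _ _).trans (mul_le_mul_of_nonneg_right ?_ (norm_nonneg _)))
      unfold dp at h
      linarith [le_abs_self r]
  · have hsph : ∀ᵐ y : E, y ∉ sphere x r :=
      measure_eq_zero_iff_ae_notMem.1 (Measure.addHaar_sphere volume x r)
    refine hsph.mono fun y hy => ?_
    rw [mem_sphere, dist_eq_norm] at hy
    rcases lt_or_gt_of_ne hy with h | h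
    · rw [Set.indicator_of_mem (by rwa [mem_ball, dist_eq_norm])]
      refine tendsto_const_nhds.congr' ((h1 y (sub_pos.2 h)).mono fun j hj => ?_)
      simp only [hj, one_mul]
    · rw [Set.indicator_of_notMem (by rw [mem_ball, dist_eq_norm]; exact h.not_gt)]
      refine tendsto_const_nhds.congr' ((h0 y (sub_neg.2 h)).mono fun j hj => ?_)
      simp only [hj, zero_mul]

/-- `rho L → ∫_{ball} ⟪y - x, g y⟫ =: ρ`; the window kernels `H (dp y)` also converge to the
indicator off the null set `sphere x r` (`Measure.addHaar_sphere`), so `ρ ≤ 0` and `-ρ ≤ 0`. -/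
theorem tendsto_rho (hg : Integrable g) {x : E} {r : ℝ} {σ : ℕ}
    (hw : ∀ L : ℕ, σ ≤ L → Win g x r (1 / 2 ^ L)) :
    Filter.Tendsto (rho g x r) Filter.atTop (nhds 0) := by
  have t1 := zed_dct hg (x := x) (r := r) (K := Zc x r) (fun j => (SL_Zc x r j).continuous)
    (Zc_mem x r) (fun j y h => Zc_eq_zero (h.trans (le_trans (by norm_num)
      (by positivity : (0 : ℝ) ≤ 1 / 2 ^ j))))
    (fun y h => (zed_ev 2 h).mono fun j hj => Zc_eq_one hj)
    (fun y h => Filter.Eventually.of_forall fun j => Zc_eq_zero (h.le.trans (by positivity)))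
  have key : ∀ ς : ℝ, ς = 1 ∨ ς = -1 → ς * ∫ y in ball x r, ⟪y - x, g y⟫ ≤ 0 := by
    intro ς hς
    choose H a1 a2 a3 a4 a5 using fun j : ℕ => hw (j + σ) (Nat.le_add_left _ _) ς hς
    have hdp : Continuous (dp x r) := by unfold dp; fun_prop
    have hev : ∀ {d : ℝ}, 0 < d → ∀ᶠ j : ℕ in Filter.atTop, 1 / 2 ^ (j + σ) ≤ d := fun hd =>
      (Filter.tendsto_add_atTop_nat σ).eventually (zed_ev 1 hd)
    have t2 := zed_dct hg (x := x) (r := r) (K := fun j y => H j (dp x r y))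
      (fun j => (LipschitzWith.of_dist_le' (K := 16 / (1 / 2 ^ (j + σ))) fun s t => by
        simpa only [Real.dist_eq] using a2 j s t).continuous.comp hdp)
      (fun j y => a1 j _) (fun j y h => a4 j _ (h.trans (neg_le_neg
        ((div_le_one (by positivity)).2 (one_le_pow₀ one_le_two)))))
      (fun y h => (hev h).mono fun j hj => a3 j _ hj)
      (fun y h => (hev (neg_pos.2 h)).mono fun j hj => a4 j _ (by linarith))
    exact le_of_tendsto' (t2.const_mul ς) a5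
  have h1 := key 1 (Or.inl rfl)
  have h2 := key (-1) (Or.inr rfl)
  have h3 : ∫ y in ball x r, ⟪y - x, g y⟫ = 0 := by linarith
  rw [h3] at t1
  exact t1

end Crest.Agent.R112
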